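import Vale.Agent.P255.Bridge

/-!
# Fields along a curve read through a parametrisation
-/

open scoped Manifold ContDiff Topology
open Filter

set_option maxSynthPendingDepth 3

namespace Vale.Agent.P255

open Vale.Agent.P219 Vale.Agent.P219.Univ

noncomputable section

variable {M : Type} [TopologicalSpace M] [ChartedSpace E3 M] [IsManifold (𝓡 3) ∞ M]

/-- A field is continuously differentiable. -/
def FieldC1 (γ : ℝ → M) (J : ∀ s, TangentSpace (𝓡 3) (γ s)) : Prop :=
  ∀ t, ContDiffAt ℝ 1 (fieldAt γ J t) t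

/-- The integrand of the index form at time `t`. -/
def indexAt (g : SmoothMetric M) (γ : ℝ → M) (J : ∀ s, TangentSpace (𝓡 3) (γ s)) (t : ℝ) : ℝ :=
  indexForm (inChart g (γ t)) (curveAt γ t t) (deriv (curveAt γ t) t) (fieldAt γ J t t)
    (deriv (fieldAt γ J t) t)

/-- The product of the covariant derivative of one field with another field. -/
def covDot (g : SmoothMetric M) (γ : ℝ → M) (J K : ∀ s, TangentSpace (𝓡 3) (γ s)) (t : ℝ) : ℝ :=
  inChart g (γ t) (curveAt γ t t) (covAt g γ J t t) (fieldAt γ K t t)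

/-- A lift of a curve near time `t`. -/
structure IsLift (γ : ℝ → M) (N : E3 → M) (D : Set E3) (t : ℝ) (c : ℝ → E3) : Prop where
  mem : ∀ᶠ s in 𝓝 t, c s ∈ D ∧ N (c s) = γ s
  smooth : ∀ᶠ s in 𝓝 t, ContDiffAt ℝ ∞ c s

/-- The coordinates of a field along a lift. -/
def coordField {γ : ℝ → M} (N : E3 → M) (c : ℝ → E3) (J : ∀ s, TangentSpace (𝓡 3) (γ s)) :
    ℝ → E3 := fun s =>
  let L : E3 →L[ℝ] E3 := mfderiv (𝓡 3) (𝓡 3) N (c s)
  L.inverse (J s)

variable {g : SmoothMetric M} {N : E3 → M} {D : Set E3} {G : MetricField 3} {γ : ℝ → M} {t : ℝ}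
  {c : ℝ → E3}

theorem IsLift.eventually (hc : IsLift γ N D t c) :
    ∀ᶠ s in 𝓝 t, IsLift γ N D s c := by
  filter_upwards [hc.mem.eventually_nhds, hc.smooth.eventually_nhds] with s h1 h2
  exact ⟨h1, h2⟩

theorem IsParam.exists_lift (h : IsParam g N D G) (hγ : ContMDiff 𝓘(ℝ) (𝓡 3) ∞ γ) {y : E3}
    (hy : y ∈ D) (hN : N y = γ t) : ∃ c, c t = y ∧ IsLift γ N D t c := by
  have hq : N y ∈ (chartAt E3 (γ t)).source := hN ▸ mem_chart_source E3 (γ t)
  set φ := coordChange N (γ t) with hφ
  have hsm := h.contDiffAt_coordChange hy hq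
  have hbij := h.bijective_coordChange hy hq
  let L : E3 ≃L[ℝ] E3 := (LinearEquiv.ofBijective (fderiv ℝ φ y).toLinearMap hbij).toContinuousLinearEquiv
  have hd : HasFDerivAt φ (L : E3 →L[ℝ] E3) y := by
    have := (hsm.self_of_nhds.differentiableAt (by simp)).hasFDerivAt
    exact this.congr_fderiv (ContinuousLinearMap.ext fun u => rfl)
  set e := hsm.self_of_nhds.toOpenPartialHomeomorph φ hd (by simp)
  have he : (e : E3 → E3) = φ := hsm.self_of_nhds.toOpenPartialHomeomorph_coe hd (by simp)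
  have hys : y ∈ e.source := hsm.self_of_nhds.mem_toOpenPartialHomeomorph_source hd (by simp)
  refine ⟨fun s => e.symm (curveAt γ t s), ?_, ?_⟩
  · show e.symm (extChartAt (𝓡 3) (γ t) (γ t)) = y
    have : e y = extChartAt (𝓡 3) (γ t) (γ t) := by rw [he, hφ, coordChange, hN]
    rw [← this, e.left_inv hys]
  have hcont : ContinuousAt (curveAt γ t) t := by
    exact (continuousAt_extChartAt (γ t)).comp hγ.continuous.continuousAt
  have hcy : curveAt γ t t = e y := by
    rw [he, hφ, coordChange, hN]; rfl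
  have htarget : ∀ᶠ s in 𝓝 t, curveAt γ t s ∈ e.target :=
    hcont.preimage_mem_nhds (e.open_target.mem_nhds (hcy ▸ e.map_source hys))
  have hsymm : Tendsto (fun s => e.symm (curveAt γ t s)) (𝓝 t) (𝓝 y) := by
    have h1 := (e.continuousAt_symm (e.map_source hys)).tendsto
    rw [e.left_inv hys] at h1
    exact h1.comp (by rw [← hcy]; exact hcont)
  have hsrc : ∀ᶠ s in 𝓝 t, γ s ∈ (chartAt E3 (γ t)).source :=
    hγ.continuous.continuousAt.preimage_mem_nhds
      ((chartAt E3 (γ t)).open_source.mem_nhds (mem_chart_source E3 (γ t)))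
  refine ⟨?_, ?_⟩
  · filter_upwards [htarget, hsymm.eventually (h.eventually_good hy hq), hsrc] with s h1 h2 h3
    refine ⟨h2.1, ?_⟩
    have h4 : e (e.symm (curveAt γ t s)) = curveAt γ t s := e.right_inv h1
    rw [he] at h4
    refine (extChartAt (𝓡 3) (γ t)).injOn ?_ ?_ h4
    · rw [extChartAt_source]; exact h2.2
    · rw [extChartAt_source]; exact h3
  · filter_upwards [htarget.eventually_nhds, hsymm.eventually hsm, hsrc,
      hsymm.eventually (h.eventually_good hy hq)] with s h1 h2 h3 h4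
    have hb := h.bijective_coordChange h4.1 h4.2
    let L' : E3 ≃L[ℝ] E3 := (LinearEquiv.ofBijective
      (fderiv ℝ φ (e.symm (curveAt γ t s))).toLinearMap hb).toContinuousLinearEquiv
    have hd' : HasFDerivAt e (L' : E3 →L[ℝ] E3) (e.symm (curveAt γ t s)) := by
      rw [he]
      exact (h2.differentiableAt (by simp)).hasFDerivAt.congr_fderiv
        (ContinuousLinearMap.ext fun u => rfl)
    have hs : ContDiffAt ℝ ∞ e.symm (curveAt γ t s) :=
      e.contDiffAt_symm h1.self_of_nhds hd' (by rw [he]; exact h2)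
    exact hs.comp s ((contMDiffAt_extChartAt' (I := 𝓡 3) (n := ∞) h3).comp s (hγ s)).contDiffAt

theorem IsLift.curveAt_eq (hc : IsLift γ N D t c) :
    curveAt γ t =ᶠ[𝓝 t] fun s => coordChange N (γ t) (c s) :=
  hc.mem.mono fun s hs => by simp [curveAt, coordChange, hs.2]

theorem inverse_apply {L : E3 →L[ℝ] E3} (hL : Function.Bijective L) (v : E3) :
    L (L.inverse v) = v := by
  let e : E3 ≃L[ℝ] E3 := (LinearEquiv.ofBijective L.toLinearMap hL).toContinuousLinearEquiv
  have he : (e : E3 →L[ℝ] E3) = L := ContinuousLinearMap.ext fun u => rfl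
  rw [← he, ContinuousLinearMap.inverse_equiv]
  exact e.apply_symm_apply v

theorem IsParam.coordField_apply (h : IsParam g N D G) {s : ℝ} (hs : c s ∈ D)
    (J : ∀ s, TangentSpace (𝓡 3) (γ s)) :
    mfderiv (𝓡 3) (𝓡 3) N (c s) (coordField N c J s) = (J s : E3) :=
  inverse_apply (L := (mfderiv (𝓡 3) (𝓡 3) N (c s) : E3 →L[ℝ] E3)) (h.bij _ hs) (J s)

variable (h : IsParam g N D G) (hc : IsLift γ N D t c) (J : ∀ s, TangentSpace (𝓡 3) (γ s))
include h hc

theorem IsLift.chart_mem : c t ∈ D ∧ N (c t) ∈ (chartAt E3 (γ t)).source :=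
  ⟨hc.mem.self_of_nhds.1, hc.mem.self_of_nhds.2 ▸ mem_chart_source E3 (γ t)⟩

theorem IsLift.fieldAt_eq :
    fieldAt γ J t =ᶠ[𝓝 t] fun s => fderiv ℝ (coordChange N (γ t)) (c s) (coordField N c J s) := by
  have hct : ContinuousAt c t := hc.smooth.self_of_nhds.continuousAt
  obtain ⟨hy, hq⟩ := hc.chart_mem h
  filter_upwards [hc.mem, hct.eventually (h.eventually_good hy hq)] with s hs hs'
  rw [h.mfderiv_coordChange hs'.1 hs'.2, h.coordField_apply hs'.1]
  have key : ∀ p, p = γ s → ∀ v : E3,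
      (mfderiv (𝓡 3) (𝓡 3) (extChartAt (𝓡 3) (γ t)) p v : E3) =
        mfderiv (𝓡 3) (𝓡 3) (extChartAt (𝓡 3) (γ t)) (γ s) v := by
    intro p hp v; subst hp; rfl
  exact (key _ hs.2 (J s)).symm

theorem IsLift.contDiffAt_coordField {k : ℕ} (hJ : ContDiffAt ℝ k (fieldAt γ J t) t) :
    ContDiffAt ℝ k (coordField N c J) t := by
  have hct : ContinuousAt c t := hc.smooth.self_of_nhds.continuousAt
  obtain ⟨hy, hq⟩ := hc.chart_mem h
  have hD : ContDiffAt ℝ k (fun s => fderiv ℝ (coordChange N (γ t)) (c s)) t :=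
    ((contDiffAt_D (h.contDiffAt_coordChange hy hq).self_of_nhds).comp t
      hc.smooth.self_of_nhds).of_le (by exact_mod_cast le_top)
  obtain ⟨e, he⟩ : ∃ e : E3 ≃L[ℝ] E3, (e : E3 →L[ℝ] E3) = fderiv ℝ (coordChange N (γ t)) (c t) :=
    ⟨(LinearEquiv.ofBijective (fderiv ℝ (coordChange N (γ t)) (c t)).toLinearMap
      (h.bijective_coordChange hy hq)).toContinuousLinearEquiv, ContinuousLinearMap.ext fun u => rfl⟩
  have hinv : ContDiffAt ℝ k (fun s => (fderiv ℝ (coordChange N (γ t)) (c s)).inverse) t := by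
    have h1 : ContDiffAt ℝ k (ContinuousLinearMap.inverse : (E3 →L[ℝ] E3) → E3 →L[ℝ] E3)
        (fderiv ℝ (coordChange N (γ t)) (c t)) := he ▸ contDiffAt_map_inverse e
    exact h1.comp (f := fun s => fderiv ℝ (coordChange N (γ t)) (c s)) t hD
  refine (hinv.clm_apply hJ).congr_of_eventuallyEq ?_
  filter_upwards [hc.fieldAt_eq h J, hct.eventually (h.eventually_good hy hq)] with s h1 h2
  rw [h1]
  have hb := h.bijective_coordChange h2.1 h2.2
  let e' : E3 ≃L[ℝ] E3 := (LinearEquiv.ofBijective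
    (fderiv ℝ (coordChange N (γ t)) (c s)).toLinearMap hb).toContinuousLinearEquiv
  have he' : (e' : E3 →L[ℝ] E3) = fderiv ℝ (coordChange N (γ t)) (c s) :=
    ContinuousLinearMap.ext fun u => rfl
  rw [← he', ContinuousLinearMap.inverse_equiv]
  exact (e'.symm_apply_apply _).symm

theorem IsLift.velocity :
    deriv (curveAt γ t) t = fderiv ℝ (coordChange N (γ t)) (c t) (deriv c t) := by
  obtain ⟨hy, hq⟩ := hc.chart_mem h
  rw [hc.curveAt_eq.deriv_eq]
  exact (((h.contDiffAt_coordChange hy hq).self_of_nhds.differentiableAt (by simp)).hasFDerivAt.comp_hasDerivAt t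
    (hc.smooth.self_of_nhds.differentiableAt (by simp)).hasDerivAt).deriv

theorem IsLift.covAt_eq {s : ℝ} (hJ : DifferentiableAt ℝ (coordField N c J) s)
    (hs : ContDiffAt ℝ ∞ c s) (h1 : c s ∈ D) (h2 : N (c s) ∈ (chartAt E3 (γ t)).source)
    (h3 : curveAt γ t =ᶠ[𝓝 s] fun r => coordChange N (γ t) (c r))
    (h4 : fieldAt γ J t =ᶠ[𝓝 s]
      fun r => fderiv ℝ (coordChange N (γ t)) (c r) (coordField N c J r)) :
    covAt g γ J t s = fderiv ℝ (coordChange N (γ t)) (c s)
      (deriv (coordField N c J) s + gam G (c s) (deriv c s) (coordField N c J s)) := by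
  have hd := (hs.differentiableAt (by simp)).hasDerivAt
  obtain ⟨z, hz, hz2⟩ := cov_pull hd hJ.hasDerivAt (h.contDiffAt_coordChange h1 h2)
    (h.bijective_coordChange h1 h2) (IsParam.metricNear_chart h2 g)
  have hv : deriv (curveAt γ t) s = fderiv ℝ (coordChange N (γ t)) (c s) (deriv c s) := by
    rw [h3.deriv_eq]
    exact (((h.contDiffAt_coordChange h1 h2).self_of_nhds.differentiableAt (by simp)).hasFDerivAt.comp_hasDerivAt s
      hd).deriv
  rw [covAt, h4.deriv_eq, hz.deriv, hv, h3.eq_of_nhds, h4.eq_of_nhds, ← h.gam_eq h1 h2]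
  exact hz2

theorem IsLift.cov_eventually {k : ℕ} (hk : 1 ≤ k) (hJ : ContDiffAt ℝ k (fieldAt γ J t) t) :
    covAt g γ J t =ᶠ[𝓝 t] fun s => fderiv ℝ (coordChange N (γ t)) (c s)
      (deriv (coordField N c J) s + gam G (c s) (deriv c s) (coordField N c J s)) := by
  have hct : ContinuousAt c t := hc.smooth.self_of_nhds.continuousAt
  obtain ⟨hy, hq⟩ := hc.chart_mem h
  have hd : ∀ᶠ s in 𝓝 t, DifferentiableAt ℝ (coordField N c J) s :=
    ((hc.contDiffAt_coordField h J hJ).eventually (by simp)).mono fun s hs =>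
      hs.differentiableAt (by norm_cast; omega)
  filter_upwards [hc.curveAt_eq.eventuallyEq_nhds, (hc.fieldAt_eq h J).eventuallyEq_nhds,
    hc.smooth, hct.eventually (h.eventually_good hy hq), hd] with s h3 h4 hs h12 hds
  exact hc.covAt_eq h J hds hs h12.1 h12.2 h3 h4

/-- The index integrand read through a parametrisation. -/
theorem IsLift.indexAt_eq (hJ : ContDiffAt ℝ 1 (fieldAt γ J t) t) :
    indexAt g γ J t = indexForm G (c t) (deriv c t) (coordField N c J t)
      (deriv (coordField N c J) t) := by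
  obtain ⟨hy, hq⟩ := hc.chart_mem h
  have hcov := (hc.cov_eventually h J (k := 1) le_rfl hJ).eq_of_nhds
  simp only [covAt] at hcov
  rw [indexAt, indexForm, hcov, hc.velocity h, (hc.fieldAt_eq h J).eq_of_nhds,
    hc.curveAt_eq.eq_of_nhds, h.apply_eq hy hq, ← h.riem_eq hy hq, h.apply_eq hy hq]
  rfl

/-- The geodesic equation read through a parametrisation. -/
theorem IsLift.geodesic_eq (hγ : IsGeodesic g γ) :
    HasDerivAt (deriv c) (-gam G (c t) (deriv c t) (deriv c t)) t := by
  obtain ⟨hy, hq⟩ := hc.chart_mem h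
  have hd2 : DifferentiableAt ℝ (deriv c) t :=
    (((hc.smooth.self_of_nhds.fderiv_right (m := ∞) (by simp)).clm_apply
      contDiffAt_const).differentiableAt (by simp))
  have h1 := accel_pull (hc.smooth.mono fun s hs => hs.differentiableAt (by simp)) hd2
    (h.contDiffAt_coordChange hy hq) (h.bijective_coordChange hy hq)
    (IsParam.metricNear_chart hq g)
  rw [h.gam_eq hy hq] at h1
  have h2 := hγ.2 t
  have he : curveAt γ t =ᶠ[𝓝 t] coordChange N (γ t) ∘ c := hc.curveAt_eq
  rw [he.deriv.deriv_eq, he.deriv_eq, he.eq_of_nhds] at h2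
  simp only [Function.comp_apply] at h2
  rw [h2] at h1
  have h3 : deriv (deriv c) t + gam G (c t) (deriv c t) (deriv c t) = 0 :=
    (h.bijective_coordChange hy hq).1 (h1.symm.trans (map_zero _).symm)
  rw [← eq_neg_of_add_eq_zero_left h3]
  exact hd2.hasDerivAt

/-- The Jacobi equation read through a parametrisation. -/
theorem IsLift.jacobi_eq (hJ : IsJacobi g γ J) :
    ∃ z, HasDerivAt (fun s => deriv (coordField N c J) s +
        gam G (c s) (deriv c s) (coordField N c J s)) z t ∧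
      z + gam G (c t) (deriv c t)
          (deriv (coordField N c J) t + gam G (c t) (deriv c t) (coordField N c J t)) +
        riem G (c t) (coordField N c J t) (deriv c t) (deriv c t) = 0 := by
  obtain ⟨hy, hq⟩ := hc.chart_mem h
  obtain ⟨G', hG', hGe⟩ := (h.metricNear hy).extend
  obtain ⟨hJ2, hJ3⟩ := hJ t
  set w := coordField N c J
  have hw : ContDiffAt ℝ 2 w t := hc.contDiffAt_coordField h J hJ2
  have hw1 : DifferentiableAt ℝ (deriv w) t :=
    (((hw.fderiv_right (m := 1) le_rfl).clm_apply contDiffAt_const).differentiableAt one_ne_zero)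
  have hc' : ContDiffAt ℝ ∞ c t := hc.smooth.self_of_nhds
  have hd2 : DifferentiableAt ℝ (deriv c) t :=
    (((hc'.fderiv_right (m := ∞) (by simp)).clm_apply contDiffAt_const).differentiableAt (by simp))
  have hgam : DifferentiableAt ℝ (fun s => gam G (c s) (deriv c s) (w s)) t := by
    refine ((Geo.hasDerivAt_gam hG' (hc'.differentiableAt (by simp)).hasDerivAt hd2.hasDerivAt
      (hw.differentiableAt (by norm_num)).hasDerivAt).differentiableAt).congr_of_eventuallyEq ?_
    filter_upwards [hc'.continuousAt.eventually hGe.eventuallyEq_nhds] with s hs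
    exact (gam_congr hs _ _).symm
  have hDw := (hw1.fun_add hgam).hasDerivAt
  refine ⟨_, hDw, ?_⟩
  obtain ⟨z, hz, hz2⟩ := cov_pull (hc'.differentiableAt (by simp)).hasDerivAt hDw
    (h.contDiffAt_coordChange hy hq) (h.bijective_coordChange hy hq)
    (IsParam.metricNear_chart hq g)
  rw [h.gam_eq hy hq] at hz2
  have hcov : covAt g γ J t =ᶠ[𝓝 t] _ := hc.cov_eventually h J (k := 2) one_le_two hJ2
  rw [hcov.deriv_eq, hz.deriv, hcov.eq_of_nhds, hc.velocity h, hc.curveAt_eq.eq_of_nhds,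
    (hc.fieldAt_eq h J).eq_of_nhds, hz2, ← h.riem_eq hy hq, ← map_add] at hJ3
  exact (h.bijective_coordChange hy hq).1 (hJ3.trans (map_zero _).symm)

end

end Vale.Agent.P255
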