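import Vale.Agent.P255.Defs

/-!
# The explicit neck and the three pieces

Coordinates on the neck are `x = (r, y₁, y₂)`, with periods `(0, δ, 0)` and `(0, 0, 1)`.
-/

open scoped Manifold ContDiff Real

namespace Vale.Agent.P255

open Vale.Agent.P219 Vale.Agent.P219.Univ

noncomputable section

/-- A point of three-space. -/
def pt (a b c : ℝ) : E3 := !₂[a, b, c]

/-- The profile `exp (-8 / (r + 1))`, extended by zero. -/
def prof (r : ℝ) : ℝ := expNegInvGlue ((r + 1) / 8)

/-- The transition of the twist, from `0` at `-1/2` to `1` at `1/2`. -/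
def step (r : ℝ) : ℝ := Real.smoothTransition (r + 1 / 2)

/-- The length of the core part of a flare. -/
def phiH (r : ℝ) : ℝ := (Real.sqrt (1 - prof r))⁻¹

/-- A convex flare: `phiH` for `r ≤ 1`, of slope `c` for `r ≥ 2`. -/
def flare (c r : ℝ) : ℝ :=
  phiH r + ∫ x in (1 : ℝ)..r, Real.smoothTransition (x - 1) * (c - deriv phiH x)

/-- The length of the first circle of the neck. -/
def phi₁ (δ r : ℝ) : ℝ := flare (2 * π / δ) (-r)

/-- The length of the second circle of the neck. -/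
def phi₂ (r : ℝ) : ℝ := flare (2 * π) r

/-- The twist. -/
def twist (δ r : ℝ) : ℝ := δ * step r

/-- A coordinate. -/
def co (i : Fin 3) : E3 →L[ℝ] ℝ := EuclideanSpace.proj i

/-- The product of two covectors. -/
def outer (a b : E3 →L[ℝ] ℝ) : E3 →L[ℝ] E3 →L[ℝ] ℝ :=
  (ContinuousLinearMap.toSpanSingleton ℝ b).comp a

/-- The metric `dr² + φ₁² (dy₁ + σ dy₂)² + φ₂² dy₂²` of the neck. -/
def neckMetric (δ : ℝ) : MetricField 3 := fun x =>
  outer (co 0) (co 0) +
    phi₁ δ (x 0) ^ 2 • outer (co 1 + twist δ (x 0) • co 2) (co 1 + twist δ (x 0) • co 2) +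
    phi₂ (x 0) ^ 2 • outer (co 2) (co 2)

/-- The neck strip `|r| < 3`. -/
def strip : Set E3 := {x | |x 0| < 3}

/-- Difference by a vector of the neck lattice. -/
def NeckEq (δ : ℝ) (x y : E3) : Prop :=
  y 0 = x 0 ∧ (∃ m : ℤ, y 1 = x 1 + m * δ) ∧ ∃ m : ℤ, y 2 = x 2 + m

/-- Difference by a vector of the lattice `10ℤ × 10ℤ × pℤ`. -/
def BlockEq (p : ℝ) (x y : E3) : Prop :=
  (∃ m : ℤ, y 0 = x 0 + m * 10) ∧ (∃ m : ℤ, y 1 = x 1 + m * 10) ∧ ∃ m : ℤ, y 2 = x 2 + m * p

/-- The plane minus the closed discs of radius `ρ` at the points of `10ℤ × 10ℤ`, times the line. -/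
def block (ρ : ℝ) : Set E3 :=
  {x | ∀ m n : ℤ, ρ ^ 2 < (x 0 - m * 10) ^ 2 + (x 1 - n * 10) ^ 2}

/-- The radius around the hole of the first block. -/
def rhoV (r : ℝ) : ℝ := phi₂ r / (2 * π)

/-- The radius around the hole of the second block. -/
def rhoW (δ r : ℝ) : ℝ := δ * phi₁ δ r / (2 * π)

/-- The neck end `r > 2` in the coordinates of the first block. -/
def toV (δ : ℝ) (x : E3) : E3 :=
  pt (rhoV (x 0) * Real.cos (2 * π * x 2)) (rhoV (x 0) * Real.sin (2 * π * x 2)) (x 1 + δ * x 2)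

/-- The neck end `r < -2` in the coordinates of the second block. -/
def toW (δ : ℝ) (x : E3) : E3 :=
  pt (rhoW δ (x 0) * Real.cos (2 * π * x 1 / δ)) (rhoW δ (x 0) * Real.sin (2 * π * x 1 / δ)) (x 2)

variable {M : Type} [TopologicalSpace M] [ChartedSpace E3 M] [IsManifold (𝓡 3) ∞ M]

/-- `N` is a smooth locally diffeomorphic isometric map on the open set `D`, with image classes
given by `R`. -/
structure IsPiece (g : SmoothMetric M) (N : E3 → M) (D : Set E3) (G : MetricField 3)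
    (R : E3 → E3 → Prop) : Prop where
  isOpen : IsOpen D
  smooth : ContMDiffOn (𝓡 3) (𝓡 3) ∞ N D
  bij : ∀ x ∈ D, Function.Bijective (mfderiv (𝓡 3) (𝓡 3) N x)
  iso : ∀ x ∈ D, ∀ u v : E3,
    g.inner (N x) (mfderiv (𝓡 3) (𝓡 3) N x u) (mfderiv (𝓡 3) (𝓡 3) N x v) = G x u v
  fibre : ∀ x ∈ D, ∀ y ∈ D, (N x = N y ↔ R x y)

/-- The flat metric. -/
def flat : MetricField 3 := fun _ => innerSL ℝ

/-- The manifold is made of the neck and the two flat blocks. -/
structure Pieces (δ : ℝ) (g : SmoothMetric M) where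
  /-- The neck. -/
  N : E3 → M
  /-- The first block. -/
  V : E3 → M
  /-- The second block. -/
  W : E3 → M
  neck : IsPiece g N strip (neckMetric δ) (NeckEq δ)
  first : IsPiece g V (block (rhoV 2)) flat (BlockEq δ)
  second : IsPiece g W (block (rhoW δ (-2))) flat (BlockEq 1)
  glueV : ∀ x ∈ strip, 2 < x 0 → N x = V (toV δ x)
  glueW : ∀ x ∈ strip, x 0 < -2 → N x = W (toW δ x)
  cover : ∀ q : M, (∃ x ∈ strip, |x 0| ≤ 2 ∧ N x = q) ∨ (∃ x ∈ block (rhoV 2), V x = q) ∨
    ∃ x ∈ block (rhoW δ (-2)), W x = q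
  core : ∀ x ∈ strip, |x 0| ≤ 2 →
    N x ∉ V '' block (rhoV 2) ∧ N x ∉ W '' block (rhoW δ (-2))
  apart : Disjoint (V '' block (rhoV 2)) (W '' block (rhoW δ (-2)))

/-- A metric with the pieces above exists on a closed connected manifold. -/
def PiecesExist (δ : ℝ) : Prop :=
  ∃ (M : Type) (_ : TopologicalSpace M) (_ : T2Space M) (_ : CompactSpace M)
    (_ : ConnectedSpace M) (_ : ChartedSpace E3 M) (_ : IsManifold (𝓡 3) ∞ M),
    ∃ g : SmoothMetric M, Nonempty (Pieces δ g)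

end

end Vale.Agent.P255
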