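import Mathlib
import Vale.Agent.P219.Univ.Geo.Jacobi

/-!
# The second variation of energy in coordinates

The covariant integrand `indexForm` and the coordinate one `energyForm` differ by the derivative
of `g (Γ(W, W), γ')`.
-/

open scoped ContDiff Topology

set_option maxSynthPendingDepth 3

namespace Vale.Agent.P255

open Vale.Agent.P219 Vale.Agent.P219.Univ Vale.Agent.P219.Univ.Alg

noncomputable section

variable {n : ℕ} {g : MetricField n}

/-- The integrand of the index form, at `x` with velocity `v`, for a field with value `W` and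
coordinate derivative `W'`. -/
def indexForm (g : MetricField n) (x v W W' : Space n) : ℝ :=
  g x (W' + gam g x v W) (W' + gam g x v W) - g x (riem g x W v v) W

/-- The second derivative of the energy density in coordinates. -/
def energyForm (g : MetricField n) (x v W W' : Space n) : ℝ :=
  g x W' W' + 2 * fderiv ℝ g x W W' v + (1 / 2 : ℝ) * fderiv ℝ (fderiv ℝ g) x W W v v

/-- The boundary form. -/
def bdryForm (g : MetricField n) (x v W : Space n) : ℝ := g x (gam g x W W) v

theorem bdryForm_eq (hg : IsMetric g) (x v W : Space n) :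
    bdryForm g x v W = fderiv ℝ g x W W v - (1 / 2 : ℝ) * fderiv ℝ g x v W W := by
  rw [bdryForm, gam, map_smul, smul_apply, smul_eq_mul, g_sharp hg, chris_apply]
  ring

theorem d2g_apply (hg : IsMetric g) (x a b u v : Space n) :
    fderiv ℝ (fun y => fderiv ℝ g y b u v) x a = fderiv ℝ (fderiv ℝ g) x a b u v := by
  have hd : DifferentiableAt ℝ (fderiv ℝ g) x :=
    (hg.smooth.fderiv_right (m := ∞) le_rfl).differentiable (by simp) x
  have h1 := hd.clm_apply (differentiableAt_const b)
  have h2 := h1.clm_apply (differentiableAt_const u)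
  rw [fderiv_clm_apply h2 (differentiableAt_const v), fderiv_clm_apply h1 (differentiableAt_const u),
    fderiv_clm_apply hd (differentiableAt_const b)]
  simp

theorem d2g_comm (hg : IsMetric g) (x a b u v : Space n) :
    fderiv ℝ (fderiv ℝ g) x a b u v = fderiv ℝ (fderiv ℝ g) x b a u v := by
  rw [(hg.smooth.contDiffAt.isSymmSndFDerivAt
    (by simp; exact WithTop.coe_le_coe.2 le_top)).eq a b]

theorem d2g_symm (hg : IsMetric g) (x a b u v : Space n) :
    fderiv ℝ (fderiv ℝ g) x a b u v = fderiv ℝ (fderiv ℝ g) x a b v u := by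
  rw [← d2g_apply hg, ← d2g_apply hg,
    show (fun y => fderiv ℝ g y b u v) = fun y => fderiv ℝ g y b v u from
      funext fun y => dg_symm hg y b u v]

theorem differentiableAt_gam (hg : IsMetric g) (x u v : Space n) :
    DifferentiableAt ℝ (fun y => gam g y u v) x := by
  have h1 : DifferentiableAt ℝ (fun p : Space n × Space n × Space n => gam g p.1 p.2.1 p.2.2)
      (x, u, v) := (contDiff_gam hg).differentiable (by simp) _
  exact DifferentiableAt.comp (f := fun y : Space n => (y, u, v)) x h1
    (differentiableAt_id.prodMk (differentiableAt_const (u, v)))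

theorem hasDerivAt_gam_line (hg : IsMetric g) (x a u v : Space n) :
    HasDerivAt (fun t : ℝ => gam g (x + t • a) u v) (fderiv ℝ (fun y => gam g y u v) x a) 0 := by
  have hline : HasDerivAt (fun t : ℝ => x + t • a) a 0 := by
    simpa using ((hasDerivAt_id (0 : ℝ)).smul_const a).const_add x
  exact HasFDerivAt.comp_hasDerivAt_of_eq (l := fun y => gam g y u v) (0 : ℝ)
    (differentiableAt_gam hg x u v).hasFDerivAt hline (by simp)

/-- Compatibility, differentiated once. -/
theorem d2g_eq (hg : IsMetric g) (x a b u v : Space n) :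
    fderiv ℝ (fderiv ℝ g) x a b u v =
      g x (fderiv ℝ (fun y => gam g y b u) x a + gam g x a (gam g x b u)) v +
      g x (gam g x b u) (gam g x a v) + g x (gam g x a u) (gam g x b v) +
      g x u (fderiv ℝ (fun y => gam g y b v) x a + gam g x a (gam g x b v)) := by
  have hline : HasDerivAt (fun t : ℝ => x + t • a) a 0 := by
    simpa using ((hasDerivAt_id (0 : ℝ)).smul_const a).const_add x
  have hx : x + (0 : ℝ) • a = x := by simp
  have h1 := (Geo.hasDerivAt_g hg hline (hasDerivAt_gam_line hg x a b u) (hasDerivAt_const 0 v)).add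
    (Geo.hasDerivAt_g hg hline (hasDerivAt_const 0 u) (hasDerivAt_gam_line hg x a b v))
  have hd : DifferentiableAt ℝ (fun y => fderiv ℝ g y b u v) x :=
    (((hg.smooth.fderiv_right (m := ∞) le_rfl).differentiable (by simp) x).clm_apply
      (differentiableAt_const b)).clm_apply (differentiableAt_const u) |>.clm_apply
        (differentiableAt_const v)
  have h2 : HasDerivAt (fun t : ℝ => fderiv ℝ g (x + t • a) b u v)
      (fderiv ℝ (fun y => fderiv ℝ g y b u v) x a) 0 :=
    HasFDerivAt.comp_hasDerivAt_of_eq (l := fun y => fderiv ℝ g y b u v) (0 : ℝ) hd.hasFDerivAt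
      hline hx.symm
  rw [← d2g_apply hg]
  refine (h2.unique (h1.congr_of_eventuallyEq
    (Filter.Eventually.of_forall fun t => by simp [g_compat hg]))).trans ?_
  simp only [hx, zero_add]
  ring

theorem riem_antisym (hg : IsMetric g) (x a b u v : Space n) :
    g x (riem g x a b u) v = -g x (riem g x a b v) u := by
  have h1 := d2g_eq hg x a b u v
  have h2 := d2g_eq hg x b a u v
  rw [d2g_comm hg x b a u v] at h2
  simp only [map_add, add_apply] at h1 h2
  simp only [riem, map_sub, map_add, sub_apply, add_apply]
  rw [hg.symm x u (fderiv ℝ (fun y => gam g y b v) x a), hg.symm x u (gam g x a (gam g x b v))] at h1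
  rw [hg.symm x u (fderiv ℝ (fun y => gam g y a v) x b), hg.symm x u (gam g x b (gam g x a v))] at h2
  linarith

/-- Along a geodesic the two integrands differ by the derivative of the boundary form. -/
theorem hasDerivAt_bdryForm (hg : IsMetric g) {c v W : ℝ → Space n} {W' : Space n} {t : ℝ}
    (hc : HasDerivAt c (v t) t) (hv : HasDerivAt v (-gam g (c t) (v t) (v t)) t)
    (hW : HasDerivAt W W' t) :
    HasDerivAt (fun s => bdryForm g (c s) (v s) (W s))
      (energyForm g (c t) (v t) (W t) W' - indexForm g (c t) (v t) (W t) W') t := by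
  refine (Geo.hasDerivAt_g hg hc (Geo.hasDerivAt_gam hg hc hW hW) hv).congr_deriv ?_
  rw [neg_add_cancel]
  simp only [energyForm, indexForm, map_zero]
  set x := c t
  set z := v t
  set w := W t
  rw [g_compat hg x w W' z, d2g_eq hg x w w z z]
  have hr := riem_antisym hg x w z z w
  simp only [riem, map_sub, map_add, sub_apply, add_apply] at hr ⊢
  rw [Univ.gam_symm hg x W' w, Univ.gam_symm hg x z w]
  rw [hg.symm x z (fderiv ℝ (fun y => gam g y w z) x w), hg.symm x z (gam g x w (gam g x w z)),
    hg.symm x (gam g x w z) W']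
  rw [show (fun y => gam g y z w) = fun y => gam g y w z from
    funext fun y => Univ.gam_symm hg y z w, Univ.gam_symm hg x z w] at hr
  linarith

/-- Sectional curvature from the first two derivatives of the metric. -/
theorem sec_formula (hg : IsMetric g) (x w z : Space n) :
    g x (riem g x w z z) w =
      fderiv ℝ (fderiv ℝ g) x w z w z - (1 / 2 : ℝ) * fderiv ℝ (fderiv ℝ g) x w w z z -
      (1 / 2 : ℝ) * fderiv ℝ (fderiv ℝ g) x z z w w +
      g x (gam g x w z) (gam g x w z) - g x (gam g x w w) (gam g x z z) := by
  have h1 := d2g_eq hg x z w w z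
  have h2 := d2g_eq hg x w w z z
  have h3 := d2g_eq hg x z z w w
  rw [d2g_comm hg x z w w z] at h1
  have hr := riem_antisym hg x w z z w
  simp only [riem, map_sub, map_add, sub_apply, add_apply] at hr ⊢
  simp only [map_add, add_apply] at h1 h2 h3
  rw [Univ.gam_symm hg x z w] at h1 h3 hr
  rw [hg.symm x w (fderiv ℝ (fun y => gam g y w z) x z), hg.symm x w (gam g x z (gam g x w z))] at h1
  rw [hg.symm x z (fderiv ℝ (fun y => gam g y w z) x w), hg.symm x z (gam g x w (gam g x w z))] at h2
  rw [show (fun y => gam g y z w) = fun y => gam g y w z from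
    funext fun y => Univ.gam_symm hg y z w] at h3 hr
  rw [hg.symm x w (fderiv ℝ (fun y => gam g y w z) x z), hg.symm x w (gam g x z (gam g x w z))] at h3
  linarith

end

end Vale.Agent.P255
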