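import Vale.Agent.P255.Covariance
import Vale.Agent.P255.Variation
import Vale.Agent.P255.Model

/-!
# Reading geodesics, fields and curvature through a local parametrisation
-/

open scoped Manifold ContDiff Topology RealInnerProductSpace
open Filter Bundle

set_option maxSynthPendingDepth 3

namespace Vale.Agent.P255

open Vale.Agent.P219 Vale.Agent.P219.Univ

noncomputable section

variable {M : Type} [TopologicalSpace M] [ChartedSpace E3 M] [IsManifold (𝓡 3) ∞ M]

/-- `N` is a local parametrisation in which the metric reads `G`. -/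
structure IsParam (g : SmoothMetric M) (N : E3 → M) (D : Set E3) (G : MetricField 3) : Prop where
  isOpen : IsOpen D
  smooth : ContMDiffOn (𝓡 3) (𝓡 3) ∞ N D
  bij : ∀ x ∈ D, Function.Bijective (mfderiv (𝓡 3) (𝓡 3) N x)
  iso : ∀ x ∈ D, ∀ u v : E3,
    g.inner (N x) (mfderiv (𝓡 3) (𝓡 3) N x u) (mfderiv (𝓡 3) (𝓡 3) N x v) = G x u v

theorem IsPiece.isParam {g : SmoothMetric M} {N : E3 → M} {D : Set E3} {G : MetricField 3}
    {R : E3 → E3 → Prop} (h : IsPiece g N D G R) : IsParam g N D G :=
  ⟨h.isOpen, h.smooth, h.bij, h.iso⟩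

theorem bijective_mfderiv_symm {x : M} {y : E3} (hy : y ∈ (extChartAt (𝓡 3) x).target) :
    Function.Bijective (mfderiv (𝓡 3) (𝓡 3) (extChartAt (𝓡 3) x).symm y) := by
  have h : (mfderivWithin 𝓘(ℝ, E3) (𝓡 3) (extChartAt (𝓡 3) x).symm
      (Set.range (𝓡 3)) y).IsInvertible :=
    isInvertible_mfderivWithin_extChartAt_symm hy
  rw [ModelWithCorners.range_eq_univ, mfderivWithin_univ] at h
  exact h.bijective

/-- The preferred chart is a parametrisation. -/
theorem isParam_chart (g : SmoothMetric M) (x : M) :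
    IsParam g (extChartAt (𝓡 3) x).symm (extChartAt (𝓡 3) x).target (inChart g x) where
  isOpen := isOpen_extChartAt_target x
  smooth := contMDiffOn_extChartAt_symm x
  bij _ hy := bijective_mfderiv_symm hy
  iso _ _ _ _ := rfl

/-- A metric read through a parametrisation is smooth, symmetric and positive. -/
theorem IsParam.metricNear {g : SmoothMetric M} {N : E3 → M} {D : Set E3} {G : MetricField 3}
    (h : IsParam g N D G) {y : E3} (hy : y ∈ D) : MetricNear G y := by
  have hD : D ∈ 𝓝 y := h.isOpen.mem_nhds hy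
  refine ⟨?_, ?_, ?_⟩
  · have hc : ContDiffOn ℝ ∞ G D := by
      refine contDiffOn_clm_apply.2 fun u => contDiffOn_clm_apply.2 fun v => ?_
      have hw : ∀ w : E3, ContMDiffOn (𝓡 3) (𝓡 3).tangent ∞
          (fun z => (⟨N z, mfderiv (𝓡 3) (𝓡 3) N z w⟩ : TangentBundle (𝓡 3) M)) D := by
        intro w
        have e : ((∞ : ℕ∞ω) + 1) = ∞ := rfl
        have : IsManifold (𝓡 3) ((∞ : ℕ∞ω) + 1) M := e.symm ▸ inferInstance
        have h1 : ContMDiffOn (𝓡 3).tangent (𝓡 3).tangent ∞
            (tangentMapWithin (𝓡 3) (𝓡 3) N D) (Bundle.TotalSpace.proj ⁻¹' D) :=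
          h.smooth.contMDiffOn_tangentMapWithin le_rfl h.isOpen.uniqueMDiffOn
        have h2 : ContMDiff (𝓡 3) (𝓡 3).tangent ∞
            (fun z => (⟨z, w⟩ : TangentBundle (𝓡 3) E3)) := by
          intro z
          rw [contMDiffAt_totalSpace]
          refine ⟨contMDiffAt_id, ?_⟩
          simp only [TangentBundle.trivializationAt_apply, chartAt_self_eq, mfld_simps]
          simpa using contMDiffAt_const (c := w)
        refine (h1.comp h2.contMDiffOn fun z hz => hz).congr fun z hz => ?_
        simp only [Function.comp_apply, tangentMapWithin, mfderivWithin_of_isOpen h.isOpen hz]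
      letI : RiemannianBundle (fun x : M => TangentSpace (𝓡 3) x) := ⟨g.toRiemannianMetric⟩
      exact (((hw u).inner_bundle (hw v)).contDiffOn).congr fun z hz => (h.iso z hz u v).symm
    filter_upwards [hD] with z hz
    exact hc.contDiffAt (h.isOpen.mem_nhds hz)
  · filter_upwards [hD] with z hz u v
    rw [← h.iso z hz, ← h.iso z hz]
    exact g.symm _ _ _
  · filter_upwards [hD] with z hz u hu
    rw [← h.iso z hz]
    exact g.pos _ _ fun h0 => hu ((h.bij z hz).1 (h0.trans (map_zero _).symm))

/-- The change of coordinates from a parametrisation to the preferred chart at `q`. -/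
def coordChange (N : E3 → M) (q : M) : E3 → E3 := fun z => extChartAt (𝓡 3) q (N z)

variable {g : SmoothMetric M} {N : E3 → M} {D : Set E3} {G : MetricField 3} {y : E3} {q : M}

theorem IsParam.mdiff (h : IsParam g N D G) (hy : y ∈ D) : MDifferentiableAt (𝓡 3) (𝓡 3) N y :=
  ((h.smooth y hy).contMDiffAt (h.isOpen.mem_nhds hy)).mdifferentiableAt (by simp)

theorem IsParam.eventually_good (h : IsParam g N D G) (hy : y ∈ D)
    (hq : N y ∈ (chartAt E3 q).source) :
    ∀ᶠ z in 𝓝 y, z ∈ D ∧ N z ∈ (chartAt E3 q).source := by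
  refine Eventually.and (h.isOpen.mem_nhds hy) ?_
  exact (h.mdiff hy).continuousAt.preimage_mem_nhds ((chartAt E3 q).open_source.mem_nhds hq)

theorem IsParam.contDiffAt_coordChange (h : IsParam g N D G) (hy : y ∈ D)
    (hq : N y ∈ (chartAt E3 q).source) :
    ∀ᶠ z in 𝓝 y, ContDiffAt ℝ ∞ (coordChange N q) z := by
  filter_upwards [h.eventually_good hy hq] with z hz
  exact ((contMDiffAt_extChartAt' (I := 𝓡 3) (n := ∞) hz.2).comp z
    ((h.smooth z hz.1).contMDiffAt (h.isOpen.mem_nhds hz.1))).contDiffAt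

theorem IsParam.mfderiv_coordChange (h : IsParam g N D G) (hy : y ∈ D)
    (hq : N y ∈ (chartAt E3 q).source) (u : E3) :
    fderiv ℝ (coordChange N q) y u =
      mfderiv (𝓡 3) (𝓡 3) (extChartAt (𝓡 3) q) (N y) (mfderiv (𝓡 3) (𝓡 3) N y u) := by
  rw [← mfderiv_eq_fderiv]
  show mfderiv (𝓡 3) (𝓡 3) (extChartAt (𝓡 3) q ∘ N) y u = _
  rw [mfderiv_comp y (mdifferentiableAt_extChartAt hq) (h.mdiff hy)]
  rfl

theorem chart_left {p : M} (hq : p ∈ (chartAt E3 q).source) (v : TangentSpace (𝓡 3) p) :
    mfderiv (𝓡 3) (𝓡 3) (extChartAt (𝓡 3) q).symm (extChartAt (𝓡 3) q p)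
      (mfderiv (𝓡 3) (𝓡 3) (extChartAt (𝓡 3) q) p v) = v := by
  have hp : p ∈ (extChartAt (𝓡 3) q).source := by rwa [extChartAt_source]
  have h1 := mfderivWithin_extChartAt_symm_comp_mfderiv_extChartAt' (I := 𝓡 3) hp
  rw [ModelWithCorners.range_eq_univ, mfderivWithin_univ] at h1
  exact DFunLike.congr_fun h1 v

theorem IsParam.bijective_coordChange (h : IsParam g N D G) (hy : y ∈ D)
    (hq : N y ∈ (chartAt E3 q).source) :
    Function.Bijective (fderiv ℝ (coordChange N q) y) := by
  have hinj : Function.Injective (fderiv ℝ (coordChange N q) y) := fun u v huv => by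
    rw [h.mfderiv_coordChange hy hq, h.mfderiv_coordChange hy hq] at huv
    refine (h.bij y hy).1 ?_
    rw [← chart_left hq (mfderiv (𝓡 3) (𝓡 3) N y u), ← chart_left hq (mfderiv (𝓡 3) (𝓡 3) N y v)]
    exact congrArg _ huv
  exact ⟨hinj, LinearMap.surjective_of_injective (f := (fderiv ℝ (coordChange N q) y).toLinearMap) hinj⟩

theorem IsParam.pull_coordChange (h : IsParam g N D G) (hy : y ∈ D)
    (hq : N y ∈ (chartAt E3 q).source) :
    pull (coordChange N q) (inChart g q) =ᶠ[𝓝 y] G := by
  filter_upwards [h.eventually_good hy hq] with z hz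
  refine ContinuousLinearMap.ext fun u => ContinuousLinearMap.ext fun v => ?_
  rw [pull_apply, h.mfderiv_coordChange hz.1 hz.2, h.mfderiv_coordChange hz.1 hz.2, ← h.iso z hz.1]
  have hs : N z ∈ (extChartAt (𝓡 3) q).source := by rw [extChartAt_source]; exact hz.2
  have key : ∀ (p : M), p = N z → ∀ a b : E3,
      g.inner p a b = g.inner (N z) a b := by intro p hp a b; subst hp; rfl
  show g.inner ((extChartAt (𝓡 3) q).symm (extChartAt (𝓡 3) q (N z))) _ _ = _
  rw [key _ ((extChartAt (𝓡 3) q).left_inv hs)]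
  exact congrArg₂ (fun a b => g.inner (N z) a b) (chart_left hz.2 _) (chart_left hz.2 _)

theorem IsParam.metricNear_chart {q' : M} (hq : q' ∈ (chartAt E3 q).source) (g : SmoothMetric M) :
    MetricNear (inChart g q) (extChartAt (𝓡 3) q q') :=
  (isParam_chart g q).metricNear ((extChartAt (𝓡 3) q).map_source (by rwa [extChartAt_source]))

theorem IsParam.gam_eq (h : IsParam g N D G) (hy : y ∈ D) (hq : N y ∈ (chartAt E3 q).source)
    (u v : E3) : gam (pull (coordChange N q) (inChart g q)) y u v = gam G y u v :=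
  gam_congr (h.pull_coordChange hy hq) u v

/-- Curvature read through a parametrisation. -/
theorem IsParam.riem_eq (h : IsParam g N D G) (hy : y ∈ D) (hq : N y ∈ (chartAt E3 q).source)
    (u v w : E3) :
    fderiv ℝ (coordChange N q) y (riem G y u v w) =
      riem (inChart g q) (coordChange N q y) (fderiv ℝ (coordChange N q) y u)
        (fderiv ℝ (coordChange N q) y v) (fderiv ℝ (coordChange N q) y w) := by
  rw [← riem_congr (h.pull_coordChange hy hq)]
  exact riem_pull (h.contDiffAt_coordChange hy hq) (h.bijective_coordChange hy hq)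
    (IsParam.metricNear_chart hq g) u v w

theorem IsParam.apply_eq (h : IsParam g N D G) (hy : y ∈ D) (hq : N y ∈ (chartAt E3 q).source)
    (u v : E3) :
    inChart g q (coordChange N q y) (fderiv ℝ (coordChange N q) y u)
      (fderiv ℝ (coordChange N q) y v) = G y u v := by
  rw [← (h.pull_coordChange hy hq).eq_of_nhds]
  rfl

/-- Sectional curvature of a nonpositive metric read through a parametrisation. -/
theorem IsParam.sec_nonpos (h : IsParam g N D G) (hy : y ∈ D) (hn : Nonpositive g) (u v : E3) :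
    G y (riem G y u v v) u ≤ 0 := by
  have hq : N y ∈ (chartAt E3 (N y)).source := mem_chart_source E3 (N y)
  rw [← h.apply_eq hy hq, h.riem_eq hy hq]
  exact hn (N y) _ _

end

end Vale.Agent.P255
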