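import Mathlib

/-!
# Algebra of the CN inequality for commuting isometries

In a space with the CN inequality the squared translation length obeys the parallelogram law on
commuting isometries, and an element of a centraliser that is a commutator is orthogonal to the
central element. Hence the relations of a flip graph manifold force a translation length to vanish.
-/

namespace Vale.Agent.P255

open Filter Topology
open scoped commutatorElement

noncomputable section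

variable {X : Type*}

/-- A distance function with the CN inequality of Bruhat and Tits. -/
structure IsCN (d : X → X → ℝ) : Prop where
  self : ∀ x, d x x = 0
  symm : ∀ x y, d x y = d y x
  triangle : ∀ x y z, d x z ≤ d x y + d y z
  midpoint : ∀ x y, ∃ m, ∀ z,
    d z m ^ 2 ≤ (d z x ^ 2 + d z y ^ 2) / 2 - d x y ^ 2 / 4

namespace IsCN

variable {d : X → X → ℝ} (hd : IsCN d)

include hd

theorem nonneg (x y : X) : 0 ≤ d x y := by
  have h := hd.triangle x y x
  rw [hd.self, hd.symm y x] at h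
  linarith

theorem quadrilateral (a b c e : X) :
    d a c ^ 2 + d b e ^ 2 ≤ d a b ^ 2 + d b c ^ 2 + d c e ^ 2 + d e a ^ 2 := by
  obtain ⟨m, hm⟩ := hd.midpoint a c
  have hb := hm b
  have he := hm e
  rw [hd.symm b a] at hb
  rw [hd.symm e c] at he
  have ht := hd.triangle b m e
  rw [hd.symm m e] at ht
  have hsq : d b e ^ 2 ≤ (d b m + d e m) ^ 2 := pow_le_pow_left₀ (hd.nonneg b e) ht 2
  nlinarith [sq_nonneg (d b m - d e m)]

/-- The quasilinearisation of two segments. -/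
def ip (_hd : IsCN d) (a b c e : X) : ℝ :=
  (d a e ^ 2 + d b c ^ 2 - d a c ^ 2 - d b e ^ 2) / 2

theorem abs_ip_le (a b c e : X) : |hd.ip a b c e| ≤ (d a b ^ 2 + d c e ^ 2) / 2 := by
  have h1 := hd.quadrilateral a b c e
  have h2 := hd.quadrilateral a b e c
  simp only [hd.symm e a, hd.symm e c, hd.symm c a] at h1 h2
  rw [ip, abs_le]
  constructor <;> linarith

variable {G : Type*} [Group G] [MulAction G X] (hG : ∀ (g : G) (x y : X), d (g • x) (g • y) = d x y)

include hG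

theorem ip_smul (g : G) (a b c e : X) :
    hd.ip (g • a) (g • b) (g • c) (g • e) = hd.ip a b c e := by
  simp [ip, hG]

theorem dist_smul_inv (g : G) (x : X) : d x (g⁻¹ • x) = d x (g • x) := by
  rw [← hG g x (g⁻¹ • x), smul_inv_smul, hd.symm]

/-- The orbit displacements of the powers of an element. -/
theorem subadditive_disp (x0 : X) (g : G) : Subadditive fun n : ℕ => d x0 (g ^ n • x0) := by
  intro m n
  refine (hd.triangle x0 (g ^ m • x0) _).trans (le_of_eq ?_)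
  rw [pow_add, mul_smul, hG]

/-- The translation length of an element. -/
def tlen (x0 : X) (g : G) : ℝ := (hd.subadditive_disp hG x0 g).lim

theorem tendsto_tlen (x0 : X) (g : G) :
    Tendsto (fun n : ℕ => d x0 (g ^ n • x0) / n) atTop (𝓝 (hd.tlen hG x0 g)) := by
  refine Subadditive.tendsto_lim _ ⟨0, ?_⟩
  rintro _ ⟨n, rfl⟩
  exact div_nonneg (hd.nonneg _ _) n.cast_nonneg

/-- The squared translation length. -/
def Q (x0 : X) (g : G) : ℝ := hd.tlen hG x0 g ^ 2

theorem tendsto_Q (x0 : X) (g : G) :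
    Tendsto (fun n : ℕ => d x0 (g ^ n • x0) ^ 2 / (n : ℝ) ^ 2) atTop (𝓝 (hd.Q hG x0 g)) :=
  ((hd.tendsto_tlen hG x0 g).pow 2).congr fun _ => div_pow _ _ 2

theorem tlen_inv (x0 : X) (g : G) : hd.tlen hG x0 g⁻¹ = hd.tlen hG x0 g := by
  refine tendsto_nhds_unique ((hd.tendsto_tlen hG x0 g⁻¹).congr fun n => ?_)
    (hd.tendsto_tlen hG x0 g)
  rw [inv_pow, hd.dist_smul_inv hG]

theorem tlen_pow (x0 : X) (g : G) (k : ℕ) :
    hd.tlen hG x0 (g ^ k) = k * hd.tlen hG x0 g := by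
  rcases eq_or_ne k 0 with rfl | hk
  · refine tendsto_nhds_unique (hd.tendsto_tlen hG x0 (g ^ 0)) ?_
    simp [hd.self]
  · refine tendsto_nhds_unique (hd.tendsto_tlen hG x0 (g ^ k)) ?_
    have h := ((hd.tendsto_tlen hG x0 g).comp
      (tendsto_id.const_mul_atTop' (show 0 < k by omega))).const_mul (k : ℝ)
    refine h.congr fun n => ?_
    simp only [Function.comp_apply, id, pow_mul, Nat.cast_mul]
    field_simp

theorem Q_inv (x0 : X) (g : G) : hd.Q hG x0 g⁻¹ = hd.Q hG x0 g := by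
  rw [Q, Q, hd.tlen_inv hG]

theorem Q_pow (x0 : X) (g : G) (k : ℕ) :
    hd.Q hG x0 (g ^ k) = (k : ℝ) ^ 2 * hd.Q hG x0 g := by
  rw [Q, Q, hd.tlen_pow hG, mul_pow]

theorem Q_add_le (x0 : X) {f g : G} (h : Commute f g) :
    hd.Q hG x0 (f * g) + hd.Q hG x0 (f * g⁻¹) ≤ 2 * hd.Q hG x0 f + 2 * hd.Q hG x0 g := by
  refine le_of_tendsto_of_tendsto'
    ((hd.tendsto_Q hG x0 (f * g)).add (hd.tendsto_Q hG x0 (f * g⁻¹)))
    (((hd.tendsto_Q hG x0 f).const_mul 2).add ((hd.tendsto_Q hG x0 g).const_mul 2)) fun n => ?_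
  have hq := hd.quadrilateral x0 (f ^ n • x0) ((f * g) ^ n • x0) (g ^ n • x0)
  have hfg : (f * g) ^ n = f ^ n * g ^ n := h.mul_pow n
  have e1 : d (f ^ n • x0) ((f * g) ^ n • x0) = d x0 (g ^ n • x0) := by
    rw [hfg, mul_smul, hG]
  have e2 : d ((f * g) ^ n • x0) (g ^ n • x0) = d x0 (f ^ n • x0) := by
    rw [hfg, (h.pow_pow n n).eq, mul_smul, hG, hd.symm]
  have e3 : d (f ^ n • x0) (g ^ n • x0) = d x0 ((f * g⁻¹) ^ n • x0) := by
    rw [← hG (g ^ n)⁻¹ (f ^ n • x0) (g ^ n • x0), inv_smul_smul, hd.symm,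
      h.inv_right.mul_pow n, inv_pow, smul_smul, ((h.pow_pow n n).symm.inv_left).eq]
  rw [e1, e2, e3, hd.symm (g ^ n • x0) x0] at hq
  simp only [mul_div_assoc', ← add_div]
  apply div_le_div_of_nonneg_right _ (sq_nonneg _)
  linarith

theorem parallelogram (x0 : X) {f g : G} (h : Commute f g) :
    hd.Q hG x0 (f * g) + hd.Q hG x0 (f * g⁻¹) = 2 * hd.Q hG x0 f + 2 * hd.Q hG x0 g := by
  refine le_antisymm (hd.Q_add_le hG x0 h) ?_
  have hc : Commute (f * g) (f * g⁻¹) :=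
    ((Commute.refl f).mul_right h.inv_right).mul_left
      (h.symm.mul_right (Commute.refl g).inv_right)
  have := hd.Q_add_le hG x0 hc
  have e1 : f * g * (f * g⁻¹) = f ^ 2 := by
    rw [mul_assoc, ← mul_assoc g, h.symm.eq, mul_assoc f g, mul_inv_cancel, mul_one, pow_two]
  have e2 : f * g * (f * g⁻¹)⁻¹ = g ^ 2 := by
    rw [mul_inv_rev, inv_inv, mul_assoc, ← mul_assoc g, ← pow_two,
      (h.pow_right 2).symm.inv_right.eq, mul_inv_cancel_left]
  rw [e1, e2, hd.Q_pow hG, hd.Q_pow hG] at this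
  push_cast at this
  linarith

/-- The pairing of the orbit segment of `g` with that of `F`. -/
def pair (x0 : X) (F g : G) : ℝ := hd.ip x0 (g • x0) x0 (F • x0)

omit hG in
theorem pair_one (x0 : X) (F : G) : hd.pair x0 F 1 = 0 := by
  simp [pair, ip, hd.self]

theorem pair_mul (x0 : X) {F g : G} (h : Commute F g) (k : G) :
    hd.pair x0 F (g * k) - hd.pair x0 F g - hd.pair x0 F k =
      hd.ip (g • x0) ((g * k) • x0) x0 (g • x0) -
        hd.ip (g • x0) ((g * k) • x0) (F • x0) (F • g • x0) := by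
  have hk : hd.pair x0 F k = hd.ip (g • x0) ((g * k) • x0) (g • x0) (g • F • x0) := by
    rw [mul_smul, hd.ip_smul hG, pair]
  have hswap : g • F • x0 = F • g • x0 := by rw [smul_smul, smul_smul, h.eq]
  rw [hk, hswap]
  simp only [pair, ip]
  ring

theorem abs_pair_mul (x0 : X) {F g : G} (h : Commute F g) (k : G) :
    |hd.pair x0 F (g * k) - hd.pair x0 F g - hd.pair x0 F k| ≤
      d x0 (g • x0) ^ 2 + d x0 (k • x0) ^ 2 := by
  rw [hd.pair_mul hG x0 h]
  have h1 := hd.abs_ip_le (g • x0) ((g * k) • x0) x0 (g • x0)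
  have h2 := hd.abs_ip_le (g • x0) ((g * k) • x0) (F • x0) (F • g • x0)
  rw [mul_smul, hG] at h1 h2
  rw [hG] at h2
  rw [mul_smul]
  refine (abs_sub _ _).trans ?_
  linarith

theorem abs_ip_orbit_le (x0 a b : X) (g : G) (j : ℕ) :
    |hd.ip a b x0 (g ^ j • x0)| ≤ j * ((d a b ^ 2 + d x0 (g • x0) ^ 2) / 2) := by
  induction j with
  | zero => simp [ip]
  | succ j ih =>
    have hsplit : hd.ip a b x0 (g ^ (j + 1) • x0) = hd.ip a b x0 (g ^ j • x0) +
        hd.ip a b (g ^ j • x0) (g ^ j • g • x0) := by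
      simp only [ip, pow_succ, mul_smul]
      ring
    have hb := hd.abs_ip_le a b (g ^ j • x0) (g ^ j • g • x0)
    rw [hG] at hb
    rw [hsplit]
    refine (abs_add_le _ _).trans ?_
    push_cast
    linarith

theorem abs_pair_pow (x0 : X) {F g : G} (h : Commute F g) (m : ℕ) :
    |hd.pair x0 F (g ^ m) - m * hd.pair x0 F g| ≤
      (m : ℝ) ^ 2 * d x0 (g • x0) ^ 2 := by
  induction m with
  | zero => simp [hd.pair_one]
  | succ m ih =>
    have hm := hd.pair_mul hG x0 (h.pow_right m) g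
    have hg : d (g ^ m • x0) ((g ^ m * g) • x0) = d x0 (g • x0) := by rw [mul_smul, hG]
    have h1 := hd.abs_ip_orbit_le hG x0 (g ^ m • x0) ((g ^ m * g) • x0) g m
    have h2 := hd.abs_ip_orbit_le hG x0 (F⁻¹ • g ^ m • x0) (F⁻¹ • (g ^ m * g) • x0) g m
    have h3 : hd.ip (F⁻¹ • g ^ m • x0) (F⁻¹ • (g ^ m * g) • x0) x0 (g ^ m • x0) =
        hd.ip (g ^ m • x0) ((g ^ m * g) • x0) (F • x0) (F • g ^ m • x0) := by
      rw [← hd.ip_smul hG F, smul_inv_smul, smul_inv_smul]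
    rw [h3, hG] at h2
    rw [hg] at h1 h2
    rw [← pow_succ] at hm h1 h2
    push_cast
    rw [abs_le] at ih h1 h2 ⊢
    constructor <;> nlinarith [sq_nonneg (d x0 (g • x0))]

theorem pair_commutator_bounded (x0 : X) (a b : G) :
    ∃ C, ∀ F : G, Commute F a → Commute F b → |hd.pair x0 F ⁅a, b⁆| ≤ C := by
  let N : G → ℝ := fun g => d x0 (g • x0) ^ 2
  refine ⟨(N (a * b * a⁻¹) + N b⁻¹) + (N (a * b) + N a⁻¹) + (N a + N b) + (N a + N a⁻¹) +
    (N b + N b⁻¹), fun F ha hb => ?_⟩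
  have h1 := hd.abs_pair_mul hG x0 ((ha.mul_right hb).mul_right ha.inv_right) b⁻¹
  have h2 := hd.abs_pair_mul hG x0 (ha.mul_right hb) a⁻¹
  have h3 := hd.abs_pair_mul hG x0 ha b
  have h4 := hd.abs_pair_mul hG x0 ha a⁻¹
  have h5 := hd.abs_pair_mul hG x0 hb b⁻¹
  rw [mul_inv_cancel, hd.pair_one] at h4 h5
  rw [abs_le] at h1 h2 h3 h4 h5 ⊢
  rw [commutatorElement_def]
  simp only [N]
  constructor <;> linarith

theorem Q_linear (x0 : X) {f g : G} (h : Commute f g) (k : ℕ) :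
    hd.Q hG x0 (f ^ k * g⁻¹) = (k : ℝ) ^ 2 * hd.Q hG x0 f +
      (k : ℝ) * (hd.Q hG x0 (f * g⁻¹) - hd.Q hG x0 g - hd.Q hG x0 f) + hd.Q hG x0 g := by
  induction k using Nat.twoStepInduction with
  | zero => simp [hd.Q_inv hG]
  | one => simp
  | more k ih1 ih2 =>
    have hc : Commute (f ^ (k + 1) * g⁻¹) f :=
      ((Commute.refl f).pow_left (k + 1)).mul_left h.symm.inv_left
    have hp := hd.parallelogram hG x0 hc
    have e1 : f ^ (k + 1) * g⁻¹ * f = f ^ (k + 2) * g⁻¹ := by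
      rw [mul_assoc, h.inv_right.symm.eq, ← mul_assoc, ← pow_succ]
    have e2 : f ^ (k + 1) * g⁻¹ * f⁻¹ = f ^ k * g⁻¹ := by
      rw [mul_assoc, h.inv_inv.symm.eq, ← mul_assoc, pow_succ, mul_inv_cancel_right]
    rw [e1, e2] at hp
    push_cast at *
    linarith

/-- A commutator of two elements centralising `f` is orthogonal to `f`. -/
theorem orthogonal_commutator (x0 : X) {f a b : G} (ha : Commute f a) (hb : Commute f b) :
    hd.Q hG x0 (f * ⁅a, b⁆⁻¹) = hd.Q hG x0 f + hd.Q hG x0 ⁅a, b⁆ := by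
  obtain ⟨C, hC⟩ := hd.pair_commutator_bounded hG x0 a b
  have h : Commute f ⁅a, b⁆ := by
    rw [commutatorElement_def]
    exact ((ha.mul_right hb).mul_right ha.inv_right).mul_right hb.inv_right
  generalize ⁅a, b⁆ = g at h hC ⊢
  set B := (hd.Q hG x0 f + hd.Q hG x0 g - hd.Q hG x0 (f * g⁻¹)) / 2 with hB
  have hk : ∀ k : ℕ, (k : ℝ) * |B| ≤ d x0 (g • x0) ^ 2 := by
    intro k
    have hlim : Tendsto (fun m : ℕ => |hd.pair x0 (f ^ (k * m)) (g ^ m)| / (m : ℝ) ^ 2) atTop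
        (𝓝 |(k : ℝ) * B|) := by
      have hval : ((hd.Q hG x0 (f ^ k) + hd.Q hG x0 g) - hd.Q hG x0 (f ^ k * g⁻¹)) / 2 =
          (k : ℝ) * B := by
        rw [hd.Q_pow hG, hd.Q_linear hG x0 h, hB]
        ring
      rw [← hval]
      refine ((((hd.tendsto_Q hG x0 (f ^ k)).add (hd.tendsto_Q hG x0 g)).sub
        (hd.tendsto_Q hG x0 (f ^ k * g⁻¹))).div_const 2).abs.congr fun m => ?_
      have hcross : d (g ^ m • x0) (f ^ (k * m) • x0) = d x0 ((f ^ k * g⁻¹) ^ m • x0) := by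
        rw [← hG (g ^ m)⁻¹, inv_smul_smul, (h.pow_left k).inv_right.mul_pow m, ← pow_mul,
          inv_pow, smul_smul, ((h.pow_pow (k * m) m).symm.inv_left).eq]
      rw [← abs_of_nonneg (sq_nonneg (m : ℝ)), ← abs_div, abs_of_nonneg (sq_nonneg (m : ℝ))]
      congr 1
      simp only [pair, ip, hd.self, hcross, ← pow_mul, hd.symm (g ^ m • x0) x0]
      ring
    have hbd : Tendsto (fun m : ℕ => C / (m : ℝ) + d x0 (g • x0) ^ 2) atTop
        (𝓝 (d x0 (g • x0) ^ 2)) := by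
      simpa using (tendsto_const_div_atTop_nhds_zero_nat C).add_const (d x0 (g • x0) ^ 2)
    rw [← Nat.abs_cast k, ← abs_mul]
    refine le_of_tendsto_of_tendsto hlim hbd ((eventually_gt_atTop 0).mono fun m hm => ?_)
    have hm' : (0 : ℝ) < m := by exact_mod_cast hm
    have h1 := hd.abs_pair_pow hG x0 (h.pow_left (k * m)) m
    have h2 : |hd.pair x0 (f ^ (k * m)) g| ≤ C :=
      hC _ (ha.pow_left _) (hb.pow_left _)
    have h3 : |(m : ℝ) * hd.pair x0 (f ^ (k * m)) g| ≤ m * C := by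
      rw [abs_mul, Nat.abs_cast]
      exact mul_le_mul_of_nonneg_left h2 hm'.le
    have h4 := (abs_sub_abs_le_abs_sub (hd.pair x0 (f ^ (k * m)) (g ^ m))
      ((m : ℝ) * hd.pair x0 (f ^ (k * m)) g)).trans h1
    have h5 : C / (m : ℝ) * (m : ℝ) ^ 2 = m * C := by field_simp
    rw [div_le_iff₀ (pow_pos hm' 2), add_mul, h5]
    linarith
  have hB0 : B = 0 := by
    by_contra hne
    obtain ⟨k, hk'⟩ := exists_nat_gt (d x0 (g • x0) ^ 2 / |B|)
    rw [div_lt_iff₀ (abs_pos.mpr hne)] at hk'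
    linarith [hk k]
  linarith

theorem orthogonal_of_eq_commutator (x0 : X) {f g a b : G} (ha : Commute f a) (hb : Commute f b)
    (hg : g = ⁅a, b⁆ ∨ g = ⁅a, b⁆⁻¹) :
    hd.Q hG x0 (f * g⁻¹) = hd.Q hG x0 f + hd.Q hG x0 g ∧
      hd.Q hG x0 (f * g) = hd.Q hG x0 f + hd.Q hG x0 g := by
  have h : Commute f ⁅a, b⁆ := by
    rw [commutatorElement_def]
    exact ((ha.mul_right hb).mul_right ha.inv_right).mul_right hb.inv_right
  have h1 := hd.orthogonal_commutator hG x0 ha hb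
  have h2 := hd.parallelogram hG x0 h
  rcases hg with rfl | rfl
  · exact ⟨h1, by linarith⟩
  · rw [inv_inv, hd.Q_inv hG]
    exact ⟨by linarith, h1⟩

theorem two_mul_le_disp_sq {f : G} {ε : ℝ} (hε : 0 ≤ ε) (hf : ∀ y, ε ≤ d y (f • y)) (y : X) :
    2 * ε ≤ d y ((f * f) • y) := by
  obtain ⟨m, hm⟩ := hd.midpoint y (f • y)
  have h1 := hm (f • m)
  have h2 := hm y
  have h3 := hm (f⁻¹ • y)
  have e1 : d (f • m) (f • y) = d y m := by rw [hG, hd.symm]
  have e2 : d (f⁻¹ • y) y = d y (f • y) := by rw [hd.symm, hd.dist_smul_inv hG]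
  have e3 : d (f⁻¹ • y) m = d (f • m) y := by
    rw [← hG f (f⁻¹ • y) m, smul_inv_smul, hd.symm]
  have e4 : d (f⁻¹ • y) (f • y) = d y ((f * f) • y) := by
    rw [← hG f (f⁻¹ • y) (f • y), smul_inv_smul, mul_smul]
  rw [e1] at h1
  rw [hd.self] at h2
  rw [e2, e3, e4] at h3
  rw [hd.symm (f • m) m] at h1
  have h5 : ε ^ 2 ≤ d m (f • m) ^ 2 := pow_le_pow_left₀ hε (hf m) 2
  refine le_of_pow_le_pow_left₀ two_ne_zero (hd.nonneg _ _) ?_
  nlinarith

theorem tlen_pos (x0 : X) {f : G} (hf : ∃ ε > 0, ∀ y, ε ≤ d y (f • y)) :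
    0 < hd.tlen hG x0 f := by
  obtain ⟨ε, hε, hd'⟩ := hf
  have key : ∀ (j : ℕ) (y : X), 2 ^ j * ε ≤ d y (f ^ (2 ^ j) • y) := by
    intro j
    induction j with
    | zero => simpa using hd'
    | succ j ih =>
      intro y
      have := hd.two_mul_le_disp_sq hG (f := f ^ (2 ^ j)) (by positivity) ih y
      rw [← pow_add, ← two_mul, ← pow_succ' 2 j] at this
      rw [pow_succ' (2 : ℝ), mul_assoc]
      exact this
  refine lt_of_lt_of_le hε (ge_of_tendsto' ((hd.tendsto_tlen hG x0 f).comp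
    (tendsto_pow_atTop_atTop_of_one_lt (show (1 : ℕ) < 2 by norm_num))) fun j => ?_)
  simp only [Function.comp_apply, Nat.cast_pow, Nat.cast_ofNat]
  rw [le_div_iff₀ (by positivity)]
  linarith [key j x0]

/-- No group acting isometrically on a CN space contains the relations of the flip graph
manifold with positive displacement of the fibre. -/
theorem false_of_relations_smul (x0 : X) {f f' a b a' b' : G}
    (hε : ∃ ε > 0, ∀ y, ε ≤ d y (f • y)) (hff : Commute f f')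
    (ha : Commute f a) (hb : Commute f b) (ha' : Commute f' a') (hb' : Commute f' b')
    (h1 : f' * f⁻¹ = ⁅a, b⁆ ∨ f' * f⁻¹ = ⁅a, b⁆⁻¹)
    (h2 : f = ⁅a', b'⁆ ∨ f = ⁅a', b'⁆⁻¹) : False := by
  obtain ⟨-, o1⟩ := hd.orthogonal_of_eq_commutator hG x0 ha hb h1
  obtain ⟨o2, -⟩ := hd.orthogonal_of_eq_commutator hG x0 ha' hb' h2
  have e : f * (f' * f⁻¹) = f' := by rw [← mul_assoc, hff.eq, mul_inv_cancel_right]
  rw [e] at o1
  have : hd.Q hG x0 f = 0 := by linarith
  have hpos := hd.tlen_pos hG x0 hε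
  rw [Q] at this
  nlinarith

omit hG in
/-- The permutations preserving a distance function. -/
def isomGroup (_hd : IsCN d) : Subgroup (Equiv.Perm X) where
  carrier := {g | ∀ x y, d (g x) (g y) = d x y}
  one_mem' := fun _ _ => rfl
  mul_mem' := fun {g k} hg hk x y => by rw [Equiv.Perm.mul_apply, Equiv.Perm.mul_apply, hg, hk]
  inv_mem' := fun {g} hg x y => by
    rw [← hg (g⁻¹ x) (g⁻¹ y)]
    simp

end IsCN

/-- Isometries of a CN space cannot satisfy the relations of the flip graph manifold, if the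
displacement of the fibre is bounded below. -/
theorem IsCN.false_of_relations {d : X → X → ℝ} (hd : IsCN d) (x0 : X)
    {f f' a b a' b' : Equiv.Perm X}
    (hiso : ∀ g ∈ [f, f', a, b, a', b'], ∀ x y, d (g x) (g y) = d x y)
    (hε : ∃ ε > 0, ∀ y, ε ≤ d y (f y)) (hff : Commute f f')
    (ha : Commute f a) (hb : Commute f b) (ha' : Commute f' a') (hb' : Commute f' b')
    (h1 : f' * f⁻¹ = ⁅a, b⁆ ∨ f' * f⁻¹ = ⁅a, b⁆⁻¹)
    (h2 : f = ⁅a', b'⁆ ∨ f = ⁅a', b'⁆⁻¹) : False := by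
  let F : hd.isomGroup := ⟨f, hiso f (by simp)⟩
  let F' : hd.isomGroup := ⟨f', hiso f' (by simp)⟩
  let A : hd.isomGroup := ⟨a, hiso a (by simp)⟩
  let B : hd.isomGroup := ⟨b, hiso b (by simp)⟩
  let A' : hd.isomGroup := ⟨a', hiso a' (by simp)⟩
  let B' : hd.isomGroup := ⟨b', hiso b' (by simp)⟩
  exact hd.false_of_relations_smul (fun g : hd.isomGroup => g.2) x0 (f := F) (f' := F')
    (a := A) (b := B) (a' := A') (b' := B') hε (Subtype.ext hff) (Subtype.ext ha)
    (Subtype.ext hb) (Subtype.ext ha') (Subtype.ext hb') (h1.imp Subtype.ext Subtype.ext)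
    (h2.imp Subtype.ext Subtype.ext)

/-- A fixed point free element of a group with discrete orbits and a compact set of
representatives has displacement bounded below. -/
theorem IsCN.exists_disp_pos [TopologicalSpace X] {d : X → X → ℝ} (hd : IsCN d)
    (hcont : ∀ y, Continuous fun z => d y z) (Γ : Subgroup (Equiv.Perm X))
    (hiso : ∀ g ∈ Γ, ∀ x y, d (g x) (g y) = d x y) {K : Set X} (hK : IsCompact K)
    (hcov : ∀ y, ∃ g ∈ Γ, ∃ k ∈ K, g k = y)
    (hdisc : ∀ y, ∃ δ > 0, ∀ g ∈ Γ, g ≠ 1 → δ ≤ d y (g y))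
    {f : Equiv.Perm X} (hf : f ∈ Γ) (hf1 : f ≠ 1) : ∃ ε > 0, ∀ y, ε ≤ d y (f y) := by
  have key : ∃ ε > 0, ∀ z ∈ K, ∀ g ∈ Γ, g ≠ 1 → ε ≤ d z (g z) := by
    refine hK.induction_on ⟨1, one_pos, fun z hz => hz.elim⟩
      (fun s t hst ⟨ε, hε, h⟩ => ⟨ε, hε, fun z hz => h z (hst hz)⟩)
      (fun s t ⟨ε, hε, h⟩ ⟨ε', hε', h'⟩ => ⟨min ε ε', lt_min hε hε', fun z hz g hg hg1 =>
        hz.elim (fun hz => (min_le_left _ _).trans (h z hz g hg hg1))
          (fun hz => (min_le_right _ _).trans (h' z hz g hg hg1))⟩)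
      fun y _ => ?_
    obtain ⟨δ, hδ, h⟩ := hdisc y
    refine ⟨{z | d y z < δ / 4}, mem_nhdsWithin_of_mem_nhds
      ((hcont y).continuousAt.preimage_mem_nhds (Iio_mem_nhds ?_)), δ / 2, half_pos hδ, ?_⟩
    · rw [hd.self]; positivity
    · intro z (hz : d y z < δ / 4) g hg hg1
      have := hd.triangle y z (g z)
      have := hd.triangle y (g z) (g y)
      rw [hiso g hg, hd.symm z y] at this
      linarith [h g hg hg1]
  obtain ⟨ε, hε, h⟩ := key
  refine ⟨ε, hε, fun y => ?_⟩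
  obtain ⟨g, hg, k, hk, rfl⟩ := hcov y
  have hconj : g⁻¹ * f * g ∈ Γ := mul_mem (mul_mem (inv_mem hg) hf) hg
  have hne : g⁻¹ * f * g ≠ 1 := by
    intro e
    exact hf1 (conj_eq_one_iff.mp (by simpa using e : g⁻¹ * f * g⁻¹⁻¹ = 1))
  have := h k hk _ hconj hne
  rw [← hiso g hg] at this
  simpa using this

end

end Vale.Agent.P255
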