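import Vale.Agent.P255.Profile

/-!
# The scalar inequalities of the neck

For a geodesic with momenta `p₁`, `p₂` along the neck `F = p · A p` with `A` the inverse of the
torus metric. These are the concavity of `F` and the two inequalities of the turning excursions.
-/

open scoped ContDiff Real Topology

namespace Vale.Agent.P255

noncomputable section

/-- The derivative of the transition. -/
def stepD : ℝ → ℝ := deriv step

/-- The second derivative of the transition. -/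
def stepD2 : ℝ → ℝ := deriv stepD

theorem contDiff_stepD : ContDiff ℝ ∞ stepD := (contDiff_infty_iff_deriv.1 contDiff_step).2

theorem hasDerivAt_step (r : ℝ) : HasDerivAt step (stepD r) r :=
  ((contDiff_step.differentiable (by simp)) r).hasDerivAt

theorem hasDerivAt_stepD (r : ℝ) : HasDerivAt stepD (stepD2 r) r :=
  ((contDiff_stepD.differentiable (by simp)) r).hasDerivAt

theorem contDiff_stepD2 : ContDiff ℝ ∞ stepD2 := (contDiff_infty_iff_deriv.1 contDiff_stepD).2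

theorem step_deriv_zero {r : ℝ} (h : 1 / 2 < |r|) : stepD r = 0 ∧ stepD2 r = 0 := by
  have key : ∀ s : ℝ, 1 / 2 < |s| → stepD s = 0 := by
    intro s hs
    rcases lt_abs.1 hs with hs | hs
    · have e : step =ᶠ[𝓝 s] fun _ => (1 : ℝ) := by
        filter_upwards [eventually_gt_nhds hs] with x hx using step_right hx.le
      simp [stepD, e.deriv_eq]
    · have e : step =ᶠ[𝓝 s] fun _ => (0 : ℝ) := by
        filter_upwards [eventually_lt_nhds (show s < -1 / 2 by linarith)] with x hx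
          using step_left hx.le
      simp [stepD, e.deriv_eq]
  refine ⟨key r h, ?_⟩
  have e : stepD =ᶠ[𝓝 r] fun _ => (0 : ℝ) :=
    Filter.eventuallyEq_of_mem
      ((isOpen_lt continuous_const continuous_abs).mem_nhds h) fun x hx => key x hx
  simp [stepD2, e.deriv_eq]

theorem exists_step_bound : ∃ L : ℝ, 1 ≤ L ∧ ∀ r, |stepD r| ≤ L ∧ |stepD2 r| ≤ L := by
  obtain ⟨L, hL⟩ := (isCompact_Icc (a := (-1 / 2 : ℝ)) (b := 1 / 2)).bddAbove_image
    (f := fun r => max |stepD r| |stepD2 r|)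
    (contDiff_stepD.continuous.abs.max contDiff_stepD2.continuous.abs).continuousOn
  refine ⟨max 1 L, le_max_left _ _, fun r => ?_⟩
  by_cases h : 1 / 2 < |r|
  · obtain ⟨h1, h2⟩ := step_deriv_zero h
    simp [h1, h2]
  · rw [not_lt, abs_le] at h
    have := hL (Set.mem_image_of_mem _ (show r ∈ Set.Icc (-1 / 2 : ℝ) (1 / 2) by
      constructor <;> linarith))
    exact ⟨((le_max_left _ _).trans this).trans (le_max_right _ _),
      ((le_max_right _ _).trans this).trans (le_max_right _ _)⟩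

theorem twist_bounds {δ : ℝ} (h : 0 ≤ δ) (r : ℝ) : 0 ≤ twist δ r ∧ twist δ r ≤ δ :=
  ⟨mul_nonneg h (Real.smoothTransition.nonneg _),
    mul_le_of_le_one_right h (Real.smoothTransition.le_one _)⟩

theorem profD2_pos {r : ℝ} (h1 : -1 < r) (h2 : r ≤ 1) : 0 < profD2 r := by
  refine lt_of_lt_of_le ?_ (profD_le_profD2 h2)
  exact mul_pos (prof_pos h1) (div_pos (by norm_num) (pow_pos (by linarith) 2))

/-- The entry `A₁₁` of the inverse torus metric. -/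
def coA11 (δ r : ℝ) : ℝ := (1 - prof (-r)) + twist δ r ^ 2 * (1 - prof r)

/-- The entry `A₁₂` of the inverse torus metric. -/
def coA12 (δ r : ℝ) : ℝ := -(twist δ r * (1 - prof r))

/-- The entry `A₂₂` of the inverse torus metric. -/
def coA22 (r : ℝ) : ℝ := 1 - prof r

/-- The derivative of `A₁₁`. -/
def coA11D (δ r : ℝ) : ℝ :=
  profD (-r) + 2 * twist δ r * (δ * stepD r) * (1 - prof r) - twist δ r ^ 2 * profD r

/-- The derivative of `A₁₂`. -/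
def coA12D (δ r : ℝ) : ℝ := -(δ * stepD r * (1 - prof r)) + twist δ r * profD r

/-- The momentum `p₂ - σ p₁`. -/
def vmom (δ p₁ p₂ r : ℝ) : ℝ := p₂ - twist δ r * p₁

/-- The squared torus speed `F = p · A p`. -/
def energy (δ p₁ p₂ r : ℝ) : ℝ :=
  (1 - prof (-r)) * p₁ ^ 2 + (1 - prof r) * vmom δ p₁ p₂ r ^ 2

/-- The derivative of `F`. -/
def energyD (δ p₁ p₂ r : ℝ) : ℝ :=
  profD (-r) * p₁ ^ 2 - profD r * vmom δ p₁ p₂ r ^ 2 -
    2 * (1 - prof r) * vmom δ p₁ p₂ r * (δ * stepD r) * p₁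

/-- The second derivative of `F`. -/
def energyD2 (δ p₁ p₂ r : ℝ) : ℝ :=
  -(profD2 (-r) * p₁ ^ 2) - profD2 r * vmom δ p₁ p₂ r ^ 2 +
    4 * profD r * vmom δ p₁ p₂ r * (δ * stepD r) * p₁ +
    (1 - prof r) * (2 * (δ * stepD r) ^ 2 * p₁ ^ 2 -
      2 * vmom δ p₁ p₂ r * (δ * stepD2 r) * p₁)

/-- The first component of `A p`. -/
def mom₁ (δ p₁ p₂ r : ℝ) : ℝ := coA11 δ r * p₁ + coA12 δ r * p₂

/-- The second component of `A p`. -/
def mom₂ (δ p₁ p₂ r : ℝ) : ℝ := coA12 δ r * p₁ + coA22 r * p₂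

/-- The first component of `A' p`. -/
def momD₁ (δ p₁ p₂ r : ℝ) : ℝ := coA11D δ r * p₁ + coA12D δ r * p₂

/-- The second component of `A' p`. -/
def momD₂ (δ p₁ p₂ r : ℝ) : ℝ := coA12D δ r * p₁ + -profD r * p₂

theorem hasDerivAt_prof_neg (r : ℝ) : HasDerivAt (fun x => prof (-x)) (-profD (-r)) r :=
  (HasDerivAt.comp r (hasDerivAt_prof (-r)) (hasDerivAt_neg r)).congr_deriv (by ring)

theorem hasDerivAt_profD_neg (r : ℝ) : HasDerivAt (fun x => profD (-x)) (-profD2 (-r)) r :=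
  (HasDerivAt.comp r (hasDerivAt_profD (-r)) (hasDerivAt_neg r)).congr_deriv (by ring)

theorem hasDerivAt_twist (δ r : ℝ) : HasDerivAt (twist δ) (δ * stepD r) r :=
  (hasDerivAt_step r).const_mul δ

theorem hasDerivAt_coA11 (δ r : ℝ) : HasDerivAt (coA11 δ) (coA11D δ r) r := by
  refine (((hasDerivAt_prof_neg r).const_sub 1).add
    (((hasDerivAt_twist δ r).pow 2).mul ((hasDerivAt_prof r).const_sub 1))).congr_deriv ?_
  simp [coA11D]
  ring

theorem hasDerivAt_coA12 (δ r : ℝ) : HasDerivAt (coA12 δ) (coA12D δ r) r := by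
  refine ((hasDerivAt_twist δ r).mul ((hasDerivAt_prof r).const_sub 1)).neg.congr_deriv ?_
  simp [coA12D]
  ring

theorem hasDerivAt_coA22 (r : ℝ) : HasDerivAt coA22 (-profD r) r :=
  (hasDerivAt_prof r).const_sub 1

theorem hasDerivAt_vmom (δ p₁ p₂ r : ℝ) :
    HasDerivAt (vmom δ p₁ p₂) (-(δ * stepD r * p₁)) r :=
  ((hasDerivAt_twist δ r).mul_const p₁).const_sub p₂

theorem hasDerivAt_energy (δ p₁ p₂ r : ℝ) :
    HasDerivAt (energy δ p₁ p₂) (energyD δ p₁ p₂ r) r := by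
  refine ((((hasDerivAt_prof_neg r).const_sub 1).mul_const (p₁ ^ 2)).add
    (((hasDerivAt_prof r).const_sub 1).mul ((hasDerivAt_vmom δ p₁ p₂ r).pow 2))).congr_deriv ?_
  simp [energyD]
  ring

theorem hasDerivAt_energyD (δ p₁ p₂ r : ℝ) :
    HasDerivAt (energyD δ p₁ p₂) (energyD2 δ p₁ p₂ r) r := by
  refine ((((hasDerivAt_profD_neg r).mul_const (p₁ ^ 2)).sub
    ((hasDerivAt_profD r).mul ((hasDerivAt_vmom δ p₁ p₂ r).pow 2))).sub
    ((((((hasDerivAt_prof r).const_sub 1).const_mul 2).mul (hasDerivAt_vmom δ p₁ p₂ r)).mul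
      ((hasDerivAt_stepD r).const_mul δ)).mul_const p₁)).congr_deriv ?_
  simp [energyD2]
  ring

theorem energy_eq_coA (δ p₁ p₂ r : ℝ) :
    energy δ p₁ p₂ r = p₁ * mom₁ δ p₁ p₂ r + p₂ * mom₂ δ p₁ p₂ r := by
  simp only [energy, mom₁, mom₂, coA11, coA12, coA22, vmom]
  ring

theorem energyD_eq_coA (δ p₁ p₂ r : ℝ) :
    energyD δ p₁ p₂ r = p₁ * momD₁ δ p₁ p₂ r + p₂ * momD₂ δ p₁ p₂ r := by
  simp only [energyD, momD₁, momD₂, coA11D, coA12D, vmom]
  ring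

/-- The algebra behind concavity. -/
theorem concave_core {b b₁ a₂ b₂ η η₂ E c p v : ℝ} (hb : 0 ≤ b) (hb' : b ≤ 1)
    (hb1 : |b₁| ≤ 1 / 15) (hE : 0 ≤ E) (hE1 : E ≤ c / 24) (hη : |η| ≤ E) (hη₂ : |η₂| ≤ E)
    (hc : c ≤ 1) (ha : c ≤ a₂) (hb₂ : c ≤ b₂) :
    4 * b₁ * v * η * p + (1 - b) * (2 * η ^ 2 * p ^ 2 - 2 * v * η₂ * p) ≤
      (a₂ * p ^ 2 + b₂ * v ^ 2) / 4 := by
  have hvp : |v| * |p| ≤ (v ^ 2 + p ^ 2) / 2 := by
    nlinarith [sq_nonneg (|v| - |p|), sq_abs v, sq_abs p]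
  have h1 : 4 * b₁ * v * η * p ≤ 4 / 15 * E * ((v ^ 2 + p ^ 2) / 2) := by
    refine (le_abs_self _).trans ?_
    rw [abs_mul, abs_mul, abs_mul, abs_mul, abs_of_nonneg (show (0 : ℝ) ≤ 4 by norm_num)]
    calc 4 * |b₁| * |v| * |η| * |p| = 4 * |b₁| * |η| * (|v| * |p|) := by ring
      _ ≤ 4 * (1 / 15) * E * ((v ^ 2 + p ^ 2) / 2) := by gcongr
      _ = _ := by ring
  have h2 : -(2 * v * η₂ * p) ≤ 2 * E * ((v ^ 2 + p ^ 2) / 2) := by
    refine (neg_le_abs _).trans ?_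
    rw [abs_mul, abs_mul, abs_mul, abs_of_nonneg (show (0 : ℝ) ≤ 2 by norm_num)]
    calc 2 * |v| * |η₂| * |p| = 2 * |η₂| * (|v| * |p|) := by ring
      _ ≤ 2 * E * ((v ^ 2 + p ^ 2) / 2) := by gcongr
  have h3 : η ^ 2 ≤ E * E := by
    rw [← sq_abs, sq]
    gcongr
  have h4 : 2 * η ^ 2 * p ^ 2 ≤ E / 12 * p ^ 2 := by
    have : 2 * η ^ 2 ≤ E / 12 := by nlinarith
    exact mul_le_mul_of_nonneg_right this (sq_nonneg p)
  have h5 : (1 - b) * (2 * η ^ 2 * p ^ 2 - 2 * v * η₂ * p) ≤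
      E / 12 * p ^ 2 + 2 * E * ((v ^ 2 + p ^ 2) / 2) :=
    (mul_le_mul_of_nonneg_left (show 2 * η ^ 2 * p ^ 2 - 2 * v * η₂ * p ≤
      E / 12 * p ^ 2 + 2 * E * ((v ^ 2 + p ^ 2) / 2) by linarith) (by linarith)).trans
      (mul_le_of_le_one_left (by positivity) (by linarith))
  linarith [mul_le_mul_of_nonneg_right ha (sq_nonneg p),
    mul_le_mul_of_nonneg_right hb₂ (sq_nonneg v), mul_le_mul_of_nonneg_right hE1 (sq_nonneg p),
    mul_le_mul_of_nonneg_right hE1 (sq_nonneg v), mul_nonneg hE (sq_nonneg p),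
    mul_nonneg hE (sq_nonneg v)]

/-- The algebra behind the inequality of a right turn. -/
theorem right_core {b b₁ α a₂ b₂ η p v k Φ : ℝ} (hb : 0 ≤ b) (hb' : b < 1) (hb1 : 0 ≤ b₁)
    (hα : 0 ≤ α) (hη : η ^ 2 ≤ a₂ / 4) (ha₂ : 0 ≤ a₂) (hb₂ : 0 ≤ b₂)
    (hΦ : 3 / 8 * (a₂ * p ^ 2 + b₂ * v ^ 2) ≤ Φ)
    (hk : k = b₁ * v ^ 2 / 2 + (1 - b) * η * v * p - α * p ^ 2 / 2) (hk0 : 0 ≤ k) :
    (1 - b) * k ^ 2 + 2 * k * (-((1 - b) * η * p) - b₁ * v) * ((1 - b) * v) ≤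
      ((1 - b) * v) ^ 2 * Φ := by
  have hw : 0 < 1 - b := by linarith
  have hΦ0 : 0 ≤ Φ := le_trans (by positivity) hΦ
  set x := b₁ * v ^ 2 / 2 with hx
  set y := (1 - b) * η * v * p with hy
  set z := α * p ^ 2 / 2 with hz
  have hx0 : 0 ≤ x := by positivity
  have hz0 : 0 ≤ z := by positivity
  have e : (1 - b) * k ^ 2 + 2 * k * (-((1 - b) * η * p) - b₁ * v) * ((1 - b) * v) =
      (1 - b) * (k * (-(3 * x) - y - z)) := by
    rw [hk, hx, hy, hz]; ring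
  have key : k * (-(3 * x) - y - z) ≤ 4 / 3 * y ^ 2 := by
    rcases le_or_gt (-(3 * x) - y - z) 0 with h | h
    · exact (mul_nonpos_of_nonneg_of_nonpos hk0 h).trans (by positivity)
    · nlinarith
  have hw1 : 1 - b ≤ 1 := by linarith
  have hy2 : 4 / 3 * (1 - b) * η ^ 2 * p ^ 2 ≤ Φ := by
    have h1 : (1 - b) * η ^ 2 ≤ a₂ / 4 := (mul_le_of_le_one_left (sq_nonneg η) hw1).trans hη
    nlinarith [mul_le_mul_of_nonneg_right h1 (sq_nonneg p), mul_nonneg hb₂ (sq_nonneg v)]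
  rw [e]
  calc (1 - b) * (k * (-(3 * x) - y - z)) ≤ (1 - b) * (4 / 3 * y ^ 2) :=
        mul_le_mul_of_nonneg_left key hw.le
    _ = ((1 - b) * v) ^ 2 * (4 / 3 * (1 - b) * η ^ 2 * p ^ 2) := by rw [hy]; ring
    _ ≤ _ := mul_le_mul_of_nonneg_left hy2 (sq_nonneg _)

/-- On a left turn the momentum `p₂ - σ p₁` is controlled by `p₁`. -/
theorem left_momentum {b α b₁ η E c p v : ℝ} (hb : 0 ≤ b) (hb' : b ≤ 1)
    (hα' : α ≤ 1 / 15) (hc : 0 < c) (hc' : c ≤ 1 / 15) (hb1 : c ≤ b₁) (hη : |η| ≤ E)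
    (hE : E ≤ c ^ 2 / 100)
    (hF : b₁ * v ^ 2 / 2 + (1 - b) * η * v * p - α * p ^ 2 / 2 ≤ 0) : c * |v| ≤ |p| := by
  by_contra hcon
  rw [not_le] at hcon
  have hE0 : 0 ≤ E := (abs_nonneg η).trans hη
  have hy : |(1 - b) * η * v * p| ≤ |η| * |v| * |p| := by
    rw [abs_mul, abs_mul, abs_mul, abs_of_nonneg (sub_nonneg.2 hb')]
    gcongr
    exact mul_le_of_le_one_left (abs_nonneg η) (by linarith)
  have hw : 0 < c * v ^ 2 := by
    have : v ≠ 0 := fun h => by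
      rw [h, abs_zero, mul_zero] at hcon
      exact absurd hcon (not_lt.2 (abs_nonneg p))
    positivity
  have h1 : b₁ * v ^ 2 ≤ α * p ^ 2 + 2 * (|η| * |v| * |p|) := by
    linarith [neg_abs_le ((1 - b) * η * v * p)]
  have h2 : p ^ 2 ≤ c ^ 2 * v ^ 2 := by
    rw [← sq_abs p, ← sq_abs v, ← mul_pow]
    exact pow_le_pow_left₀ (abs_nonneg p) hcon.le 2
  have h3 : |η| * |v| * |p| ≤ E * (c * v ^ 2) := by
    calc |η| * |v| * |p| ≤ E * |v| * (c * |v|) := by gcongr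
      _ = E * (c * v ^ 2) := by rw [← sq_abs v]; ring
  have h4 : α * p ^ 2 ≤ c / 15 * (c * v ^ 2) := by
    calc α * p ^ 2 ≤ 1 / 15 * (c ^ 2 * v ^ 2) := mul_le_mul hα' h2 (sq_nonneg p) (by norm_num)
      _ = _ := by ring
  have h5 : (c / 15 + 2 * E) * (c * v ^ 2) < 1 * (c * v ^ 2) :=
    mul_lt_mul_of_pos_right (by nlinarith) hw
  have h6 := mul_le_mul_of_nonneg_right hb1 (sq_nonneg v)
  linarith

/-- On a left turn the first component of `A p` is comparable with `p₁`. -/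
theorem left_mom {a b s E c p v : ℝ} (ha : 0 ≤ a) (ha' : a ≤ 3 / 40) (hb : 0 ≤ b) (hb' : b ≤ 1)
    (hc : 0 < c) (hc' : c ≤ 1) (hs : 0 ≤ s) (hsE : s ≤ E) (hE : E ≤ c ^ 2 / 100)
    (hv : c * |v| ≤ |p|) :
    4 / 5 * |p| ≤ |(1 - a) * p - s * (1 - b) * v| ∧
      |(1 - a) * p - s * (1 - b) * v| ≤ 2 * |p| := by
  have hsv : |s * (1 - b) * v| ≤ |p| / 100 := by
    rw [abs_mul, abs_mul, abs_of_nonneg hs, abs_of_nonneg (sub_nonneg.2 hb')]
    have hEc : E ≤ c / 100 := hE.trans (by nlinarith)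
    calc s * (1 - b) * |v| ≤ c / 100 * 1 * |v| := by
          gcongr
          · exact hsE.trans hEc
          · linarith
      _ ≤ |p| / 100 := by linarith
  have h1 : |(1 - a) * p| = (1 - a) * |p| := by
    rw [abs_mul, abs_of_nonneg (show (0 : ℝ) ≤ 1 - a by linarith)]
  have h2 := abs_sub_abs_le_abs_sub ((1 - a) * p) (s * (1 - b) * v)
  have h3 := abs_sub ((1 - a) * p) (s * (1 - b) * v)
  have h4 := mul_le_mul_of_nonneg_right (show 1 - a ≤ 1 by linarith) (abs_nonneg p)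
  have h5 := mul_le_mul_of_nonneg_right (show 37 / 40 ≤ 1 - a by linarith) (abs_nonneg p)
  constructor <;> linarith [abs_nonneg p]

/-- The estimate of the error term of a left turn. -/
theorem left_error {b α b₁ s η E c p v u : ℝ} (hb : 0 ≤ b) (hb' : b ≤ 1) (hα : 0 ≤ α)
    (hα' : α ≤ 1) (hc : 0 < c) (hc' : c ≤ 1) (hb1 : 0 ≤ b₁) (hb1' : b₁ ≤ 1) (hs : 0 ≤ s)
    (hs1 : s ≤ 1) (hsE : s ≤ E) (hη : |η| ≤ E) (hv : c * |v| ≤ |p|) (hu : |u| ≤ 2 * |p|) :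
    |α * p * (-(s * (1 - b) * v)) +
        (s * η * (1 - b) * p + (-(η * (1 - b)) + s * b₁) * v) * u| ≤ 7 * (E / c) * p ^ 2 := by
  have hE0 : 0 ≤ E := hs.trans hsE
  have hw0 : 0 ≤ 1 - b := sub_nonneg.2 hb'
  have h1 : |s * η * (1 - b) * p| ≤ E * |p| := by
    rw [abs_mul, abs_mul, abs_mul, abs_of_nonneg hs, abs_of_nonneg hw0]
    calc s * |η| * (1 - b) * |p| ≤ 1 * E * 1 * |p| := by gcongr; linarith
      _ = _ := by ring
  have h2 : |(-(η * (1 - b)) + s * b₁) * v| ≤ 2 * E * |v| := by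
    rw [abs_mul]
    gcongr
    refine (abs_add_le _ _).trans ?_
    rw [abs_neg, abs_mul, abs_of_nonneg hw0, abs_mul, abs_of_nonneg hs, abs_of_nonneg hb1]
    linarith [mul_le_mul_of_nonneg_left (show 1 - b ≤ 1 by linarith) (abs_nonneg η),
      mul_le_mul_of_nonneg_left hb1' hs]
  have hε : c * |s * η * (1 - b) * p + (-(η * (1 - b)) + s * b₁) * v| ≤ 3 * E * |p| := by
    calc c * |s * η * (1 - b) * p + (-(η * (1 - b)) + s * b₁) * v|
        ≤ c * (E * |p| + 2 * E * |v|) :=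
          mul_le_mul_of_nonneg_left ((abs_add_le _ _).trans (add_le_add h1 h2)) hc.le
      _ = c * (E * |p|) + 2 * E * (c * |v|) := by ring
      _ ≤ 1 * (E * |p|) + 2 * E * |p| := by gcongr
      _ = _ := by ring
  have h3 : c * |α * p * (-(s * (1 - b) * v))| ≤ E * |p| * |p| := by
    rw [abs_mul, abs_mul, abs_neg, abs_mul, abs_mul, abs_of_nonneg hα, abs_of_nonneg hs,
      abs_of_nonneg hw0]
    calc c * (α * |p| * (s * (1 - b) * |v|)) = α * (1 - b) * s * |p| * (c * |v|) := by ring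
      _ ≤ 1 * 1 * E * |p| * |p| := by gcongr; linarith
      _ = _ := by ring
  rw [mul_div_assoc', div_mul_eq_mul_div, le_div_iff₀ hc, mul_comm _ c, ← sq_abs p]
  calc c * |α * p * (-(s * (1 - b) * v)) +
        (s * η * (1 - b) * p + (-(η * (1 - b)) + s * b₁) * v) * u|
      ≤ c * (|α * p * (-(s * (1 - b) * v))| +
        |s * η * (1 - b) * p + (-(η * (1 - b)) + s * b₁) * v| * |u|) := by
        refine mul_le_mul_of_nonneg_left ((abs_add_le _ _).trans (le_of_eq ?_)) hc.le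
        rw [abs_mul _ u]
    _ ≤ E * |p| * |p| + 3 * E * |p| * (2 * |p|) := by
        rw [mul_add, ← mul_assoc c]
        exact add_le_add h3 (mul_le_mul hε hu (abs_nonneg u) (by positivity))
    _ = _ := by ring

/-- The bounds of `k` on a left turn. -/
theorem left_k {b α b₁ a₂ η E c p v k : ℝ} (hb : 0 ≤ b) (hb' : b ≤ 1) (hα : 0 ≤ α)
    (hαa : α ≤ a₂) (hα' : α ≤ 1 / 15) (hc : 0 < c) (hc' : c ≤ 1) (hb1 : 0 ≤ b₁)
    (hη : |η| ≤ E) (hηa : c * |η| ≤ E * a₂) (hE : E ≤ c ^ 2 / 100) (hv : c * |v| ≤ |p|)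
    (hk : k = b₁ * v ^ 2 / 2 + (1 - b) * η * v * p - α * p ^ 2 / 2) :
    -(a₂ * p ^ 2) ≤ k ∧ -(p ^ 2) ≤ k ∧ -(k + 2 * α * p ^ 2) ≤ E / c * p ^ 2 := by
  have hy : |(1 - b) * η * v * p| ≤ |η| * |v| * |p| := by
    rw [abs_mul, abs_mul, abs_mul, abs_of_nonneg (sub_nonneg.2 hb')]
    gcongr
    exact mul_le_of_le_one_left (abs_nonneg η) (by linarith)
  have hy' := neg_abs_le ((1 - b) * η * v * p)
  have hE0 : 0 ≤ E := (abs_nonneg η).trans hη
  have hp2 := sq_nonneg p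
  have ha20 : 0 ≤ a₂ := hα.trans hαa
  have hE2 : |η| * |v| * |p| ≤ E / c * p ^ 2 := by
    rw [← sq_abs p, div_mul_eq_mul_div, le_div_iff₀ hc]
    calc |η| * |v| * |p| * c = |η| * (c * |v|) * |p| := by ring
      _ ≤ E * |p| * |p| := by gcongr
      _ = _ := by ring
  have h1 : |η| * |v| * |p| ≤ a₂ * p ^ 2 / 2 := by
    refine le_of_mul_le_mul_left ?_ (pow_pos hc 2)
    calc c ^ 2 * (|η| * |v| * |p|) = c * |η| * (c * |v|) * |p| := by ring
      _ ≤ E * a₂ * |p| * |p| := by gcongr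
      _ = E * (a₂ * p ^ 2) := by rw [← sq_abs p]; ring
      _ ≤ c ^ 2 / 2 * (a₂ * p ^ 2) := by gcongr; linarith [sq_nonneg c]
      _ = _ := by ring
  have h2 : E / c * p ^ 2 ≤ 1 / 2 * p ^ 2 := by
    refine mul_le_mul_of_nonneg_right ?_ hp2
    rw [div_le_iff₀ hc]
    nlinarith
  have h3 := mul_nonneg hb1 (sq_nonneg v)
  have h4 := mul_le_mul_of_nonneg_right hαa hp2
  have h5 := mul_le_mul_of_nonneg_right hα' hp2
  have h6 := mul_nonneg hα hp2
  refine ⟨?_, ?_, ?_⟩ <;> linarith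

/-- The algebra behind the inequality of a left turn, where the twist is present. -/
theorem left_core {a b α b₁ a₂ b₂ s η E c p v k Φ : ℝ} (ha : 0 ≤ a) (ha' : a ≤ 3 / 40)
    (hb : 0 ≤ b) (hb' : b ≤ 3 / 40) (hα : 0 ≤ α) (hαa : α ≤ a₂) (hα' : α ≤ 1 / 15)
    (hc : 0 < c) (hc' : c ≤ 1 / 15) (hb1 : c ≤ b₁) (hb1' : b₁ ≤ 1 / 15) (hs : 0 ≤ s)
    (hsE : s ≤ E) (hη : |η| ≤ E) (hηa : c * |η| ≤ E * a₂) (hE : E ≤ c ^ 2 / 100)
    (hb₂ : 0 ≤ b₂) (hΦ : 3 / 8 * (a₂ * p ^ 2 + b₂ * v ^ 2) ≤ Φ)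
    (hk : k = b₁ * v ^ 2 / 2 + (1 - b) * η * v * p - α * p ^ 2 / 2) (hk0 : k ≤ 0) :
    ((1 - a) + s ^ 2 * (1 - b)) * k ^ 2 +
        2 * k * ((α + s * η * (1 - b)) * p + (-(η * (1 - b)) + s * b₁) * v) *
          ((1 - a) * p - s * (1 - b) * v) ≤
      ((1 - a) * p - s * (1 - b) * v) ^ 2 * Φ := by
  have hE0 : 0 ≤ E := hs.trans hsE
  have ha20 : 0 ≤ a₂ := hα.trans hαa
  have hE1 : E ≤ 1 := hE.trans (by nlinarith)
  have hv := left_momentum hb (by linarith) hα' hc hc' hb1 hη hE (hk ▸ hk0)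
  obtain ⟨hul, huu⟩ := left_mom ha ha' hb (by linarith) hc (by linarith) hs hsE hE hv
  obtain ⟨hk1, hk2, hk3⟩ := left_k hb (by linarith) hα hαa hα' hc (by linarith)
    (hc.le.trans hb1) hη hηa hE hv hk
  have hY := left_error hb (by linarith) hα (by linarith) hc (by linarith) (hc.le.trans hb1)
    (by linarith) hs (hsE.trans hE1) hsE hη hv huu
  set u := (1 - a) * p - s * (1 - b) * v with hu
  set Y := α * p * (-(s * (1 - b) * v)) +
    (s * η * (1 - b) * p + (-(η * (1 - b)) + s * b₁) * v) * u with hYdef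
  have e : ((1 - a) + s ^ 2 * (1 - b)) * k ^ 2 +
      2 * k * ((α + s * η * (1 - b)) * p + (-(η * (1 - b)) + s * b₁) * v) * u =
      (1 - a) * (k * (k + 2 * α * p ^ 2)) + s ^ 2 * (1 - b) * k ^ 2 + 2 * k * Y := by
    rw [hYdef, hu]; ring
  have hkn : 0 ≤ -k := neg_nonneg.2 hk0
  have t1 : (1 - a) * (k * (k + 2 * α * p ^ 2)) ≤ (-k) * (E / c * p ^ 2) := by
    calc (1 - a) * (k * (k + 2 * α * p ^ 2)) = (1 - a) * ((-k) * -(k + 2 * α * p ^ 2)) := by ring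
      _ ≤ (1 - a) * ((-k) * (E / c * p ^ 2)) := by gcongr; linarith
      _ ≤ _ := mul_le_of_le_one_left (mul_nonneg hkn (by positivity)) (by linarith)
  have t2 : s ^ 2 * (1 - b) * k ^ 2 ≤ (-k) * (E / c * p ^ 2) := by
    calc s ^ 2 * (1 - b) * k ^ 2 = s * s * (1 - b) * ((-k) * (-k)) := by ring
      _ ≤ E * 1 * 1 * ((-k) * p ^ 2) := by
        gcongr <;> linarith
      _ ≤ E / c * ((-k) * p ^ 2) := by
        refine mul_le_mul_of_nonneg_right ?_ (mul_nonneg hkn (sq_nonneg p))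
        rw [mul_one, mul_one, le_div_iff₀ hc]
        exact mul_le_of_le_one_right hE0 (by linarith)
      _ = _ := by ring
  have t3 : 2 * k * Y ≤ (-k) * (14 * (E / c) * p ^ 2) := by
    calc 2 * k * Y = (-k) * (2 * -Y) := by ring
      _ ≤ _ := mul_le_mul_of_nonneg_left (by linarith [neg_abs_le Y]) hkn
  have h16 : 16 * (E / c) ≤ 6 / 25 := by
    have : E / c ≤ 1 / 100 := by rw [div_le_iff₀ hc]; nlinarith
    linarith
  have hu2 : (4 / 5 * |p|) ^ 2 ≤ |u| ^ 2 := pow_le_pow_left₀ (by positivity) hul 2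
  rw [mul_pow, sq_abs, sq_abs] at hu2
  have hΦ' : 3 / 8 * (a₂ * p ^ 2) ≤ Φ := by linarith [mul_nonneg hb₂ (sq_nonneg v)]
  rw [e]
  calc (1 - a) * (k * (k + 2 * α * p ^ 2)) + s ^ 2 * (1 - b) * k ^ 2 + 2 * k * Y
      ≤ (-k) * (16 * (E / c) * p ^ 2) := by linarith
    _ ≤ a₂ * p ^ 2 * (6 / 25 * p ^ 2) := by
        refine mul_le_mul (by linarith) ?_ (by positivity) (by positivity)
        exact mul_le_mul_of_nonneg_right h16 (sq_nonneg p)
    _ = (4 / 5) ^ 2 * p ^ 2 * (3 / 8 * (a₂ * p ^ 2)) := by ring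
    _ ≤ u ^ 2 * Φ := mul_le_mul hu2 hΦ' (by positivity) (sq_nonneg u)

/-- The inequality of a left turn where there is no twist. -/
theorem left_exact {a b b₁ α p v k Φ : ℝ} (_ha : 0 ≤ a) (ha' : a ≤ 1) (hb1 : 0 ≤ b₁) (hα : 0 ≤ α)
    (hk : k = b₁ * v ^ 2 / 2 + (1 - b) * 0 * v * p - α * p ^ 2 / 2) (hk0 : k ≤ 0) (hΦ : 0 ≤ Φ) :
    ((1 - a) + 0 ^ 2 * (1 - b)) * k ^ 2 +
        2 * k * ((α + 0 * 0 * (1 - b)) * p + (-(0 * (1 - b)) + 0 * b₁) * v) *
          ((1 - a) * p - 0 * (1 - b) * v) ≤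
      ((1 - a) * p - 0 * (1 - b) * v) ^ 2 * Φ := by
  have h1 : 0 ≤ k + 2 * (α * p ^ 2) := by
    linarith [mul_nonneg hb1 (sq_nonneg v), mul_nonneg hα (sq_nonneg p)]
  have h2 := mul_nonpos_of_nonneg_of_nonpos (sub_nonneg.2 ha')
    (mul_nonpos_of_nonpos_of_nonneg hk0 h1)
  linarith [mul_nonneg (sq_nonneg ((1 - a) * p)) hΦ]

theorem profD_mem {r : ℝ} (h : r ≤ 1) : 0 ≤ profD r ∧ profD r ≤ 1 / 15 :=
  ⟨profD_nonneg r, profD_le (by linarith)⟩

/-- The lower bound of the second derivatives of the profiles where the twist varies. -/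
def coreC : ℝ := profD (-1 / 2)

theorem coreC_pos : 0 < coreC := mul_pos (prof_pos (by norm_num)) (by norm_num)

theorem coreC_le : coreC ≤ 1 / 15 := (profD_mem (by norm_num)).2

theorem profD_lower {r : ℝ} (h1 : -1 / 2 ≤ r) (h2 : r ≤ 1) :
    coreC ≤ profD r ∧ coreC ≤ profD2 r := by
  have h := monotoneOn_profD (show (-1 / 2 : ℝ) ≤ 2 by norm_num) (show r ≤ 2 by linarith) h1
  exact ⟨h, h.trans (profD_le_profD2 h2)⟩

/-- The twist is small: `E` bounds it together with its first two derivatives. -/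
structure TwistSmall (δ E : ℝ) : Prop where
  pos : 0 ≤ δ
  le : δ ≤ E
  small : E ≤ coreC ^ 2 / 100
  deriv : ∀ x, |δ * stepD x| ≤ E ∧ |δ * stepD2 x| ≤ E

variable {δ E r : ℝ}

theorem stepD_cases (hr : |r| ≤ 1) :
    (stepD r = 0 ∧ stepD2 r = 0) ∨ (coreC ≤ profD2 (-r) ∧ coreC ≤ profD2 r) := by
  refine (lt_or_ge (1 / 2) |r|).imp step_deriv_zero fun h => ?_
  obtain ⟨h1, h2⟩ := abs_le.1 h
  obtain ⟨hr1, hr2⟩ := abs_le.1 hr
  exact ⟨(profD_lower (r := -r) (by linarith) (by linarith)).2,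
    (profD_lower (r := r) (by linarith) hr2).2⟩

theorem energyD2_bound (hs : TwistSmall δ E) (hr : |r| ≤ 1) (p₁ p₂ : ℝ) :
    3 / 4 * (profD2 (-r) * p₁ ^ 2 + profD2 r * vmom δ p₁ p₂ r ^ 2) ≤ -energyD2 δ p₁ p₂ r := by
  obtain ⟨hr1, hr2⟩ := abs_le.1 hr
  have ha₂ : 0 ≤ profD2 (-r) := profD2_nonneg (by linarith)
  have hb₂ : 0 ≤ profD2 r := profD2_nonneg (by linarith)
  rcases stepD_cases hr with ⟨e1, e2⟩ | ⟨h1, h2⟩
  · simp only [energyD2, e1, e2]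
    linarith [mul_nonneg ha₂ (sq_nonneg p₁), mul_nonneg hb₂ (sq_nonneg (vmom δ p₁ p₂ r))]
  · have hc := coreC_pos
    have hc' := coreC_le
    have hsq : coreC ^ 2 / 100 ≤ coreC / 24 := by nlinarith
    have := concave_core (v := vmom δ p₁ p₂ r) (p := p₁) (prof_nonneg r) (prof_lt_one r).le
      (abs_le.2 ⟨by linarith [profD_nonneg r], (profD_mem hr2).2⟩) (hs.pos.trans hs.le)
      (hs.small.trans hsq) (hs.deriv r).1 (hs.deriv r).2 (by linarith) h1 h2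
    simp only [energyD2]
    linarith

theorem energyD2_neg (hs : TwistSmall δ E) (hr : |r| < 1) {p₁ p₂ : ℝ} (hp : p₁ ≠ 0 ∨ p₂ ≠ 0) :
    energyD2 δ p₁ p₂ r < 0 := by
  obtain ⟨hr1, hr2⟩ := abs_lt.1 hr
  have hA := energyD2_bound hs hr.le p₁ p₂
  have h1 := profD2_pos (r := -r) (by linarith) (by linarith)
  have h2 := profD2_pos hr1 hr2.le
  rcases eq_or_ne p₁ 0 with rfl | hp1
  · have hp2 : p₂ ≠ 0 := hp.resolve_left (by simp)
    have hv : vmom δ 0 p₂ r = p₂ := by simp [vmom]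
    rw [hv] at hA
    have : 0 < profD2 r * p₂ ^ 2 := by positivity
    linarith [mul_nonneg h1.le (sq_nonneg (0 : ℝ))]
  · have : 0 < profD2 (-r) * p₁ ^ 2 := by positivity
    linarith [mul_nonneg h2.le (sq_nonneg (vmom δ p₁ p₂ r))]

theorem energy_k (δ p₁ p₂ r : ℝ) :
    -(energyD δ p₁ p₂ r) / 2 = profD r * vmom δ p₁ p₂ r ^ 2 / 2 +
      (1 - prof r) * (δ * stepD r) * vmom δ p₁ p₂ r * p₁ - profD (-r) * p₁ ^ 2 / 2 := by
  simp only [energyD]; ring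

theorem mom₁_eq (δ p₁ p₂ r : ℝ) : mom₁ δ p₁ p₂ r =
    (1 - prof (-r)) * p₁ - twist δ r * (1 - prof r) * vmom δ p₁ p₂ r := by
  simp only [mom₁, coA11, coA12, vmom]; ring

theorem mom₂_eq (δ p₁ p₂ r : ℝ) : mom₂ δ p₁ p₂ r = (1 - prof r) * vmom δ p₁ p₂ r := by
  simp only [mom₂, coA12, coA22, vmom]; ring

theorem momD₂_eq (δ p₁ p₂ r : ℝ) : momD₂ δ p₁ p₂ r =
    -((1 - prof r) * (δ * stepD r) * p₁) - profD r * vmom δ p₁ p₂ r := by
  simp only [momD₂, coA12D, vmom]; ring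

theorem momD₁_eq (δ p₁ p₂ r : ℝ) : momD₁ δ p₁ p₂ r =
    (profD (-r) + twist δ r * (δ * stepD r) * (1 - prof r)) * p₁ +
      (-((δ * stepD r) * (1 - prof r)) + twist δ r * profD r) * vmom δ p₁ p₂ r := by
  simp only [momD₁, coA11D, coA12D, vmom]; ring

theorem right_turn (hs : TwistSmall δ E) (hr : |r| ≤ 1) {p₁ p₂ : ℝ}
    (hF : energyD δ p₁ p₂ r ≤ 0) :
    coA22 r * (energyD δ p₁ p₂ r / 2) ^ 2 +
        2 * (-(energyD δ p₁ p₂ r) / 2) * momD₂ δ p₁ p₂ r * mom₂ δ p₁ p₂ r ≤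
      mom₂ δ p₁ p₂ r ^ 2 * (-(energyD2 δ p₁ p₂ r) / 2) := by
  obtain ⟨hr1, hr2⟩ := abs_le.1 hr
  have hsq : (energyD δ p₁ p₂ r / 2) ^ 2 = (-(energyD δ p₁ p₂ r) / 2) ^ 2 := by ring
  have hη2 : (δ * stepD r) ^ 2 ≤ profD2 (-r) / 4 := by
    rcases stepD_cases hr with ⟨e, -⟩ | ⟨h1, -⟩
    · rw [e, mul_zero]
      linarith [profD2_nonneg (show -r ≤ 2 by linarith)]
    · have hc := coreC_pos
      have hc' := coreC_le
      have hE : E ≤ coreC / 4 := hs.small.trans (by nlinarith)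
      calc (δ * stepD r) ^ 2 = |δ * stepD r| ^ 2 := (sq_abs _).symm
        _ ≤ E ^ 2 := pow_le_pow_left₀ (abs_nonneg _) (hs.deriv r).1 2
        _ ≤ E := pow_le_of_le_one (hs.pos.trans hs.le) (by linarith) two_ne_zero
        _ ≤ _ := by linarith
  rw [hsq, mom₂_eq, momD₂_eq, coA22]
  refine right_core (prof_nonneg r) (prof_lt_one r) (profD_nonneg r) (profD_nonneg (-r)) hη2
    (profD2_nonneg (r := -r) (by linarith)) (profD2_nonneg (r := r) (by linarith)) ?_ (energy_k δ p₁ p₂ r)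
    (by linarith)
  linarith [energyD2_bound hs hr p₁ p₂]

theorem stepD_left (h : r ≤ -1 / 2) : stepD r = 0 := by
  have hwi : HasDerivWithinAt step 0 (Set.Iic r) r :=
    (hasDerivWithinAt_const r _ (0 : ℝ)).congr
      (fun x hx => step_left (le_trans hx h)) (step_left h)
  exact (uniqueDiffWithinAt_Iic r).eq_deriv _ (hasDerivAt_step r).hasDerivWithinAt hwi

theorem left_turn (hs : TwistSmall δ E) (hr : |r| ≤ 1) {p₁ p₂ : ℝ}
    (hF : 0 ≤ energyD δ p₁ p₂ r) :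
    coA11 δ r * (energyD δ p₁ p₂ r / 2) ^ 2 +
        2 * (-(energyD δ p₁ p₂ r) / 2) * momD₁ δ p₁ p₂ r * mom₁ δ p₁ p₂ r ≤
      mom₁ δ p₁ p₂ r ^ 2 * (-(energyD2 δ p₁ p₂ r) / 2) := by
  obtain ⟨hr1, hr2⟩ := abs_le.1 hr
  have hsq : (energyD δ p₁ p₂ r / 2) ^ 2 = (-(energyD δ p₁ p₂ r) / 2) ^ 2 := by ring
  rw [hsq, mom₁_eq, momD₁_eq, coA11]
  have hk := energy_k δ p₁ p₂ r
  have hk0 : -(energyD δ p₁ p₂ r) / 2 ≤ 0 := by linarith
  have hΦ : 3 / 8 * (profD2 (-r) * p₁ ^ 2 + profD2 r * vmom δ p₁ p₂ r ^ 2) ≤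
      -(energyD2 δ p₁ p₂ r) / 2 := by linarith [energyD2_bound hs hr p₁ p₂]
  have ha' : prof (-r) ≤ 3 / 40 := prof_le (by linarith)
  have hb₂ : 0 ≤ profD2 r := profD2_nonneg (by linarith)
  have ha₂ : 0 ≤ profD2 (-r) := profD2_nonneg (by linarith)
  rcases le_or_gt r (-1 / 2) with h | h
  · rw [stepD_left h, mul_zero] at hk
    rw [twist_left h, stepD_left h, mul_zero]
    refine left_exact (prof_nonneg _) (by linarith) (profD_nonneg r) (profD_nonneg (-r)) hk hk0 ?_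
    exact le_trans (by positivity) hΦ
  · have hηa : coreC * |δ * stepD r| ≤ E * profD2 (-r) := by
      rcases stepD_cases hr with ⟨e, -⟩ | ⟨h1, -⟩
      · rw [e, mul_zero, abs_zero, mul_zero]
        exact mul_nonneg (hs.pos.trans hs.le) ha₂
      · rw [mul_comm E]
        exact mul_le_mul h1 (hs.deriv r).1 (abs_nonneg _) ha₂
    obtain ⟨hs0, hs1⟩ := twist_bounds hs.pos r
    exact left_core (prof_nonneg _) ha' (prof_nonneg r) (prof_le (by linarith)) (profD_nonneg _)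
      (profD_le_profD2 (by linarith)) (profD_mem (by linarith)).2 coreC_pos coreC_le
      (profD_lower h.le hr2).1 (profD_mem hr2).2 hs0 (hs1.trans hs.le) (hs.deriv r).1 hηa
      hs.small hb₂ hΦ hk hk0

/-- On a left turn the first component of `A p` does not vanish. -/
theorem mom₁_ne_zero (hs : TwistSmall δ E) (hr : |r| ≤ 1) {p₁ p₂ : ℝ}
    (hF : 0 < energyD δ p₁ p₂ r) : mom₁ δ p₁ p₂ r ≠ 0 := by
  obtain ⟨hr1, hr2⟩ := abs_le.1 hr
  have hk := energy_k δ p₁ p₂ r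
  rw [mom₁_eq]
  intro h0
  have ha' : prof (-r) ≤ 3 / 40 := prof_le (by linarith)
  have hp1 : p₁ = 0 := by
    rcases le_or_gt r (-1 / 2) with h | h
    · rw [twist_left h, zero_mul, zero_mul, sub_zero] at h0
      exact (mul_eq_zero.1 h0).resolve_left (by linarith)
    · have hv := left_momentum (p := p₁) (v := vmom δ p₁ p₂ r) (prof_nonneg r) (prof_lt_one r).le
        (profD_mem (show -r ≤ 1 by linarith)).2 coreC_pos coreC_le (profD_lower h.le hr2).1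
        (hs.deriv r).1 hs.small (by linarith)
      obtain ⟨hs0, hs1⟩ := twist_bounds hs.pos r
      have := (left_mom (prof_nonneg (-r)) ha' (prof_nonneg r) (prof_lt_one r).le coreC_pos
        (by linarith [coreC_le]) hs0 (hs1.trans hs.le) hs.small hv).1
      rw [h0, abs_zero] at this
      exact abs_eq_zero.1 (le_antisymm (by linarith) (abs_nonneg p₁))
  subst hp1
  linarith [mul_nonneg (profD_nonneg r) (sq_nonneg (vmom δ 0 p₂ r))]

/-- On a right turn the second component of `A p` does not vanish. -/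
theorem mom₂_ne_zero {p₁ p₂ : ℝ} (h : energyD δ p₁ p₂ r < 0) : mom₂ δ p₁ p₂ r ≠ 0 := by
  rw [mom₂_eq]
  intro h0
  have hv : vmom δ p₁ p₂ r = 0 := (mul_eq_zero.1 h0).resolve_left (one_sub_prof_pos r).ne'
  rw [energyD, hv] at h
  linarith [mul_nonneg (profD_nonneg (-r)) (sq_nonneg p₁)]

/-- Every sufficiently small twist is small in the sense of the lemmas above. -/
theorem exists_small_twist :
    ∃ δ₀ : ℝ, 0 < δ₀ ∧ δ₀ < 1 ∧ ∀ δ, 0 < δ → δ ≤ δ₀ → ∃ E, TwistSmall δ E := by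
  obtain ⟨L, hL1, hL⟩ := exists_step_bound
  have hc := coreC_pos
  have hc' := coreC_le
  refine ⟨coreC ^ 2 / (100 * L), by positivity, ?_, fun δ hδ hδ' => ⟨δ * L, ?_⟩⟩
  · rw [div_lt_one (by positivity)]; nlinarith
  refine ⟨hδ.le, le_mul_of_one_le_right hδ.le hL1, ?_, fun x => ?_⟩
  · refine (mul_le_mul_of_nonneg_right hδ' (by linarith)).trans (le_of_eq ?_)
    field_simp
  · rw [abs_mul, abs_mul, abs_of_pos hδ]
    exact ⟨mul_le_mul_of_nonneg_left (hL x).1 hδ.le, mul_le_mul_of_nonneg_left (hL x).2 hδ.le⟩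

theorem energyD2_nonpos (hs : TwistSmall δ E) (hr : |r| ≤ 1) (p₁ p₂ : ℝ) :
    energyD2 δ p₁ p₂ r ≤ 0 := by
  obtain ⟨hr1, hr2⟩ := abs_le.1 hr
  linarith [energyD2_bound hs hr p₁ p₂,
    mul_nonneg (profD2_nonneg (show -r ≤ 2 by linarith)) (sq_nonneg p₁),
    mul_nonneg (profD2_nonneg (show r ≤ 2 by linarith)) (sq_nonneg (vmom δ p₁ p₂ r))]

theorem hasDerivAt_mom₁ (δ p₁ p₂ r : ℝ) :
    HasDerivAt (mom₁ δ p₁ p₂) (momD₁ δ p₁ p₂ r) r :=
  ((hasDerivAt_coA11 δ r).mul_const p₁).add ((hasDerivAt_coA12 δ r).mul_const p₂)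

theorem hasDerivAt_mom₂ (δ p₁ p₂ r : ℝ) :
    HasDerivAt (mom₂ δ p₁ p₂) (momD₂ δ p₁ p₂ r) r :=
  ((hasDerivAt_coA12 δ r).mul_const p₁).add ((hasDerivAt_coA22 r).mul_const p₂)

theorem concaveOn_energy (hs : TwistSmall δ E) (p₁ p₂ : ℝ) :
    ConcaveOn ℝ (Set.Icc (-1) 1) (energy δ p₁ p₂) := by
  refine concaveOn_of_hasDerivWithinAt2_nonpos (f' := energyD δ p₁ p₂)
    (f'' := energyD2 δ p₁ p₂) (convex_Icc _ _)
    (fun x _ => (hasDerivAt_energy δ p₁ p₂ x).continuousAt.continuousWithinAt)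
    (fun x _ => (hasDerivAt_energy δ p₁ p₂ x).hasDerivWithinAt)
    (fun x _ => (hasDerivAt_energyD δ p₁ p₂ x).hasDerivWithinAt) fun x hx => ?_
  have hx' := interior_subset hx
  exact energyD2_nonpos hs (abs_le.2 ⟨hx'.1, hx'.2⟩) p₁ p₂

theorem one_sub_prof_mul_phi₂ (h : r ≤ 1) : (1 - prof r) * phi₂ r ^ 2 = 1 := by
  rw [phi₂, flare_eq h, phiH_sq, mul_inv_cancel₀ (one_sub_prof_pos r).ne']

theorem one_sub_prof_mul_phi₁ (δ : ℝ) (h : -1 ≤ r) :
    (1 - prof (-r)) * phi₁ δ r ^ 2 = 1 := by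
  rw [phi₁, flare_eq (show -r ≤ 1 by linarith), phiH_sq, mul_inv_cancel₀ (one_sub_prof_pos _).ne']

end

end Vale.Agent.P255
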