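import Mathlib
import Vale.Agent.P219.Univ.Defs

/-!
# Metrics without conjugate points on three-manifolds

Everything is read in the preferred chart at the point where it is used, with the Christoffel
symbols `gam` and the curvature operator `riem` of a metric field on `ℝ^3`.
-/

open scoped Manifold ContDiff

namespace Vale.Agent.P255

open Vale.Agent.P219 Vale.Agent.P219.Univ

noncomputable section

/-- Euclidean three-space. -/
abbrev E3 : Type := EuclideanSpace ℝ (Fin 3)

variable {M : Type} [TopologicalSpace M] [ChartedSpace E3 M] [IsManifold (𝓡 3) ∞ M]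

variable (M) in
/-- Smooth Riemannian metrics. -/
abbrev SmoothMetric :=
  Bundle.ContMDiffRiemannianMetric (IB := 𝓡 3) (n := ∞) (F := E3)
    (E := fun x : M => TangentSpace (𝓡 3) x)

/-- The components of a metric in the preferred chart at `x`. -/
def inChart (g : SmoothMetric M) (x : M) : MetricField 3 := fun y =>
  let L : E3 →L[ℝ] E3 := mfderiv (𝓡 3) (𝓡 3) (extChartAt (𝓡 3) x).symm y
  let B : E3 →L[ℝ] E3 →L[ℝ] ℝ := g.inner ((extChartAt (𝓡 3) x).symm y)
  B.bilinearComp L L

/-- A curve read in the preferred chart at its point at time `t`. -/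
def curveAt (γ : ℝ → M) (t : ℝ) : ℝ → E3 := fun s => extChartAt (𝓡 3) (γ t) (γ s)

/-- A smooth curve satisfying the geodesic equation. -/
def IsGeodesic (g : SmoothMetric M) (γ : ℝ → M) : Prop :=
  ContMDiff 𝓘(ℝ) (𝓡 3) ∞ γ ∧ ∀ t : ℝ,
    deriv (deriv (curveAt γ t)) t +
      gam (inChart g (γ t)) (curveAt γ t t) (deriv (curveAt γ t) t) (deriv (curveAt γ t) t) = 0

/-- A vector field along a curve, read in the preferred chart at the point at time `t`. -/
def fieldAt (γ : ℝ → M) (J : ∀ s, TangentSpace (𝓡 3) (γ s)) (t : ℝ) : ℝ → E3 := fun s =>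
  mfderiv (𝓡 3) (𝓡 3) (extChartAt (𝓡 3) (γ t)) (γ s) (J s)

/-- The covariant derivative of a field along a curve, in the chart at the point at time `t`. -/
def covAt (g : SmoothMetric M) (γ : ℝ → M) (J : ∀ s, TangentSpace (𝓡 3) (γ s)) (t : ℝ) :
    ℝ → E3 := fun s =>
  deriv (fieldAt γ J t) s +
    gam (inChart g (γ t)) (curveAt γ t s) (deriv (curveAt γ t) s) (fieldAt γ J t s)

/-- A field satisfying `J'' + R(J, γ') γ' = 0`. -/
def IsJacobi (g : SmoothMetric M) (γ : ℝ → M) (J : ∀ s, TangentSpace (𝓡 3) (γ s)) : Prop :=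
  ∀ t : ℝ, ContDiffAt ℝ 2 (fieldAt γ J t) t ∧
    deriv (covAt g γ J t) t +
      gam (inChart g (γ t)) (curveAt γ t t) (deriv (curveAt γ t) t) (covAt g γ J t t) +
      riem (inChart g (γ t)) (curveAt γ t t) (fieldAt γ J t t) (deriv (curveAt γ t) t)
        (deriv (curveAt γ t) t) = 0

/-- No nonzero Jacobi field vanishes at two times. -/
def NoConjugatePoints (g : SmoothMetric M) : Prop :=
  ∀ (γ : ℝ → M) (J : ∀ s, TangentSpace (𝓡 3) (γ s)) (a b : ℝ), IsGeodesic g γ → IsJacobi g γ J →
    a < b → J a = 0 → J b = 0 → ∀ t, J t = 0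

/-- All sectional curvatures are nonpositive. -/
def Nonpositive (g : SmoothMetric M) : Prop :=
  ∀ (x : M) (u v : E3),
    inChart g x (extChartAt (𝓡 3) x x)
      (riem (inChart g x) (extChartAt (𝓡 3) x x) u v v) u ≤ 0

/-- A closed connected smooth three-manifold with a metric without conjugate points and with no
metric of nonpositive curvature. -/
def CounterexampleExists : Prop :=
  ∃ (M : Type) (_ : TopologicalSpace M) (_ : T2Space M) (_ : CompactSpace M)
    (_ : ConnectedSpace M) (_ : ChartedSpace E3 M) (_ : IsManifold (𝓡 3) ∞ M),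
    (∃ g : SmoothMetric M, NoConjugatePoints g) ∧ ∀ h : SmoothMetric M, ¬ Nonpositive h

end

end Vale.Agent.P255
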