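import Mathlib
import Vale.Agent.P219.Univ.Geo.Jacobi
import Vale.Agent.P255.Defs

/-!
# Change of coordinates for the connection and the curvature

Everything is local: a metric field only has to be a metric near the point.
-/

open scoped ContDiff Topology
open Filter

set_option maxSynthPendingDepth 3

namespace Vale.Agent.P255

open Vale.Agent.P219 Vale.Agent.P219.Univ Vale.Agent.P219.Univ.Alg

noncomputable section

variable {n : ℕ}

/-- The Euclidean inner product as a bilinear form. -/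
def euclForm (n : ℕ) : Space n →L[ℝ] Space n →L[ℝ] ℝ := innerSL ℝ

theorem euclForm_apply (u v : Space n) : euclForm n u v = inner ℝ u v := rfl

/-- A metric field near a point. -/
structure MetricNear (g : MetricField n) (x : Space n) : Prop where
  smooth : ∀ᶠ y in 𝓝 x, ContDiffAt ℝ ∞ g y
  symm : ∀ᶠ y in 𝓝 x, ∀ u v, g y u v = g y v u
  pos : ∀ᶠ y in 𝓝 x, ∀ u, u ≠ 0 → 0 < g y u u

theorem IsMetric.metricNear {g : MetricField n} (hg : IsMetric g) (x : Space n) : MetricNear g x :=
  ⟨Eventually.of_forall fun _ => hg.smooth.contDiffAt, Eventually.of_forall hg.symm, Eventually.of_forall hg.pos⟩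

/-- A metric near a point agrees near it with a metric on the whole space. -/
theorem MetricNear.extend {g : MetricField n} {x : Space n} (h : MetricNear g x) :
    ∃ g' : MetricField n, IsMetric g' ∧ g' =ᶠ[𝓝 x] g := by
  obtain ⟨U, hU, hUsm⟩ : ∃ U ∈ 𝓝 x, ∀ y ∈ U, ContDiffAt ℝ ∞ g y ∧ (∀ u v, g y u v = g y v u) ∧
      ∀ u, u ≠ 0 → 0 < g y u u := by
    exact ⟨_, (h.smooth.and (h.symm.and h.pos)), fun y hy => hy⟩
  obtain ⟨r, hr, hrU⟩ := Metric.mem_nhds_iff.1 hU
  let χ : ContDiffBump x := ⟨r / 4, r / 2, by linarith, by linarith⟩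
  refine ⟨fun y => χ y • g y + (1 - χ y) • euclForm n, ⟨?_, ?_, ?_⟩, ?_⟩
  · refine contDiff_iff_contDiffAt.2 fun y => ?_
    by_cases hy : y ∈ Metric.ball x r
    · exact (χ.contDiff.contDiffAt.smul (hUsm y (hrU hy)).1).add
        ((contDiffAt_const.sub χ.contDiff.contDiffAt).smul contDiffAt_const)
    · have h0 : ∀ᶠ z in 𝓝 y, χ z = 0 := by
        have : y ∈ (Metric.closedBall x (r / 2))ᶜ := by
          simp only [Set.mem_compl_iff, Metric.mem_closedBall, not_le]
          simp only [Metric.mem_ball, not_lt] at hy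
          linarith
        filter_upwards [Metric.isClosed_closedBall.isOpen_compl.mem_nhds this] with z hz
        refine χ.zero_of_le_dist ?_
        simp only [Set.mem_compl_iff, Metric.mem_closedBall, not_le] at hz
        exact hz.le
      refine (contDiffAt_const (c := euclForm n)).congr_of_eventuallyEq ?_
      filter_upwards [h0] with z hz
      simp [hz]
  · intro y u v
    by_cases hy : y ∈ Metric.ball x r
    · simp [(hUsm y (hrU hy)).2.1 u v, euclForm_apply, real_inner_comm]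
    · have : χ y = 0 := χ.zero_of_le_dist (by
        simp only [Metric.mem_ball, not_lt] at hy
        show r / 2 ≤ dist y x
        linarith)
      simp [this, euclForm_apply, real_inner_comm]
  · intro y u hu
    have hi : 0 < inner ℝ u u := real_inner_self_pos.2 hu
    by_cases hy : y ∈ Metric.ball x r
    · have h1 := (hUsm y (hrU hy)).2.2 u hu
      have h2 : (0 : ℝ) ≤ χ y := χ.nonneg
      have h3 : (χ y : ℝ) ≤ 1 := χ.le_one
      simp only [add_apply, smul_apply, smul_eq_mul, euclForm_apply]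
      rcases eq_or_lt_of_le h2 with h4 | h4
      · rw [← h4]; simpa using hi
      · have := mul_pos h4 h1
        have := mul_nonneg (sub_nonneg.2 h3) hi.le
        linarith
    · have : χ y = 0 := χ.zero_of_le_dist (by
        simp only [Metric.mem_ball, not_lt] at hy
        show r / 2 ≤ dist y x
        linarith)
      simpa [this, euclForm_apply] using hi
  · filter_upwards [χ.eventuallyEq_one] with y hy
    simp [show χ y = 1 from hy]

theorem gam_congr {g g' : MetricField n} {x : Space n} (h : g' =ᶠ[𝓝 x] g) (u v : Space n) :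
    gam g' x u v = gam g x u v := by
  simp only [gam, chris, sharp, h.fderiv_eq, h.eq_of_nhds]

theorem riem_congr {g g' : MetricField n} {x : Space n} (h : g' =ᶠ[𝓝 x] g) (u v w : Space n) :
    riem g' x u v w = riem g x u v w := by
  have hv : ∀ a b, (fun y => gam g' y a b) =ᶠ[𝓝 x] fun y => gam g y a b := fun a b =>
    h.eventuallyEq_nhds.mono fun y hy => gam_congr hy a b
  simp only [riem, (hv v w).fderiv_eq, (hv u w).fderiv_eq, gam_congr h]

theorem MetricNear.gam_symm {g : MetricField n} {x : Space n} (h : MetricNear g x) (u v : Space n) :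
    gam g x u v = gam g x v u := by
  obtain ⟨g', hg', he⟩ := h.extend
  rw [← gam_congr he, ← gam_congr he, Univ.gam_symm hg']

theorem MetricNear.contDiffAt_gam {g : MetricField n} {x : Space n} (h : MetricNear g x)
    (p : Space n × Space n) :
    ContDiffAt ℝ ∞ (fun q : Space n × Space n × Space n => gam g q.1 q.2.1 q.2.2) (x, p) := by
  obtain ⟨g', hg', he⟩ := h.extend
  refine (contDiff_gam hg').contDiffAt.congr_of_eventuallyEq ?_
  have := he.eventuallyEq_nhds
  have h2 : ∀ᶠ q : Space n × Space n × Space n in 𝓝 (x, p), g' =ᶠ[𝓝 q.1] g :=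
    (continuous_fst.tendsto (x, p)).eventually this
  filter_upwards [h2] with q hq
  exact (gam_congr hq _ _).symm

/-- The pullback of a metric field. -/
def pull (φ : Space n → Space n) (g : MetricField n) : MetricField n := fun y =>
  (g (φ y)).bilinearComp (fderiv ℝ φ y) (fderiv ℝ φ y)

theorem pull_apply (φ : Space n → Space n) (g : MetricField n) (y u v : Space n) :
    pull φ g y u v = g (φ y) (fderiv ℝ φ y u) (fderiv ℝ φ y v) := rfl

variable {φ : Space n → Space n} {g : MetricField n} {x : Space n}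

theorem contDiffAt_D (hφ : ContDiffAt ℝ ∞ φ x) : ContDiffAt ℝ ∞ (fderiv ℝ φ) x :=
  hφ.fderiv_right (by simp)

theorem symm_D2 (hφ : ContDiffAt ℝ ∞ φ x) (u v : Space n) :
    fderiv ℝ (fderiv ℝ φ) x u v = fderiv ℝ (fderiv ℝ φ) x v u :=
  (hφ.isSymmSndFDerivAt (by simp; exact WithTop.coe_le_coe.2 le_top)).eq u v

theorem contDiffAt_pull (hφ : ContDiffAt ℝ ∞ φ x) (hg : ContDiffAt ℝ ∞ g (φ x)) :
    ContDiffAt ℝ ∞ (pull φ g) x := by
  have hflip : ContDiff ℝ ∞ (ContinuousLinearMap.flipₗᵢ ℝ (Space n) (Space n) ℝ) :=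
    (ContinuousLinearMap.flipₗᵢ ℝ (Space n) (Space n) ℝ).toContinuousLinearEquiv.contDiff
  have h1 := hflip.contDiffAt.comp x ((hg.comp x hφ).clm_comp (contDiffAt_D hφ))
  have h2 := hflip.contDiffAt.comp x (h1.clm_comp (contDiffAt_D hφ))
  refine h2.congr_of_eventuallyEq (Eventually.of_forall fun y => ?_)
  refine ContinuousLinearMap.ext fun u => ContinuousLinearMap.ext fun v => ?_
  simp [pull_apply]

theorem eventually_injective (hφ : ContDiffAt ℝ ∞ φ x)
    (hbij : Function.Bijective (fderiv ℝ φ x)) :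
    ∀ᶠ y in 𝓝 x, Function.Bijective (fderiv ℝ φ y) := by
  have hu : IsUnit (fderiv ℝ φ x) := ContinuousLinearMap.isUnit_iff_bijective.2 hbij
  have := (contDiffAt_D hφ).continuousAt.preimage_mem_nhds
    (Units.isOpen.mem_nhds hu)
  filter_upwards [this] with y hy
  exact ContinuousLinearMap.isUnit_iff_bijective.1 hy

theorem metricNear_pull (hφe : ∀ᶠ y in 𝓝 x, ContDiffAt ℝ ∞ φ y) (hbij : Function.Bijective (fderiv ℝ φ x))
    (hg : MetricNear g (φ x)) : MetricNear (pull φ g) x := by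
  have hφ := hφe.self_of_nhds
  refine ⟨?_, ?_, ?_⟩
  · filter_upwards [hφe, hφ.continuousAt.eventually hg.smooth] with y hy hgy
    exact contDiffAt_pull hy hgy
  · filter_upwards [hφ.continuousAt.eventually hg.symm] with y hy u v
    simp only [pull_apply]; exact hy _ _
  · filter_upwards [hφ.continuousAt.eventually hg.pos, eventually_injective hφ hbij] with y hy hi u hu
    exact hy _ fun h0 => hu (hi.1 (h0.trans (map_zero _).symm))

theorem fderiv_pull (hφ : ContDiffAt ℝ ∞ φ x) (hg : ContDiffAt ℝ ∞ g (φ x)) (u v w : Space n) :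
    fderiv ℝ (pull φ g) x u v w =
      fderiv ℝ g (φ x) (fderiv ℝ φ x u) (fderiv ℝ φ x v) (fderiv ℝ φ x w) +
      g (φ x) (fderiv ℝ (fderiv ℝ φ) x u v) (fderiv ℝ φ x w) +
      g (φ x) (fderiv ℝ φ x v) (fderiv ℝ (fderiv ℝ φ) x u w) := by
  have hline : HasDerivAt (fun t : ℝ => x + t • u) u 0 := by
    simpa using ((hasDerivAt_id (0 : ℝ)).smul_const u).const_add x
  have hx : x + (0 : ℝ) • u = x := by simp
  have hD : HasDerivAt (fun t : ℝ => fderiv ℝ φ (x + t • u)) (fderiv ℝ (fderiv ℝ φ) x u) 0 :=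
    ((contDiffAt_D hφ).differentiableAt (by simp)).hasFDerivAt.comp_hasDerivAt_of_eq (0 : ℝ)
      hline hx.symm
  have hP : HasDerivAt (fun t : ℝ => pull φ g (x + t • u)) (fderiv ℝ (pull φ g) x u) 0 :=
    ((contDiffAt_pull hφ hg).differentiableAt (by simp)).hasFDerivAt.comp_hasDerivAt_of_eq
      (0 : ℝ) hline hx.symm
  have hG : HasDerivAt (fun t : ℝ => g (φ (x + t • u)))
      (fderiv ℝ g (φ x) (fderiv ℝ φ x u)) 0 :=
    (hg.differentiableAt (by simp)).hasFDerivAt.comp_hasDerivAt_of_eq (0 : ℝ)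
      ((hφ.differentiableAt (by simp)).hasFDerivAt.comp_hasDerivAt_of_eq (0 : ℝ) hline hx.symm)
      (by simp)
  have h1 := (hP.clm_apply (hasDerivAt_const 0 v)).clm_apply (hasDerivAt_const 0 w)
  have h2 := (hG.clm_apply (hD.clm_apply (hasDerivAt_const 0 v))).clm_apply
    (hD.clm_apply (hasDerivAt_const 0 w))
  have := h1.unique h2
  simpa [hx] using this

theorem gam_pull (hφe : ∀ᶠ y in 𝓝 x, ContDiffAt ℝ ∞ φ y) (hbij : Function.Bijective (fderiv ℝ φ x))
    (hg : MetricNear g (φ x)) (u v : Space n) :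
    fderiv ℝ φ x (gam (pull φ g) x u v) =
      gam g (φ x) (fderiv ℝ φ x u) (fderiv ℝ φ x v) + fderiv ℝ (fderiv ℝ φ) x u v := by
  have hφ := hφe.self_of_nhds
  obtain ⟨G, hG, he⟩ := hg.extend
  obtain ⟨P, hP, hPe⟩ := (metricNear_pull hφe hbij hg).extend
  refine eq_of_g hG (φ x) fun w' => ?_
  obtain ⟨w, rfl⟩ := hbij.2 w'
  have hPx : P x = pull φ g x := hPe.eq_of_nhds
  have hGx : G (φ x) = g (φ x) := he.eq_of_nhds
  have hsy : ∀ a b, g (φ x) a b = g (φ x) b a := hGx ▸ hG.symm (φ x)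
  have h1 : g (φ x) (fderiv ℝ φ x (gam (pull φ g) x u v)) (fderiv ℝ φ x w) =
      (1 / 2 : ℝ) * chris (pull φ g) x u v w := by
    rw [← pull_apply, ← hPx, ← gam_congr hPe, gam, map_smul, smul_apply,
      smul_eq_mul, g_sharp hP]
    simp only [chris, hPe.fderiv_eq]
  have h2 : g (φ x) (gam g (φ x) (fderiv ℝ φ x u) (fderiv ℝ φ x v)) (fderiv ℝ φ x w) =
      (1 / 2 : ℝ) * chris g (φ x) (fderiv ℝ φ x u) (fderiv ℝ φ x v) (fderiv ℝ φ x w) := by
    rw [← hGx, ← gam_congr he, gam, map_smul, smul_apply, smul_eq_mul, g_sharp hG]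
    simp only [chris, he.fderiv_eq]
  rw [hGx, map_add, add_apply, h1, h2]
  simp only [chris_apply, fderiv_pull hφ hg.smooth.self_of_nhds]
  rw [symm_D2 hφ v u, symm_D2 hφ w u, symm_D2 hφ w v,
    hsy (fderiv ℝ φ x v) (fderiv ℝ (fderiv ℝ φ) x u w),
    hsy (fderiv ℝ φ x u) (fderiv ℝ (fderiv ℝ φ) x v w)]
  linarith

theorem deriv_gam_id {G P : MetricField n} (hG : IsMetric G) (hP : IsMetric P)
    (hφ : ContDiffAt ℝ ∞ φ x) {B : Space n →L[ℝ] Space n →L[ℝ] Space n}
    {C : Space n →L[ℝ] Space n →L[ℝ] Space n →L[ℝ] Space n}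
    (hA' : HasFDerivAt (fderiv ℝ φ) B x) (hB' : HasFDerivAt (fderiv ℝ (fderiv ℝ φ)) C x)
    (hid : ∀ᶠ y in 𝓝 x, ∀ a b, fderiv ℝ φ y (gam P y a b) =
      gam G (φ y) (fderiv ℝ φ y a) (fderiv ℝ φ y b) + fderiv ℝ (fderiv ℝ φ) y a b)
    (a b c : Space n) :
    B a (gam P x b c) + fderiv ℝ φ x (fderiv ℝ (fun y => gam P y b c) x a) =
      fderiv ℝ (fun y => gam G y (fderiv ℝ φ x b) (fderiv ℝ φ x c)) (φ x) (fderiv ℝ φ x a) +
        gam G (φ x) (B a b) (fderiv ℝ φ x c) + gam G (φ x) (fderiv ℝ φ x b) (B a c) + C a b c := by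
  have hline : HasDerivAt (fun t : ℝ => x + t • a) a 0 := by
    simpa using ((hasDerivAt_id (0 : ℝ)).smul_const a).const_add x
  have hx : x + (0 : ℝ) • a = x := by simp
  have hq : HasDerivAt (fun t : ℝ => fderiv ℝ φ (x + t • a)) (B a) 0 :=
    hA'.comp_hasDerivAt_of_eq (0 : ℝ) hline hx.symm
  have hq2 : HasDerivAt (fun t : ℝ => fderiv ℝ (fderiv ℝ φ) (x + t • a)) (C a) 0 :=
    hB'.comp_hasDerivAt_of_eq (E := Space n →L[ℝ] Space n →L[ℝ] Space n) (0 : ℝ) hline hx.symm
  have hdiff : DifferentiableAt ℝ (fun y => gam P y b c) x := by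
    have h1 : DifferentiableAt ℝ (fun p : Space n × Space n × Space n => gam P p.1 p.2.1 p.2.2)
        (x, b, c) := (contDiff_gam hP).differentiable (by simp) _
    exact DifferentiableAt.comp (f := fun y : Space n => (y, b, c)) x h1
      (differentiableAt_id.prodMk (differentiableAt_const (b, c)))
  have hP1 : HasDerivAt (fun t : ℝ => gam P (x + t • a) b c)
      (fderiv ℝ (fun y => gam P y b c) x a) 0 :=
    HasFDerivAt.comp_hasDerivAt_of_eq (l := fun y => gam P y b c) (0 : ℝ) hdiff.hasFDerivAt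
      hline hx.symm
  have hL := hq.clm_apply hP1
  have hφd : HasDerivAt (fun t : ℝ => φ (x + t • a)) (fderiv ℝ φ x a) 0 :=
    (hφ.differentiableAt (by simp)).hasFDerivAt.comp_hasDerivAt_of_eq (0 : ℝ) hline hx.symm
  have hq2a : HasDerivAt (fun t : ℝ => fderiv ℝ (fderiv ℝ φ) (x + t • a) b) (C a b) 0 :=
    (hq2.clm_apply (hasDerivAt_const 0 b)).congr_deriv (by simp)
  have hq2b : HasDerivAt (fun t : ℝ => fderiv ℝ (fderiv ℝ φ) (x + t • a) b c) (C a b c) 0 :=
    (hq2a.clm_apply (hasDerivAt_const 0 c)).congr_deriv (by simp)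
  have hR := (Univ.Geo.hasDerivAt_gam hG hφd (hq.clm_apply (hasDerivAt_const 0 b))
    (hq.clm_apply (hasDerivAt_const 0 c))).add hq2b
  have ht : Tendsto (fun t : ℝ => x + t • a) (𝓝 0) (𝓝 x) := by
    simpa using hline.continuousAt.tendsto
  have := (hL.congr_of_eventuallyEq ((ht.eventually hid).mono fun t ht => (ht b c).symm)).unique hR
  simpa [hx] using this

theorem riem_pull (hφe : ∀ᶠ y in 𝓝 x, ContDiffAt ℝ ∞ φ y) (hbij : Function.Bijective (fderiv ℝ φ x))
    (hg : MetricNear g (φ x)) (u v w : Space n) :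
    fderiv ℝ φ x (riem (pull φ g) x u v w) =
      riem g (φ x) (fderiv ℝ φ x u) (fderiv ℝ φ x v) (fderiv ℝ φ x w) := by
  have hφ := hφe.self_of_nhds
  obtain ⟨G, hG, he⟩ := hg.extend
  obtain ⟨P, hP, hPe⟩ := (metricNear_pull hφe hbij hg).extend
  rw [← riem_congr he, ← riem_congr hPe]
  set A := fderiv ℝ φ x with hA
  set B := fderiv ℝ (fderiv ℝ φ) x with hB
  set C := fderiv ℝ (fderiv ℝ (fderiv ℝ φ)) x with hC
  have hid : ∀ᶠ y in 𝓝 x, ∀ a b, fderiv ℝ φ y (gam P y a b) =
      gam G (φ y) (fderiv ℝ φ y a) (fderiv ℝ φ y b) + fderiv ℝ (fderiv ℝ φ) y a b := by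
    filter_upwards [hφe.eventually_nhds, eventually_injective hφ hbij,
      hφ.continuousAt.eventually he.eventuallyEq_nhds, hPe.eventuallyEq_nhds]
      with y hy hi hge hpe a b
    rw [gam_congr hpe, gam_congr hge]
    have hgy : MetricNear g (φ y) :=
      ⟨hge.eventuallyEq_nhds.mono fun z hz => (hG.smooth.contDiffAt).congr_of_eventuallyEq hz.symm,
        hge.mono fun z hz p q => hz ▸ hG.symm z p q,
        hge.mono fun z hz p hp => hz ▸ hG.pos z p hp⟩
    rw [gam_pull hy hi hgy]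
  have hA' : HasFDerivAt (fderiv ℝ φ) B x :=
    ((contDiffAt_D hφ).differentiableAt (by simp)).hasFDerivAt
  have hB' : HasFDerivAt (fderiv ℝ (fderiv ℝ φ)) C x :=
    (((contDiffAt_D hφ).fderiv_right (m := ∞) (by simp)).differentiableAt (by simp)).hasFDerivAt
  have hline : ∀ a : Space n, HasDerivAt (fun t : ℝ => x + t • a) a 0 := fun a => by
    simpa using ((hasDerivAt_id (0 : ℝ)).smul_const a).const_add x
  have hx : ∀ a : Space n, x + (0 : ℝ) • a = x := fun a => by simp
  have hder : ∀ a b c : Space n,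
      B a (gam P x b c) + A (fderiv ℝ (fun y => gam P y b c) x a) =
        fderiv ℝ (fun y => gam G y (A b) (A c)) (φ x) (A a) + gam G (φ x) (B a b) (A c) +
          gam G (φ x) (A b) (B a c) + C a b c := fun a b c =>
    deriv_gam_id hG hP hφ hA' hB' hid a b c
  have hC3 : ∀ a b c, C a b c = C b a c := fun a b c => by
    rw [hC, ((contDiffAt_D hφ).isSymmSndFDerivAt
      (by simp; exact WithTop.coe_le_coe.2 le_top)).eq a b]
  have hg1 : ∀ a b, gam G (φ x) (A a) (A b) = A (gam P x a b) - B a b := fun a b => by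
    rw [hid.self_of_nhds a b]; abel
  have hsub : ∀ a b c : Space n, gam G (φ x) a (b - c) = gam G (φ x) a b - gam G (φ x) a c :=
    fun a b c => by
      rw [eq_sub_iff_add_eq, ← Univ.Geo.gam_add₂, sub_add_cancel]
  have e1 := hder u v w
  have e2 := hder v u w
  rw [hC3 v u w, show B v u = B u v from symm_D2 hφ v u] at e2
  simp only [riem, map_sub, map_add]
  rw [hg1 v w, hg1 u w, hsub, hsub, hg1 u (gam P x v w), hg1 v (gam P x u w)]
  linear_combination (norm := module) e1 - e2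

/-- Covariant derivatives along a curve commute with a change of coordinates. -/
theorem cov_pull {c w : ℝ → Space n} {c' w' : Space n} {t : ℝ} (hc : HasDerivAt c c' t)
    (hw : HasDerivAt w w' t) (hφe : ∀ᶠ y in 𝓝 (c t), ContDiffAt ℝ ∞ φ y)
    (hbij : Function.Bijective (fderiv ℝ φ (c t))) (hg : MetricNear g (φ (c t))) :
    ∃ z, HasDerivAt (fun s => fderiv ℝ φ (c s) (w s)) z t ∧
      z + gam g (φ (c t)) (fderiv ℝ φ (c t) c') (fderiv ℝ φ (c t) (w t)) =
        fderiv ℝ φ (c t) (w' + gam (pull φ g) (c t) c' (w t)) := by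
  refine ⟨_, (((contDiffAt_D hφe.self_of_nhds).differentiableAt
    (by simp)).hasFDerivAt.comp_hasDerivAt t hc).clm_apply hw, ?_⟩
  rw [map_add, gam_pull hφe hbij hg]
  simp only [Function.comp_apply]
  abel

/-- The acceleration of a curve commutes with a change of coordinates. -/
theorem accel_pull {c : ℝ → Space n} {t : ℝ} (hc : ∀ᶠ s in 𝓝 t, DifferentiableAt ℝ c s)
    (hc2 : DifferentiableAt ℝ (deriv c) t) (hφe : ∀ᶠ y in 𝓝 (c t), ContDiffAt ℝ ∞ φ y)
    (hbij : Function.Bijective (fderiv ℝ φ (c t))) (hg : MetricNear g (φ (c t))) :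
    deriv (deriv (φ ∘ c)) t + gam g (φ (c t)) (deriv (φ ∘ c) t) (deriv (φ ∘ c) t) =
      fderiv ℝ φ (c t) (deriv (deriv c) t + gam (pull φ g) (c t) (deriv c t) (deriv c t)) := by
  have hev : ∀ᶠ s in 𝓝 t, HasDerivAt (φ ∘ c) (fderiv ℝ φ (c s) (deriv c s)) s := by
    filter_upwards [hc, hc.self_of_nhds.continuousAt.eventually hφe] with s h1 h2
    exact (h2.differentiableAt (by simp)).hasFDerivAt.comp_hasDerivAt s h1.hasDerivAt
  have he : deriv (φ ∘ c) =ᶠ[𝓝 t] fun s => fderiv ℝ φ (c s) (deriv c s) :=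
    hev.mono fun s hs => hs.deriv
  obtain ⟨z, hz, hz2⟩ := cov_pull hc.self_of_nhds.hasDerivAt hc2.hasDerivAt hφe hbij hg
  rw [he.deriv_eq, hz.deriv, he.eq_of_nhds, hz2]

end

end Vale.Agent.P255
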