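import Vale.Agent.P255.Along

/-!
# The index criterion

If along every geodesic the index integral plus some boundary form is monotone, then there are no
conjugate points.
-/

open scoped Manifold ContDiff Topology
open Filter

set_option maxSynthPendingDepth 3

namespace Vale.Agent.P255

open Vale.Agent.P219 Vale.Agent.P219.Univ

noncomputable section

section Algebra

variable {n : ℕ} {g : MetricField n}

theorem riem_swap (g : MetricField n) (x a b u : Space n) :
    riem g x a b u = -riem g x b a u := by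
  simp only [riem]; abel

theorem riem_bianchi (hg : IsMetric g) (x a b c : Space n) :
    riem g x a b c + riem g x b c a + riem g x c a b = 0 := by
  simp only [riem]
  rw [show (fun y => gam g y c a) = fun y => gam g y a c from funext fun y => Univ.gam_symm hg y c a,
    show (fun y => gam g y b a) = fun y => gam g y a b from funext fun y => Univ.gam_symm hg y b a,
    show (fun y => gam g y c b) = fun y => gam g y b c from funext fun y => Univ.gam_symm hg y c b,
    Univ.gam_symm hg x c a, Univ.gam_symm hg x b a, Univ.gam_symm hg x c b]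
  abel

/-- The curvature operator of a fixed direction is symmetric. -/
theorem riem_jacobi_symm (hg : IsMetric g) (x u v w : Space n) :
    g x (riem g x u v v) w = g x (riem g x w v v) u := by
  have B : ∀ a b c d, g x (riem g x a b c) d + g x (riem g x b c a) d + g x (riem g x c a b) d = 0 := by
    intro a b c d
    have := congrArg (fun z => g x z d) (riem_bianchi hg x a b c)
    simpa using this
  have A1 : ∀ a b c d, g x (riem g x a b c) d = -g x (riem g x b a c) d := by
    intro a b c d; rw [riem_swap g x a b c]; simp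
  have A2 : ∀ a b c d, g x (riem g x a b c) d = -g x (riem g x a b d) c := fun a b c d =>
    riem_antisym hg x a b c d
  linarith [B u v v w, B v v w u, B v w u v, B w u v v, A1 u v v w, A1 v u v w, A1 v w u v,
    A1 w v u v, A1 w v v u, A1 u w v v, A1 w u v v, A1 v v w u, A1 v v u w, A2 u v v w, A2 v u v w,
    A2 w v v u, A2 v w v u, A2 v w u v, A2 u w v v, A2 w u v v, A2 v v u w, A2 w v u v]

theorem fderiv_gam_fst (hg : IsMetric g) (x a v w : Space n) :
    fderiv ℝ (fun y => gam g y v w) x a =
      fderiv ℝ (fun p : Space n × Space n × Space n => gam g p.1 p.2.1 p.2.2) (x, v, w)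
        (a, 0, 0) := by
  have hd : HasFDerivAt (fun p : Space n × Space n × Space n => gam g p.1 p.2.1 p.2.2)
      (fderiv ℝ (fun p : Space n × Space n × Space n => gam g p.1 p.2.1 p.2.2) (x, v, w))
      (x, v, w) := (((contDiff_gam hg).differentiable (by simp)) _).hasFDerivAt
  have hi : HasFDerivAt (fun y : Space n => (y, v, w))
      (ContinuousLinearMap.inl ℝ (Space n) (Space n × Space n)) x :=
    (hasFDerivAt_id (𝕜 := ℝ) x).prodMk (hasFDerivAt_const (v, w) x)
  have h : HasFDerivAt (fun y => gam g y v w)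
      ((fderiv ℝ (fun p : Space n × Space n × Space n => gam g p.1 p.2.1 p.2.2) (x, v, w)).comp
        (ContinuousLinearMap.inl ℝ (Space n) (Space n × Space n))) x := by
    exact HasFDerivAt.comp x hd hi
  rw [h.fderiv]
  rfl

theorem continuous_riem (hg : IsMetric g) :
    Continuous fun p : Space n × Space n × Space n × Space n =>
      riem g p.1 p.2.1 p.2.2.1 p.2.2.2 := by
  have hF : Continuous fun p : Space n × Space n × Space n => gam g p.1 p.2.1 p.2.2 :=
    (contDiff_gam hg).continuous
  have hD := (contDiff_gam hg).continuous_fderiv (by simp)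
  have hA : Continuous fun p : Space n × Space n × Space n × Space n =>
      fderiv ℝ (fun q : Space n × Space n × Space n => gam g q.1 q.2.1 q.2.2)
        (p.1, p.2.2.1, p.2.2.2) (p.2.1, 0, 0) :=
    (hD.comp (by fun_prop)).clm_apply (by fun_prop)
  have hB : Continuous fun p : Space n × Space n × Space n × Space n =>
      fderiv ℝ (fun q : Space n × Space n × Space n => gam g q.1 q.2.1 q.2.2)
        (p.1, p.2.1, p.2.2.2) (p.2.2.1, 0, 0) :=
    (hD.comp (by fun_prop)).clm_apply (by fun_prop)
  have hC : Continuous fun p : Space n × Space n × Space n × Space n =>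
      gam g p.1 p.2.1 (gam g p.1 p.2.2.1 p.2.2.2) :=
    hF.comp (continuous_fst.prodMk ((by fun_prop : Continuous fun p : Space n × Space n × Space n ×
      Space n => p.2.1).prodMk (hF.comp (by fun_prop : Continuous fun p : Space n × Space n ×
      Space n × Space n => (p.1, p.2.2.1, p.2.2.2)))))
  have hE : Continuous fun p : Space n × Space n × Space n × Space n =>
      gam g p.1 p.2.2.1 (gam g p.1 p.2.1 p.2.2.2) :=
    hF.comp (continuous_fst.prodMk ((by fun_prop : Continuous fun p : Space n × Space n × Space n ×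
      Space n => p.2.2.1).prodMk (hF.comp (by fun_prop : Continuous fun p : Space n × Space n ×
      Space n × Space n => (p.1, p.2.1, p.2.2.2)))))
  simp only [riem, fderiv_gam_fst hg]
  exact ((hA.sub hB).add hC).sub hE

theorem riem_lin (hg : IsMetric g) (x a b v : Space n) (r : ℝ) :
    riem g x (a + r • b) v v = riem g x a v v + r • riem g x b v v := by
  have h1 : fderiv ℝ (fun y => gam g y (a + r • b) v) x v =
      fderiv ℝ (fun y => gam g y a v) x v + r • fderiv ℝ (fun y => gam g y b v) x v := by
    have : (fun y => gam g y (a + r • b) v) = fun y => gam g y a v + r • gam g y b v :=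
      funext fun y => by rw [Geo.gam_add₁, Geo.gam_smul₁]
    rw [this, (((differentiableAt_gam hg x a v).hasFDerivAt.fun_add
      ((differentiableAt_gam hg x b v).hasFDerivAt.fun_const_smul r))).fderiv]
    simp
  rw [riem, riem, riem, h1]
  simp only [map_add, map_smul, Geo.gam_add₁, Geo.gam_smul₁, Geo.gam_add₂, Geo.gam_smul₂]
  module

theorem gam_zero₂ (g : MetricField n) (x u : Space n) : gam g x u 0 = 0 := by
  simpa using Geo.gam_smul₂ g x u (0 : ℝ) 0

/-- The symmetric bilinear form of the index integrand. -/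
def indexPol (g : MetricField n) (x v W W' K K' : Space n) : ℝ :=
  g x (W' + gam g x v W) (K' + gam g x v K) - g x (riem g x W v v) K

theorem indexForm_add (hg : IsMetric g) (x v W W' K K' : Space n) (r : ℝ) :
    indexForm g x v (W + r • K) (W' + r • K') =
      indexForm g x v W W' + 2 * r * indexPol g x v W W' K K' +
        r ^ 2 * indexForm g x v K K' := by
  simp only [indexForm, indexPol, riem_lin hg, Geo.gam_add₂, Geo.gam_smul₂, map_add, map_smul,
    add_apply, smul_apply, smul_eq_mul]
  rw [hg.symm x K' W', hg.symm x K' (gam g x v W), hg.symm x (gam g x v K) W',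
    hg.symm x (gam g x v K) (gam g x v W), riem_jacobi_symm hg x K v W]
  ring

theorem indexForm_congr {g' : MetricField n} {x : Space n} (h : g' =ᶠ[𝓝 x] g)
    (v W W' : Space n) : indexForm g' x v W W' = indexForm g x v W W' := by
  simp only [indexForm, gam_congr h, riem_congr h, h.eq_of_nhds]

theorem continuous_indexForm (hg : IsMetric g) :
    Continuous fun p : Space n × Space n × Space n × Space n =>
      indexForm g p.1 p.2.1 p.2.2.1 p.2.2.2 := by
  have hF : Continuous fun p : Space n × Space n × Space n => gam g p.1 p.2.1 p.2.2 :=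
    (contDiff_gam hg).continuous
  have hD : Continuous fun p : Space n × Space n × Space n × Space n =>
      p.2.2.2 + gam g p.1 p.2.1 p.2.2.1 :=
    (by fun_prop : Continuous fun p : Space n × Space n × Space n × Space n => p.2.2.2).add
      (hF.comp (by fun_prop : Continuous fun p : Space n × Space n × Space n × Space n =>
        (p.1, p.2.1, p.2.2.1)))
  have hR : Continuous fun p : Space n × Space n × Space n × Space n =>
      riem g p.1 p.2.2.1 p.2.1 p.2.1 :=
    Continuous.comp (g := fun q : Space n × Space n × Space n × Space n =>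
      riem g q.1 q.2.1 q.2.2.1 q.2.2.2)
      (f := fun p : Space n × Space n × Space n × Space n => (p.1, p.2.2.1, p.2.1, p.2.1))
      (continuous_riem hg) (by fun_prop)
  have hG : Continuous fun p : Space n × Space n × Space n × Space n => g p.1 :=
    hg.smooth.continuous.comp continuous_fst
  exact ((hG.clm_apply hD).clm_apply hD).sub ((hG.clm_apply hR).clm_apply (by fun_prop))

theorem riem_smul (hg : IsMetric g) (x a v : Space n) (r : ℝ) :
    riem g x (r • a) v v = r • riem g x a v v := by
  have h0 : riem g x 0 v v = 0 := by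
    have := riem_lin hg x 0 0 v 1
    simpa using this
  simpa [h0] using riem_lin hg x 0 a v r

theorem riem_add (hg : IsMetric g) (x a b v : Space n) :
    riem g x (a + b) v v = riem g x a v v + riem g x b v v := by
  simpa using riem_lin hg x a b v 1

/-- The right side of the Jacobi system at a point with velocity `v`. -/
def jacobiOp (hg : IsMetric g) (x v : Space n) : Space n × Space n →L[ℝ] Space n × Space n :=
  LinearMap.toContinuousLinearMap
    { toFun := fun X : Space n × Space n =>
        (X.2 - gam g x v X.1, -gam g x v X.2 - riem g x X.1 v v)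
      map_add' := fun X Y => by
        simp only [Prod.fst_add, Prod.snd_add, Geo.gam_add₂, riem_add hg, Prod.mk_add_mk]
        congr 1 <;> abel
      map_smul' := fun r X => by
        simp only [Prod.smul_fst, Prod.smul_snd, Geo.gam_smul₂, riem_smul hg, RingHom.id_apply,
          Prod.smul_mk, smul_sub, smul_neg] }

theorem jacobiOp_apply (hg : IsMetric g) (x v : Space n) (X : Space n × Space n) :
    jacobiOp hg x v X = (X.2 - gam g x v X.1, -gam g x v X.2 - riem g x X.1 v v) := rfl

theorem continuous_jacobiOp (hg : IsMetric g) :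
    Continuous fun p : Space n × Space n => jacobiOp hg p.1 p.2 := by
  refine continuous_clm_apply.2 fun X => ?_
  have e1 : ∀ Z : Space n, Continuous fun p : Space n × Space n => gam g p.1 p.2 Z := fun Z =>
    Continuous.comp (g := fun q : Space n × Space n × Space n => gam g q.1 q.2.1 q.2.2)
      (f := fun p : Space n × Space n => (p.1, p.2, Z)) (contDiff_gam hg).continuous (by fun_prop)
  have e2 : Continuous fun p : Space n × Space n => riem g p.1 X.1 p.2 p.2 :=
    Continuous.comp (g := fun q : Space n × Space n × Space n × Space n =>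
      riem g q.1 q.2.1 q.2.2.1 q.2.2.2)
      (f := fun p : Space n × Space n => (p.1, X.1, p.2, p.2)) (continuous_riem hg) (by fun_prop)
  simp only [jacobiOp_apply]
  exact (continuous_const.sub (e1 X.1)).prodMk ((e1 X.2).neg.sub e2)

/-- Solutions of the Jacobi equation with zero data vanish nearby. -/
theorem jacobi_local_zero (hg : IsMetric g) {c w P : ℝ → Space n} {t : ℝ}
    (hc : ContDiffAt ℝ ∞ c t)
    (hw : ∀ᶠ s in 𝓝 t, HasDerivAt w (P s - gam g (c s) (deriv c s) (w s)) s)
    (hP : ∀ᶠ s in 𝓝 t,
      HasDerivAt P (-gam g (c s) (deriv c s) (P s) - riem g (c s) (w s) (deriv c s) (deriv c s)) s)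
    (h0 : w t = 0) (h1 : P t = 0) : ∀ᶠ s in 𝓝 t, w s = 0 ∧ P s = 0 := by
  have hvs : ContinuousAt (deriv c) t :=
    ((hc.fderiv_right (m := ∞) (by simp)).clm_apply contDiffAt_const).continuousAt
  let L : ℝ → (Space n × Space n →L[ℝ] Space n × Space n) := fun s =>
    jacobiOp hg (c s) (deriv c s)
  have hLt : ContinuousAt L t :=
    ContinuousAt.comp (g := fun p : Space n × Space n => jacobiOp hg p.1 p.2)
      (f := fun s => (c s, deriv c s)) (continuous_jacobiOp hg).continuousAt
      (hc.continuousAt.prodMk hvs)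
  have hb : ∀ᶠ s in 𝓝 t, ‖L s‖₊ ≤ ‖L t‖₊ + 1 :=
    (hLt.nnnorm.eventually_lt continuousAt_const (lt_add_one _)).mono fun s hs => hs.le
  have hX : ∀ᶠ s in 𝓝 t, HasDerivAt (fun r => (w r, P r)) (L s (w s, P s)) s ∧
      (w s, P s) ∈ (Set.univ : Set (Space n × Space n)) := by
    filter_upwards [hw, hP] with s a b
    exact ⟨a.prodMk b, trivial⟩
  have h0' : ∀ᶠ s in 𝓝 t, HasDerivAt (fun _ : ℝ => (0 : Space n × Space n)) (L s 0) s ∧
      (0 : Space n × Space n) ∈ (Set.univ : Set (Space n × Space n)) :=
    Eventually.of_forall fun s => ⟨(map_zero (L s)).symm ▸ hasDerivAt_const s _, trivial⟩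
  have key := ODE_solution_unique_of_eventually (K := ‖L t‖₊ + 1) (v := fun s X => L s X)
    (s := fun _ => Set.univ)
    (hb.mono fun s hs => ((L s).lipschitz.weaken hs).lipschitzOnWith)
    hX h0' (by simp [h0, h1])
  filter_upwards [key] with s hs
  exact ⟨(Prod.ext_iff.1 hs).1, (Prod.ext_iff.1 hs).2⟩

end Algebra

variable {M : Type} [TopologicalSpace M] [ChartedSpace E3 M] [IsManifold (𝓡 3) ∞ M]
variable {g : SmoothMetric M} {γ : ℝ → M}

theorem chart_lift (hγ : ContMDiff 𝓘(ℝ) (𝓡 3) ∞ γ) (t : ℝ) :
    IsLift γ (extChartAt (𝓡 3) (γ t)).symm (extChartAt (𝓡 3) (γ t)).target t (curveAt γ t) := by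
  have hsrc : ∀ᶠ s in 𝓝 t, γ s ∈ (chartAt E3 (γ t)).source :=
    hγ.continuous.continuousAt.preimage_mem_nhds
      ((chartAt E3 (γ t)).open_source.mem_nhds (mem_chart_source E3 (γ t)))
  refine ⟨hsrc.mono fun s hs => ?_, hsrc.mono fun s hs => ?_⟩
  · have hs' : γ s ∈ (extChartAt (𝓡 3) (γ t)).source := by rw [extChartAt_source]; exact hs
    exact ⟨(extChartAt (𝓡 3) (γ t)).map_source hs', (extChartAt (𝓡 3) (γ t)).left_inv hs'⟩
  · exact ((contMDiffAt_extChartAt' (I := 𝓡 3) (n := ∞) hs).comp s (hγ s)).contDiffAt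

omit [IsManifold (𝓡 3) ∞ M] in
theorem fieldAt_zero {J : ∀ s, TangentSpace (𝓡 3) (γ s)} {t s : ℝ} (h : J s = 0) :
    fieldAt γ J t s = 0 := by
  simp only [fieldAt, h]; exact map_zero _

theorem indexAt_zero (g : SmoothMetric M) (γ : ℝ → M) (t : ℝ) :
    indexAt g γ (fun _ => 0) t = 0 := by
  have e : fieldAt γ (fun _ => 0) t = fun _ => (0 : E3) :=
    funext fun s => fieldAt_zero (γ := γ) rfl
  simp only [indexAt, indexForm, e, deriv_const, gam_zero₂, zero_add, map_zero, sub_zero]

omit [IsManifold (𝓡 3) ∞ M] in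
theorem coordField_add (N : E3 → M) (c : ℝ → E3) (J K : ∀ s, TangentSpace (𝓡 3) (γ s)) (r : ℝ) :
    coordField N c (fun s => J s + r • K s) = fun s => coordField N c J s + r • coordField N c K s :=
  funext fun s => by
    refine (map_add _ _ _).trans ?_
    congr 1
    exact map_smul _ _ _

omit [IsManifold (𝓡 3) ∞ M] in
theorem FieldC1.add_smul {J K : ∀ s, TangentSpace (𝓡 3) (γ s)} (hJ : FieldC1 γ J)
    (hK : FieldC1 γ K) (r : ℝ) : FieldC1 γ (fun s => J s + r • K s) := fun t => by
  have : fieldAt γ (fun s => J s + r • K s) t = fun s => fieldAt γ J t s + r • fieldAt γ K t s :=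
    funext fun s => by
      refine (map_add _ _ _).trans ?_
      congr 1
      exact map_smul _ _ _
  rw [this]
  exact (hJ t).add ((hK t).const_smul r)

/-- The symmetric bilinear form of `indexAt`. -/
def polAt (g : SmoothMetric M) (γ : ℝ → M) (J K : ∀ s, TangentSpace (𝓡 3) (γ s)) (t : ℝ) : ℝ :=
  (indexAt g γ (fun s => J s + (1 : ℝ) • K s) t - indexAt g γ J t - indexAt g γ K t) / 2

section Lift

variable {N : E3 → M} {D : Set E3} {G : MetricField 3} {t : ℝ} {c : ℝ → E3}
variable (h : IsParam g N D G) (hc : IsLift γ N D t c)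
include h hc

theorem IsLift.covDot_eq (J K : ∀ s, TangentSpace (𝓡 3) (γ s))
    (hJ : ContDiffAt ℝ 1 (fieldAt γ J t) t) :
    covDot g γ J K t = G (c t) (deriv (coordField N c J) t + gam G (c t) (deriv c t)
      (coordField N c J t)) (coordField N c K t) := by
  obtain ⟨hy, hq⟩ := hc.chart_mem h
  have hcov := (hc.cov_eventually h J (k := 1) le_rfl hJ).eq_of_nhds
  rw [covDot, hcov, (hc.fieldAt_eq h K).eq_of_nhds, hc.curveAt_eq.eq_of_nhds, h.apply_eq hy hq]

theorem IsLift.zero_iff (J : ∀ s, TangentSpace (𝓡 3) (γ s))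
    (hJ : ContDiffAt ℝ 1 (fieldAt γ J t) t) :
    (fieldAt γ J t t = 0 ∧ covAt g γ J t t = 0) ↔
      (coordField N c J t = 0 ∧ deriv (coordField N c J) t = 0) := by
  obtain ⟨hy, hq⟩ := hc.chart_mem h
  have hi := (h.bijective_coordChange hy hq).1
  rw [(hc.cov_eventually h J (k := 1) le_rfl hJ).eq_of_nhds, (hc.fieldAt_eq h J).eq_of_nhds,
    map_eq_zero_iff _ hi, map_eq_zero_iff _ hi]
  constructor
  · rintro ⟨a, b⟩; rw [a, gam_zero₂, add_zero] at b; exact ⟨a, b⟩
  · rintro ⟨a, b⟩; rw [a, gam_zero₂, b, add_zero]; exact ⟨rfl, rfl⟩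

theorem IsLift.indexAt_add (J K : ∀ s, TangentSpace (𝓡 3) (γ s)) (hJ : FieldC1 γ J)
    (hK : FieldC1 γ K) (r : ℝ) :
    indexAt g γ (fun s => J s + r • K s) t = indexAt g γ J t +
      2 * r * indexPol G (c t) (deriv c t) (coordField N c J t) (deriv (coordField N c J) t)
        (coordField N c K t) (deriv (coordField N c K) t) + r ^ 2 * indexAt g γ K t := by
  obtain ⟨hy, _⟩ := hc.chart_mem h
  obtain ⟨G', hG', hGe⟩ := (h.metricNear hy).extend
  rw [hc.indexAt_eq h _ (hJ.add_smul hK r t), hc.indexAt_eq h J (hJ t), hc.indexAt_eq h K (hK t),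
    coordField_add]
  have hdJ : DifferentiableAt ℝ (coordField N c J) t :=
    (hc.contDiffAt_coordField h J (hJ t)).differentiableAt one_ne_zero
  have hdK : DifferentiableAt ℝ (coordField N c K) t :=
    (hc.contDiffAt_coordField h K (hK t)).differentiableAt one_ne_zero
  rw [(hdJ.hasDerivAt.fun_add (hdK.hasDerivAt.fun_const_smul r)).deriv]
  simp only [← indexForm_congr hGe, indexPol, ← gam_congr hGe, ← riem_congr hGe, ← hGe.eq_of_nhds]
  exact indexForm_add hG' _ _ _ _ _ _ r

/-- Near `t`, the coordinates of a field are continuously differentiable. -/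
theorem IsLift.eventually_coord (J : ∀ s, TangentSpace (𝓡 3) (γ s)) (hJ : FieldC1 γ J) :
    ∀ᶠ s in 𝓝 t, ContDiffAt ℝ 1 (coordField N c J) s :=
  hc.eventually.mono fun s hs => hs.contDiffAt_coordField h J (hJ s)

end Lift

theorem continuous_indexAt (hγ : IsGeodesic g γ) {J : ∀ s, TangentSpace (𝓡 3) (γ s)}
    (hJ : FieldC1 γ J) : Continuous (indexAt g γ J) := by
  refine continuous_iff_continuousAt.2 fun t => ?_
  set N : E3 → M := ⇑(extChartAt (𝓡 3) (γ t)).symm
  set c := curveAt γ t
  have h := isParam_chart g (γ t)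
  have hc := chart_lift hγ.1 t
  obtain ⟨G', hG', hGe⟩ := (h.metricNear hc.mem.self_of_nhds.1).extend
  have hs0 : ContDiffAt ℝ ∞ c t := hc.smooth.self_of_nhds
  have hw := hc.contDiffAt_coordField h J (hJ t)
  have hv : ContinuousAt (deriv c) t :=
    ((hs0.fderiv_right (m := ∞) (by simp)).clm_apply contDiffAt_const).continuousAt
  have hw' : ContinuousAt (deriv (coordField N c J)) t :=
    ((hw.fderiv_right (m := 0) (by simp)).clm_apply contDiffAt_const).continuousAt
  refine ContinuousAt.congr (f := fun s => indexForm G' (c s) (deriv c s) (coordField N c J s)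
    (deriv (coordField N c J) s)) ?_ ?_
  · exact ContinuousAt.comp (g := fun p : E3 × E3 × E3 × E3 =>
      indexForm G' p.1 p.2.1 p.2.2.1 p.2.2.2)
      (f := fun s => (c s, deriv c s, coordField N c J s, deriv (coordField N c J) s))
      (continuous_indexForm hG').continuousAt
      (hs0.continuousAt.prodMk (hv.prodMk (hw.continuousAt.prodMk hw')))
  · filter_upwards [hc.eventually, hs0.continuousAt.eventually hGe.eventuallyEq_nhds] with s hs he
    rw [hs.indexAt_eq h J (hJ s), indexForm_congr he]

theorem continuous_polAt (hγ : IsGeodesic g γ) {J K : ∀ s, TangentSpace (𝓡 3) (γ s)}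
    (hJ : FieldC1 γ J) (hK : FieldC1 γ K) : Continuous (polAt g γ J K) :=
  (((continuous_indexAt hγ (hJ.add_smul hK 1)).sub (continuous_indexAt hγ hJ)).sub
    (continuous_indexAt hγ hK)).div_const 2

theorem indexAt_expand (hγ : IsGeodesic g γ) {J K : ∀ s, TangentSpace (𝓡 3) (γ s)}
    (hJ : FieldC1 γ J) (hK : FieldC1 γ K) (r t : ℝ) :
    indexAt g γ (fun s => J s + r • K s) t =
      indexAt g γ J t + 2 * r * polAt g γ J K t + r ^ 2 * indexAt g γ K t := by
  have h := isParam_chart g (γ t)
  have hc := chart_lift hγ.1 t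
  rw [polAt, hc.indexAt_add h J K hJ hK r, hc.indexAt_add h J K hJ hK 1]
  ring

theorem IsJacobi.fieldC1 {J : ∀ s, TangentSpace (𝓡 3) (γ s)} (hJ : IsJacobi g γ J) :
    FieldC1 γ J := fun t => (hJ t).1.of_le one_le_two

/-- Along a geodesic, the derivative of the product of `DJ` with `K` is the index integrand. -/
theorem hasDerivAt_covDot (hγ : IsGeodesic g γ) {J K : ∀ s, TangentSpace (𝓡 3) (γ s)}
    (hJ : IsJacobi g γ J) (hK : FieldC1 γ K) (t : ℝ) :
    HasDerivAt (covDot g γ J K) (polAt g γ J K t) t := by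
  have h := isParam_chart g (γ t)
  have hc := chart_lift hγ.1 t
  obtain ⟨G', hG', hGe⟩ := (h.metricNear hc.mem.self_of_nhds.1).extend
  set k := coordField (extChartAt (𝓡 3) (γ t)).symm (curveAt γ t) K
  set w := coordField (extChartAt (𝓡 3) (γ t)).symm (curveAt γ t) J
  obtain ⟨z, hz, hz2⟩ := hc.jacobi_eq h J hJ
  have hk : HasDerivAt k (deriv k t) t :=
    ((hc.contDiffAt_coordField h K (hK t)).differentiableAt one_ne_zero).hasDerivAt
  have hcd : HasDerivAt (curveAt γ t) (deriv (curveAt γ t) t) t :=
    (hc.smooth.self_of_nhds.differentiableAt (by simp)).hasDerivAt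
  have hp : polAt g γ J K t = indexPol (inChart g (γ t)) ((curveAt γ t) t) (deriv (curveAt γ t) t) (w t) (deriv w t) (k t) (deriv k t) := by
    rw [polAt, hc.indexAt_add h J K hJ.fieldC1 hK 1]; ring
  have he : covDot g γ J K =ᶠ[𝓝 t]
      fun s => G' ((curveAt γ t) s) (deriv w s + gam (inChart g (γ t)) ((curveAt γ t) s) (deriv (curveAt γ t) s) (w s)) (k s) := by
    filter_upwards [hc.eventually, hcd.continuousAt.eventually hGe.eventuallyEq_nhds] with s hs he
    rw [hs.covDot_eq h J K (hJ.fieldC1 s), he.eq_of_nhds]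
  refine ((Geo.hasDerivAt_g hG' hcd hz hk).congr_of_eventuallyEq he).congr_deriv ?_
  rw [hp]
  simp only [indexPol, gam_congr hGe, hGe.eq_of_nhds]
  rw [show z + gam (inChart g (γ t)) ((curveAt γ t) t) (deriv (curveAt γ t) t) (deriv w t + gam (inChart g (γ t)) ((curveAt γ t) t) (deriv (curveAt γ t) t) (w t)) =
    -riem (inChart g (γ t)) ((curveAt γ t) t) (w t) (deriv (curveAt γ t) t) (deriv (curveAt γ t) t) from eq_neg_of_add_eq_zero_left hz2]
  simp only [map_neg, neg_apply]
  ring

/-- A Jacobi field with zero data at some time vanishes. -/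
theorem jacobi_eq_zero (hγ : IsGeodesic g γ) {J : ∀ s, TangentSpace (𝓡 3) (γ s)}
    (hJ : IsJacobi g γ J) {b : ℝ} (h0 : fieldAt γ J b b = 0) (h1 : covAt g γ J b b = 0) (t : ℝ) :
    J t = 0 := by
  set S : Set ℝ := {t | fieldAt γ J t t = 0 ∧ covAt g γ J t t = 0}
  have hopen : IsOpen S := by
    refine isOpen_iff_mem_nhds.2 fun t ht => ?_
    have h := isParam_chart g (γ t)
    have hc := chart_lift hγ.1 t
    obtain ⟨G', hG', hGe⟩ := (h.metricNear hc.mem.self_of_nhds.1).extend
    set w := coordField (extChartAt (𝓡 3) (γ t)).symm (curveAt γ t) J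
    set P := fun s => deriv w s + gam (inChart g (γ t)) ((curveAt γ t) s) (deriv (curveAt γ t) s) (w s) with hPdef
    have hge : ∀ᶠ s in 𝓝 t, G' =ᶠ[𝓝 ((curveAt γ t) s)] (inChart g (γ t)) :=
      hc.smooth.self_of_nhds.continuousAt.eventually hGe.eventuallyEq_nhds
    have hw : ∀ᶠ s in 𝓝 t, HasDerivAt w (P s - gam G' ((curveAt γ t) s) (deriv (curveAt γ t) s) (w s)) s := by
      filter_upwards [hc.eventually_coord h J hJ.fieldC1, hge] with s hs he
      refine (hs.differentiableAt one_ne_zero).hasDerivAt.congr_deriv ?_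
      rw [hPdef, gam_congr he]
      exact (add_sub_cancel_right _ _).symm
    have hP : ∀ᶠ s in 𝓝 t, HasDerivAt P (-gam G' ((curveAt γ t) s) (deriv (curveAt γ t) s) (P s) -
        riem G' ((curveAt γ t) s) (w s) (deriv (curveAt γ t) s) (deriv (curveAt γ t) s)) s := by
      filter_upwards [hc.eventually, hge] with s hs he
      obtain ⟨z, hz, hz2⟩ := hs.jacobi_eq h J hJ
      refine hz.congr_deriv ?_
      rw [gam_congr he, riem_congr he]
      rw [← sub_eq_zero, ← hz2, hPdef]
      abel
    obtain ⟨a0, a1⟩ := (hc.zero_iff h J (hJ.fieldC1 t)).1 ht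
    have hz := jacobi_local_zero hG' hc.smooth.self_of_nhds hw hP a0 (by
      show deriv w t + gam (inChart g (γ t)) ((curveAt γ t) t) (deriv (curveAt γ t) t) (w t) = 0
      rw [show w t = 0 from a0, show deriv w t = 0 from a1, gam_zero₂, add_zero])
    filter_upwards [hc.eventually, hz] with s hs hz'
    refine (hs.zero_iff h J (hJ.fieldC1 s)).2 ⟨hz'.1, ?_⟩
    have h3 := hz'.2
    simp only [hPdef, hz'.1, gam_zero₂, add_zero] at h3
    exact h3
  have hclosed : IsClosed S := by
    rw [← isOpen_compl_iff]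
    refine isOpen_iff_mem_nhds.2 fun t ht => ?_
    have h := isParam_chart g (γ t)
    have hc := chart_lift hγ.1 t
    have hw := hc.contDiffAt_coordField h J (hJ.fieldC1 t)
    have hcont : ContinuousAt (fun s => (coordField (extChartAt (𝓡 3) (γ t)).symm (curveAt γ t) J s, deriv (coordField (extChartAt (𝓡 3) (γ t)).symm (curveAt γ t) J) s)) t :=
      hw.continuousAt.prodMk
        ((hw.fderiv_right (m := 0) (by simp)).clm_apply contDiffAt_const).continuousAt
    have hne : (coordField (extChartAt (𝓡 3) (γ t)).symm (curveAt γ t) J t, deriv (coordField (extChartAt (𝓡 3) (γ t)).symm (curveAt γ t) J) t) ≠ (0, 0) := fun e =>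
      ht ((hc.zero_iff h J (hJ.fieldC1 t)).2 (Prod.ext_iff.1 e))
    filter_upwards [hc.eventually, hcont.eventually_ne hne] with s hs hs' hmem
    exact hs' (Prod.ext_iff.2 ((hs.zero_iff h J (hJ.fieldC1 s)).1 hmem))
  have hS : S = Set.univ := IsClopen.eq_univ ⟨hclosed, hopen⟩ ⟨b, h0, h1⟩
  have ht : t ∈ S := hS ▸ trivial
  have h := isParam_chart g (γ t)
  have hc := chart_lift hγ.1 t
  have := ((hc.zero_iff h J (hJ.fieldC1 t)).1 ht).1
  rw [← h.coordField_apply hc.mem.self_of_nhds.1 J, this]
  exact map_zero _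

/-- A field supported near `b` with prescribed coordinates there. -/
theorem exists_bump (hγ : ContMDiff 𝓘(ℝ) (𝓡 3) ∞ γ) (g : SmoothMetric M) {a b : ℝ} (hab : a < b)
    (v₀ : E3) :
    ∃ K : ∀ s, TangentSpace (𝓡 3) (γ s), FieldC1 γ K ∧ K a = 0 ∧ K (b + 1) = 0 ∧
      coordField (extChartAt (𝓡 3) (γ b)).symm (curveAt γ b) K b = v₀ := by
  set N : E3 → M := ⇑(extChartAt (𝓡 3) (γ b)).symm
  set c := curveAt γ b
  set D := (extChartAt (𝓡 3) (γ b)).target
  have h := isParam_chart g (γ b)
  obtain ⟨ρ, hρ, hball⟩ := Metric.eventually_nhds_iff_ball.1 (chart_lift hγ b).eventually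
  set r := min (ρ / 2) (min (b - a) 1)
  have hr : 0 < r := lt_min (by linarith) (lt_min (by linarith) one_pos)
  let χ : ContDiffBump b := ⟨r / 2, r, by linarith, by linarith⟩
  refine ⟨fun s => ((χ s : ℝ) • (mfderiv (𝓡 3) (𝓡 3) N (c s) v₀ : E3) : E3), fun t => ?_, ?_, ?_, ?_⟩
  · by_cases ht : t ∈ Metric.ball b ρ
    · have hc := hball t ht
      refine ContDiffAt.congr_of_eventuallyEq ?_ (hc.fieldAt_eq h _)
      obtain ⟨hy, hq⟩ := hc.chart_mem h
      refine (((contDiffAt_D (h.contDiffAt_coordChange hy hq).self_of_nhds).comp t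
        hc.smooth.self_of_nhds).of_le (by simp)).clm_apply ?_
      refine ContDiffAt.congr_of_eventuallyEq (f := fun s => (χ s : ℝ) • v₀) ?_ ?_
      · exact (χ.contDiff (n := 1)).contDiffAt.smul contDiffAt_const
      · filter_upwards [hc.mem] with s hs
        apply (h.bij _ hs.1).1
        exact (h.coordField_apply hs.1 _).trans (map_smul _ _ _).symm
    · refine (contDiffAt_const (c := (0 : E3))).congr_of_eventuallyEq ?_
      have hmem : t ∈ (Metric.closedBall b r)ᶜ := fun hh =>
        ht (Metric.closedBall_subset_ball (by linarith [min_le_left (ρ / 2) (min (b - a) 1)]) hh)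
      filter_upwards [Metric.isClosed_closedBall.isOpen_compl.mem_nhds hmem] with s hs
      refine fieldAt_zero (γ := γ) ?_
      simp only [Set.mem_compl_iff, Metric.mem_closedBall, not_le] at hs
      simp only [χ.zero_of_le_dist hs.le]
      exact zero_smul ℝ _
  · have : r ≤ dist a b := by
      rw [Real.dist_eq, abs_of_neg (by linarith)]
      linarith [(min_le_right (ρ / 2) (min (b - a) 1)).trans (min_le_left (b - a) 1)]
    simp only [χ.zero_of_le_dist this]
    exact zero_smul ℝ _
  · have : r ≤ dist (b + 1) b := by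
      rw [Real.dist_eq, add_sub_cancel_left, abs_one]
      exact (min_le_right (ρ / 2) (min (b - a) 1)).trans (min_le_right (b - a) 1)
    simp only [χ.zero_of_le_dist this]
    exact zero_smul ℝ _
  · apply (h.bij _ ((chart_lift hγ b).mem.self_of_nhds.1)).1
    refine (h.coordField_apply (chart_lift hγ b).mem.self_of_nhds.1 _).trans ?_
    have : (χ b : ℝ) = 1 := χ.one_of_mem_closedBall (Metric.mem_closedBall_self χ.rIn_pos.le)
    simp only [this]
    exact one_smul _ _

/-- The index criterion. -/
theorem noConjugatePoints_of_monotone (g : SmoothMetric M)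
    (hB : ∀ γ, IsGeodesic g γ → ∃ B : ∀ t, TangentSpace (𝓡 3) (γ t) → ℝ, (∀ t, B t 0 = 0) ∧
      ∀ J, FieldC1 γ J → Monotone (fun t => (∫ s in (0 : ℝ)..t, indexAt g γ J s) + B t (J t))) :
    NoConjugatePoints g := by
  intro γ J a b hγ hJ hab ha hb
  obtain ⟨B, hB0, hBm⟩ := hB γ hγ
  have h := isParam_chart g (γ b)
  have hc := chart_lift hγ.1 b
  have hJ1 := hJ.fieldC1
  set w := coordField (extChartAt (𝓡 3) (γ b)).symm (curveAt γ b) J
  set v₀ := deriv w b +
    gam (inChart g (γ b)) (curveAt γ b b) (deriv (curveAt γ b) b) (w b) with hv₀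
  by_cases hv : v₀ = 0
  · refine jacobi_eq_zero hγ hJ (fieldAt_zero hb) ?_
    have h1 : w b = 0 := by
      apply (h.bij _ hc.mem.self_of_nhds.1).1
      exact (h.coordField_apply hc.mem.self_of_nhds.1 J).trans (hb.trans (map_zero _).symm)
    refine ((hc.zero_iff h J (hJ1 b)).2 ⟨h1, ?_⟩).2
    rwa [hv₀, h1, gam_zero₂, add_zero] at hv
  obtain ⟨K, hK, hKa, hKb1, hKb⟩ := exists_bump hγ.1 g hab v₀
  have hX : 0 < covDot g γ J K b := by
    rw [hc.covDot_eq h J K (hJ1 b), hKb]
    exact (h.metricNear hc.mem.self_of_nhds.1).pos.self_of_nhds v₀ hv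
  set X := covDot g γ J K b
  have hcJ := continuous_indexAt hγ hJ1
  have hcK := continuous_indexAt hγ hK
  have hcP := continuous_polAt hγ hJ1 hK
  have e1 : ∫ s in a..b, indexAt g γ J s = 0 := by
    have hd : ∀ s, HasDerivAt (covDot g γ J J) (indexAt g γ J s) s := fun s => by
      refine (hasDerivAt_covDot hγ hJ hJ1 s).congr_deriv ?_
      have e := indexAt_expand hγ hJ1 hJ1 (-1) s
      have z : indexAt g γ (fun s => J s + (-1 : ℝ) • J s) s = 0 := by
        rw [show (fun s => J s + (-1 : ℝ) • J s) = fun _ => 0 from funext fun x => by simp]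
        exact indexAt_zero g γ s
      linarith
    rw [intervalIntegral.integral_eq_sub_of_hasDerivAt (fun s _ => hd s)
      (hcJ.intervalIntegrable _ _)]
    simp [covDot, fieldAt_zero ha, fieldAt_zero hb]
  have e2 : ∫ s in a..b, polAt g γ J K s = X := by
    rw [intervalIntegral.integral_eq_sub_of_hasDerivAt (fun s _ => hasDerivAt_covDot hγ hJ hK s)
      (hcP.intervalIntegrable _ _)]
    simp [covDot, fieldAt_zero hKa, X]
  set C := (∫ s in a..b, indexAt g γ K s) + ∫ s in b..(b + 1), indexAt g γ K s
  have hZ : FieldC1 γ (fun _ => 0) := fun t => by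
    refine (contDiffAt_const (c := (0 : E3))).congr_of_eventuallyEq (Eventually.of_forall fun s => ?_)
    exact map_zero _
  have ineq : ∀ r : ℝ, 0 ≤ 2 * r * X + r ^ 2 * C := by
    intro r
    have m1 := hBm _ (hJ1.add_smul hK r) hab.le
    have m2 := hBm _ (hZ.add_smul hK r) (show b ≤ b + 1 by linarith)
    simp only [ha, hb, hKa, hKb1, smul_zero, zero_add, hB0] at m1 m2
    have i0 : ∀ F : ℝ → ℝ, Continuous F → ∀ p q : ℝ,
        (∫ s in (0 : ℝ)..q, F s) - ∫ s in (0 : ℝ)..p, F s = ∫ s in p..q, F s := fun F hF p q =>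
      intervalIntegral.integral_interval_sub_left (hF.intervalIntegrable _ _)
        (hF.intervalIntegrable _ _)
    have c1 := i0 _ (continuous_indexAt hγ (hJ1.add_smul hK r)) a b
    have c2 := i0 _ (continuous_indexAt hγ (hZ.add_smul hK r)) b (b + 1)
    have f1 : ∫ s in a..b, indexAt g γ (fun s => J s + r • K s) s =
        2 * r * X + r ^ 2 * ∫ s in a..b, indexAt g γ K s := by
      simp only [indexAt_expand hγ hJ1 hK r]
      rw [intervalIntegral.integral_add (((hcJ.intervalIntegrable _ _)).add
          ((hcP.intervalIntegrable _ _).const_mul _)) ((hcK.intervalIntegrable _ _).const_mul _),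
        intervalIntegral.integral_add (hcJ.intervalIntegrable _ _)
          ((hcP.intervalIntegrable _ _).const_mul _),
        intervalIntegral.integral_const_mul, intervalIntegral.integral_const_mul, e1, e2, zero_add]
    have f2 : ∫ s in b..(b + 1), indexAt g γ (fun s => (0 : TangentSpace (𝓡 3) (γ s)) + r • K s) s =
        r ^ 2 * ∫ s in b..(b + 1), indexAt g γ K s := by
      rw [← intervalIntegral.integral_const_mul]
      refine intervalIntegral.integral_congr fun s _ => ?_
      have z := indexAt_zero g γ s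
      have e := indexAt_expand hγ hZ hK r s
      have p0 : polAt g γ (fun _ => 0) K s = 0 := by simp [polAt, z]
      rw [e, z, p0]; ring
    simp only [zero_add] at c2 f2
    nlinarith
  have hr := ineq (-X / (|C| + 1))
  have hC : 0 < |C| + 1 := by positivity
  have : 2 * (-X / (|C| + 1)) * X + (-X / (|C| + 1)) ^ 2 * C < 0 := by
    have hC' := le_abs_self C
    rw [div_pow, mul_div_assoc', div_mul_eq_mul_div, div_mul_eq_mul_div,
      div_add_div _ _ hC.ne' (by positivity)]
    refine div_neg_of_neg_of_pos ?_ (by positivity)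
    nlinarith [mul_pos hX hX, mul_pos (mul_pos hX hX) hC]
  linarith

end

end Vale.Agent.P255
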