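import Vale.Agent.P255.NoConjugate
import Vale.Agent.P255.Atlas.Main
import Vale.Agent.P255.Cover.Covering
import Vale.Agent.P255.Cover.Assembly

/-!
# Assembly
-/

open scoped Manifold ContDiff

namespace Vale.Agent.P255

open Vale.Agent.P219 Vale.Agent.P219.Univ

noncomputable section

/-- What the exponential map at each point supplies. -/
def HasExp {M : Type} [TopologicalSpace M] [ChartedSpace E3 M] [IsManifold (𝓡 3) ∞ M]
    (g : SmoothMetric M) : Prop :=
  ∀ p : M, ∃ E : E3 → M, ContMDiff (𝓡 3) (𝓡 3) ∞ E ∧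
    (∀ x, Function.Bijective (mfderiv (𝓡 3) (𝓡 3) E x)) ∧ E 0 = p ∧
    (∀ x u : E3, |inner ℝ x u| ≤
      ‖x‖ * Real.sqrt (g.inner (E x) (mfderiv (𝓡 3) (𝓡 3) E x u) (mfderiv (𝓡 3) (𝓡 3) E x u))) ∧
    ∀ γ : ℝ → M, IsGeodesic g γ → γ 0 = p → ∃ v, ∀ t : ℝ, E (t • v) = γ t

/-- The counterexample, given exponential maps of compact manifolds without conjugate points. -/
theorem counterexampleExists_of_exp
    (hexp : ∀ (M : Type) [TopologicalSpace M] [T2Space M] [CompactSpace M] [ConnectedSpace M]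
      [ChartedSpace E3 M] [IsManifold (𝓡 3) ∞ M] (g : SmoothMetric M),
      NoConjugatePoints g → HasExp g) : CounterexampleExists := by
  obtain ⟨δ, h0, h1, ht⟩ := exists_tame
  obtain ⟨M, i1, i2, i3, i4, i5, i6, g, ⟨P⟩⟩ := Atlas.piecesExist h0 h1
  have hn : NoConjugatePoints g := P.noConjugatePoints ht
  exact ⟨M, i1, i2, i3, i4, i5, i6, ⟨g, hn⟩, Cover.not_nonpositive_of_exp h0 h1.le P fun p =>
    let ⟨E, hE, hb, _, hr, hgeo⟩ := hexp M g hn p
    ⟨E, hE, hb, hr, hgeo⟩⟩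

end

end Vale.Agent.P255
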