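import Vale.Agent.P255.Neck

/-!
# Boundary forms along geodesics of the neck
-/

open scoped ContDiff Real Topology
open Filter

set_option maxSynthPendingDepth 3

namespace Vale.Agent.P255

open Vale.Agent.P219 Vale.Agent.P219.Univ

noncomputable section

/-- The first conserved momentum. -/
def pmom₁ (δ T : ℝ) (v : E3) : ℝ := G₁ δ T * sh δ T v

/-- The second conserved momentum. -/
def pmom₂ (δ T : ℝ) (v : E3) : ℝ := twist δ T * pmom₁ δ T v + G₂ T * v 2

/-- Half the derivative of the squared torus speed. -/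
def kk (δ T : ℝ) (v : E3) : ℝ := 1 / 2 * blkD δ T v v

/-- The conserved speed. -/
def spd (δ : ℝ) (x v : E3) : ℝ := v 0 ^ 2 + blk δ (x 0) v v

/-- The torus velocity with given momenta. -/
def velAt (δ p q T : ℝ) : E3 :=
  pt 0 (p / G₁ δ T - twist δ T * ((q - twist δ T * p) / G₂ T)) ((q - twist δ T * p) / G₂ T)

/-- The squared torus speed at given momenta. -/
def pot (δ p q T : ℝ) : ℝ := p ^ 2 / G₁ δ T + (q - twist δ T * p) ^ 2 / G₂ T

/-- The term of the boundary form of a turn, read with the component `i`. -/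
def turnQ (δ : ℝ) (i : Fin 3) (x v W : E3) : ℝ :=
  -kk δ (x 0) v * (2 * W 0 * (W i / v i) - v 0 * (W i / v i) ^ 2)

/-- The term of the boundary form of a monotone stretch. -/
def monoQ (δ : ℝ) (x v W : E3) : ℝ := -(kk δ (x 0) v / v 0) * W 0 ^ 2

variable {δ : ℝ}

theorem coord_hasDerivAt {f : ℝ → E3} {f' : E3} {t : ℝ} (hf : HasDerivAt f f' t) (i : Fin 3) :
    HasDerivAt (fun s => f s i) (f' i) t :=
  (EuclideanSpace.proj (𝕜 := ℝ) i).hasFDerivAt.comp_hasDerivAt t hf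

theorem blk_velAt (h0 : 0 < δ) (h1 : δ ≤ 1) (p q T : ℝ) :
    blk δ T (velAt δ p q T) (velAt δ p q T) = pot δ p q T := by
  have := (G₁_pos h0 h1 T).ne'
  have := (G₂_pos T).ne'
  simp [blk, sh, velAt, pot, pt]
  field_simp

theorem velAt_mom (h0 : 0 < δ) (h1 : δ ≤ 1) (T : ℝ) (v : E3) :
    velAt δ (pmom₁ δ T v) (pmom₂ δ T v) T = pt 0 (v 1) (v 2) := by
  have := (G₁_pos h0 h1 T).ne'
  have := (G₂_pos T).ne'
  simp [velAt, pmom₁, pmom₂, sh, pt]
  field_simp
  simp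

theorem pot_mom (h0 : 0 < δ) (h1 : δ ≤ 1) (T : ℝ) (v : E3) :
    pot δ (pmom₁ δ T v) (pmom₂ δ T v) T = blk δ T v v := by
  rw [← blk_velAt h0 h1, velAt_mom h0 h1]
  simp [blk, sh, pt]

theorem hasDerivAt_velAt (h0 : 0 < δ) (h1 : δ ≤ 1) (p q T : ℝ) :
    HasDerivAt (velAt δ p q) (-qv δ T (velAt δ p q T)) T := by
  have g1 := (G₁_pos h0 h1 T).ne'
  have g2 := (G₂_pos T).ne'
  have d1 := hasDerivAt_deriv (contDiff_G₁ δ) T
  have d2 := hasDerivAt_deriv contDiff_G₂ T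
  have ds := hasDerivAt_deriv (contDiff_twist δ) T
  have hv := ((ds.mul_const p).const_sub q).div d2 g2
  have hu := (((hasDerivAt_const T p).div d1 g1).sub (ds.mul hv))
  refine (((hu.smul_const (pt 0 1 0)).add (hv.smul_const (pt 0 0 1))).congr_of_eventuallyEq
    (.of_forall fun S => ?_)).congr_deriv ?_
  · ext i; fin_cases i <;> simp [velAt, pt]
  · ext i
    fin_cases i <;> simp [velAt, qv, sh, pt] <;> field_simp <;> ring

theorem hasDerivAt_blk_comp {c a b : ℝ → E3} {c' a' b' : E3} {t : ℝ} (hc : HasDerivAt c c' t)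
    (ha : HasDerivAt a a' t) (hb : HasDerivAt b b' t) :
    HasDerivAt (fun s => blk δ (c s 0) (a s) (b s))
      (c' 0 * blkD δ (c t 0) (a t) (b t) + blk δ (c t 0) a' (b t) + blk δ (c t 0) (a t) b') t := by
  have h0 := coord_hasDerivAt hc 0
  have g1 := (hasDerivAt_deriv (contDiff_G₁ δ) (c t 0)).comp t h0
  have g2 := (hasDerivAt_deriv contDiff_G₂ (c t 0)).comp t h0
  have gs := (hasDerivAt_deriv (contDiff_twist δ) (c t 0)).comp t h0
  have sa := (coord_hasDerivAt ha 1).add (gs.mul (coord_hasDerivAt ha 2))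
  have sb := (coord_hasDerivAt hb 1).add (gs.mul (coord_hasDerivAt hb 2))
  refine (((g1.mul sa).mul sb).add ((g2.mul (coord_hasDerivAt ha 2)).mul
    (coord_hasDerivAt hb 2))).congr_deriv ?_
  simp [blk, blkD, sh]
  ring

theorem hasDerivAt_blkD_comp {c a b : ℝ → E3} {c' a' b' : E3} {t : ℝ} (hc : HasDerivAt c c' t)
    (ha : HasDerivAt a a' t) (hb : HasDerivAt b b' t) :
    HasDerivAt (fun s => blkD δ (c s 0) (a s) (b s))
      (c' 0 * blkD2 δ (c t 0) (a t) (b t) + blkD δ (c t 0) a' (b t) + blkD δ (c t 0) (a t) b') t := by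
  have h0 := coord_hasDerivAt hc 0
  have g1 := (hasDerivAt_deriv (contDiff_G₁ δ) (c t 0)).comp t h0
  have g1' := (hasDerivAt_deriv (contDiff_deriv (contDiff_G₁ δ)) (c t 0)).comp t h0
  have g2 := (hasDerivAt_deriv (contDiff_deriv contDiff_G₂) (c t 0)).comp t h0
  have gs := (hasDerivAt_deriv (contDiff_twist δ) (c t 0)).comp t h0
  have gs' := (hasDerivAt_deriv (contDiff_deriv (contDiff_twist δ)) (c t 0)).comp t h0
  have sa := (coord_hasDerivAt ha 1).add (gs.mul (coord_hasDerivAt ha 2))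
  have sb := (coord_hasDerivAt hb 1).add (gs.mul (coord_hasDerivAt hb 2))
  refine ((((g1'.mul sa).mul sb).add ((g1.mul gs').mul (((coord_hasDerivAt ha 2).mul sb).add
    (sa.mul (coord_hasDerivAt hb 2))))).add ((g2.mul (coord_hasDerivAt ha 2)).mul
    (coord_hasDerivAt hb 2))).congr_deriv ?_
  simp [blkD, blkD2, sh]
  ring

theorem hasDerivAt_pot (h0 : 0 < δ) (h1 : δ ≤ 1) (p q T : ℝ) :
    HasDerivAt (pot δ p q) (-2 * kk δ T (velAt δ p q T)) T := by
  have hv := hasDerivAt_velAt h0 h1 p q T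
  have hl : HasDerivAt (fun S => pt S 0 0) (pt 1 0 0) T := by
    have e : (fun S => pt S 0 0) = fun S : ℝ => S • pt 1 0 0 := by
      funext S; ext i; fin_cases i <;> simp [pt]
    rw [e]; simpa using (hasDerivAt_id T).smul_const (pt 1 0 0)
  have h := hasDerivAt_blk_comp (δ := δ) hl hv hv
  refine ((h.congr_of_eventuallyEq (.of_forall fun S => ?_))).congr_deriv ?_
  · simp [← blk_velAt h0 h1, pt]
  · simp only [show (pt T 0 0) 0 = T by simp [pt], show (pt 1 0 0) 0 = (1 : ℝ) by simp [pt]]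
    have e : ∀ a b, blk δ T (-a) b = -blk δ T a b := fun a b => by simp [blk, sh]; ring
    rw [blk_symm T (velAt δ p q T), e, blk_qv h0 h1, kk]
    ring

theorem hasDerivAt_kk_velAt (h0 : 0 < δ) (h1 : δ ≤ 1) (p q T : ℝ) :
    HasDerivAt (fun S => kk δ S (velAt δ p q S)) (phiK δ T (velAt δ p q T)) T := by
  have hv := hasDerivAt_velAt h0 h1 p q T
  have hl : HasDerivAt (fun S => pt S 0 0) (pt 1 0 0) T := by
    have e : (fun S => pt S 0 0) = fun S : ℝ => S • pt 1 0 0 := by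
      funext S; ext i; fin_cases i <;> simp [pt]
    rw [e]; simpa using (hasDerivAt_id T).smul_const (pt 1 0 0)
  have h := (hasDerivAt_blkD_comp (δ := δ) hl hv hv).const_mul (1 / 2 : ℝ)
  refine ((h.congr_of_eventuallyEq (.of_forall fun S => ?_))).congr_deriv ?_
  · simp [kk, pt]
  · simp only [show (pt T 0 0) 0 = T by simp [pt], show (pt 1 0 0) 0 = (1 : ℝ) by simp [pt]]
    have e : ∀ a b, blk δ T a (-b) = -blk δ T a b := fun a b => by simp [blk, sh]; ring
    rw [blkD_symm T (-_), ← blk_qv h0 h1, e, phiK]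
    ring

/-- A curve in the strip solving the geodesic equation at one time. -/
def NeckGeo (δ : ℝ) (c : ℝ → E3) (t : ℝ) : Prop :=
  HasDerivAt c (deriv c t) t ∧
    HasDerivAt (deriv c) (-gam (neckMetric δ) (c t) (deriv c t) (deriv c t)) t

variable {c : ℝ → E3} {t : ℝ}

theorem NeckGeo.coord (h0 : 0 < δ) (h1 : δ ≤ 1) (hc : NeckGeo δ c t) :
    HasDerivAt (fun s => deriv c s 0) (kk δ (c t 0) (deriv c t)) t ∧
      HasDerivAt (fun s => deriv c s 1) (-(deriv c t 0 * qv δ (c t 0) (deriv c t) 1)) t ∧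
      HasDerivAt (fun s => deriv c s 2) (-(deriv c t 0 * qv δ (c t 0) (deriv c t) 2)) t := by
  obtain ⟨e0, e1, e2⟩ := acc_neck h0 h1 (c t) (deriv c t)
  exact ⟨(coord_hasDerivAt hc.2 0).congr_deriv e0, (coord_hasDerivAt hc.2 1).congr_deriv e1,
    (coord_hasDerivAt hc.2 2).congr_deriv e2⟩

theorem NeckGeo.const (h0 : 0 < δ) (h1 : δ ≤ 1) (hc : NeckGeo δ c t) :
    HasDerivAt (fun s => pmom₁ δ (c s 0) (deriv c s)) 0 t ∧
      HasDerivAt (fun s => pmom₂ δ (c s 0) (deriv c s)) 0 t ∧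
      HasDerivAt (fun s => spd δ (c s) (deriv c s)) 0 t ∧
      HasDerivAt (fun s => kk δ (c s 0) (deriv c s))
        (deriv c t 0 * phiK δ (c t 0) (deriv c t)) t := by
  obtain ⟨e0, e1, e2⟩ := hc.coord h0 h1
  have h := coord_hasDerivAt hc.1 0
  have g1 := (hasDerivAt_deriv (contDiff_G₁ δ) (c t 0)).comp t h
  have g2 := (hasDerivAt_deriv contDiff_G₂ (c t 0)).comp t h
  have gs := (hasDerivAt_deriv (contDiff_twist δ) (c t 0)).comp t h
  have n1 := (G₁_pos h0 h1 (c t 0)).ne'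
  have n2 := (G₂_pos (c t 0)).ne'
  have hm : HasDerivAt (fun s => pmom₁ δ (c s 0) (deriv c s)) 0 t := by
    refine (g1.mul (e1.add (gs.mul e2))).congr_deriv ?_
    simp [qv, sh, pt]
    field_simp
    ring
  refine ⟨hm, ?_, ?_, ?_⟩
  · refine ((gs.mul hm).add (g2.mul e2)).congr_deriv ?_
    simp [qv, sh, pt, pmom₁]
    field_simp
    ring
  · refine ((e0.pow 2).add (hasDerivAt_blk_comp (δ := δ) hc.1 hc.2 hc.2)).congr_deriv ?_
    obtain ⟨_, a1, a2⟩ := acc_neck h0 h1 (c t) (deriv c t)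
    simp [kk, blk, blkD, sh, qv, pt, a1, a2] at *
    field_simp
    ring
  · refine ((hasDerivAt_blkD_comp (δ := δ) hc.1 hc.2 hc.2).const_mul (1 / 2 : ℝ)).congr_deriv ?_
    obtain ⟨_, a1, a2⟩ := acc_neck h0 h1 (c t) (deriv c t)
    have e : ∀ u, blkD δ (c t 0) (-gam (neckMetric δ) (c t) (deriv c t) (deriv c t)) u =
        -(deriv c t 0) * blkD δ (c t 0) (qv δ (c t 0) (deriv c t)) u := fun u => by
      simp only [blkD, sh, a1, a2]; ring
    rw [blkD_symm _ (deriv c t) (-_), e, blkD_symm, ← blk_qv h0 h1, phiK]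
    ring

variable {w : ℝ → E3} {W' : E3}

theorem NeckGeo.hasDerivAt_bdry (h0 : 0 < δ) (h1 : δ ≤ 1) (hc : NeckGeo δ c t)
    (hw : HasDerivAt w W' t) :
    HasDerivAt (fun s => bdryForm (neckMetric δ) (c s) (deriv c s) (w s))
      (energyForm (neckMetric δ) (c t) (deriv c t) (w t) W' -
        indexForm (neckMetric δ) (c t) (deriv c t) (w t) W') t :=
  hasDerivAt_bdryForm (isMetric_neck h0 h1) hc.1 hc.2 hw

/-- The completed square of a turn. -/
theorem turn_square {A u q k Φ e z : ℝ} (hA : 0 < A) (hu : u ≠ 0)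
    (hcond : A * k ^ 2 - 2 * k * q * u ≤ u ^ 2 * Φ) :
    0 ≤ Φ * e ^ 2 - 2 * k * e * z + (u * z + q * e) ^ 2 / A := by
  have hu2 : 0 < u ^ 2 * A := mul_pos (by positivity) hA
  refine nonneg_of_mul_nonneg_right ?_ hu2
  have h := mul_nonneg (mul_nonneg hA.le (sq_nonneg e)) (sub_nonneg.2 hcond)
  have e1 : u ^ 2 * A * (Φ * e ^ 2 - 2 * k * e * z + (u * z + q * e) ^ 2 / A) =
      (u * (u * z + q * e) - A * k * e) ^ 2 +
        A * e ^ 2 * (u ^ 2 * Φ - (A * k ^ 2 - 2 * k * q * u)) := by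
    field_simp
    ring
  rw [e1]
  linarith [sq_nonneg (u * (u * z + q * e) - A * k * e)]

/-- During a turn the index integrand dominates minus the derivative of the boundary form. -/
theorem NeckGeo.turn (h0 : 0 < δ) (h1 : δ ≤ 1) (hc : NeckGeo δ c t) (hw : HasDerivAt w W' t)
    {i : Fin 3} (hi : i ≠ 0) {A : ℝ} (hA : 0 < A)
    (hwt : ∀ Z : E3, Z i ^ 2 / A ≤ blk δ (c t 0) Z Z) (hu : deriv c t i ≠ 0)
    (hcond : A * kk δ (c t 0) (deriv c t) ^ 2 -
        2 * kk δ (c t 0) (deriv c t) * qv δ (c t 0) (deriv c t) i * deriv c t i ≤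
      deriv c t i ^ 2 * phiK δ (c t 0) (deriv c t)) :
    ∃ d, HasDerivAt (fun s => bdryForm (neckMetric δ) (c s) (deriv c s) (w s) +
        turnQ δ i (c s) (deriv c s) (w s)) d t ∧
      0 ≤ d + indexForm (neckMetric δ) (c t) (deriv c t) (w t) W' := by
  obtain ⟨e0, e1, e2⟩ := hc.coord h0 h1
  have ei : HasDerivAt (fun s => deriv c s i) (-(deriv c t 0 * qv δ (c t 0) (deriv c t) i)) t := by
    fin_cases i
    · exact absurd rfl hi
    · exact e1
    · exact e2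
  obtain ⟨-, -, -, ek⟩ := hc.const h0 h1
  have hr := (coord_hasDerivAt hw i).div ei hu
  refine ⟨_, (hc.hasDerivAt_bdry h0 h1 hw).add
    (ek.neg.mul ((((coord_hasDerivAt hw 0).const_mul 2).mul hr).sub (e0.mul (hr.pow 2)))), ?_⟩
  have hz := hwt (W' + w t 0 • qv δ (c t 0) (deriv c t))
  rw [energy_square h0 h1]
  simp only [PiLp.add_apply, PiLp.smul_apply, smul_eq_mul] at hz
  set u := deriv c t i
  set s := deriv c t 0
  set q := qv δ (c t 0) (deriv c t) i
  set k := kk δ (c t 0) (deriv c t)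
  set Φ := phiK δ (c t 0) (deriv c t)
  set a := w t 0
  set z := (W' i * u - w t i * -(s * q)) / u ^ 2
  have hsq := turn_square (e := a - s * (w t i / u)) (z := z) hA hu hcond
  have e3 : W' i + a * q = u * z + q * (a - s * (w t i / u)) := by
    simp only [z]
    field_simp
    ring
  rw [e3] at hz
  simp only [Pi.div_apply, Pi.mul_apply, Pi.sub_apply, Pi.pow_apply, Pi.neg_apply]
  norm_num
  nlinarith [sq_nonneg (W' 0 - k * (w t i / u))]

/-- During a monotone stretch the same holds. -/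
theorem NeckGeo.mono (h0 : 0 < δ) (h1 : δ ≤ 1) (hc : NeckGeo δ c t) (hw : HasDerivAt w W' t)
    (hs : deriv c t 0 ≠ 0) :
    ∃ d, HasDerivAt (fun s => bdryForm (neckMetric δ) (c s) (deriv c s) (w s) +
        monoQ δ (c s) (deriv c s) (w s)) d t ∧
      0 ≤ d + indexForm (neckMetric δ) (c t) (deriv c t) (w t) W' := by
  obtain ⟨e0, -, -⟩ := hc.coord h0 h1
  obtain ⟨-, -, -, ek⟩ := hc.const h0 h1
  refine ⟨_, (hc.hasDerivAt_bdry h0 h1 hw).add
    ((ek.div e0 hs).neg.mul ((coord_hasDerivAt hw 0).pow 2)), ?_⟩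
  have hb := blk_nonneg h0 h1 (c t 0) (W' + w t 0 • qv δ (c t 0) (deriv c t))
  rw [energy_square h0 h1]
  simp only [Pi.div_apply, Pi.pow_apply, Pi.neg_apply]
  norm_num
  set s := deriv c t 0
  set k := kk δ (c t 0) (deriv c t)
  set Φ := phiK δ (c t 0) (deriv c t)
  set a := w t 0
  have e : (s * Φ * s - k * k) / s ^ 2 * a ^ 2 + k / s * (2 * a * W' 0) =
      Φ * a ^ 2 - (k * a / s - W' 0) ^ 2 + W' 0 ^ 2 := by
    field_simp
    ring
  nlinarith [sq_nonneg (k * a / s - W' 0)]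

/-- On a constant orbit the same holds. -/
theorem NeckGeo.still (h0 : 0 < δ) (h1 : δ ≤ 1) (hc : NeckGeo δ c t) (hw : HasDerivAt w W' t)
    (hΦ : 0 ≤ phiK δ (c t 0) (deriv c t)) :
    ∃ d, HasDerivAt (fun s => bdryForm (neckMetric δ) (c s) (deriv c s) (w s)) d t ∧
      0 ≤ d + indexForm (neckMetric δ) (c t) (deriv c t) (w t) W' := by
  refine ⟨_, hc.hasDerivAt_bdry h0 h1 hw, ?_⟩
  rw [energy_square h0 h1]
  nlinarith [blk_nonneg h0 h1 (c t 0) (W' + w t 0 • qv δ (c t 0) (deriv c t)), sq_nonneg (W' 0),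
    mul_nonneg hΦ (sq_nonneg (w t 0))]

theorem weight₂ (h0 : 0 < δ) (h1 : δ ≤ 1) (T : ℝ) (Z : E3) :
    Z 2 ^ 2 / (1 / G₂ T) ≤ blk δ T Z Z := by
  rw [div_div_eq_mul_div, div_one]
  simp only [blk]
  nlinarith [mul_nonneg (G₁_pos h0 h1 T).le (mul_self_nonneg (sh δ T Z))]

theorem weight₁ (h0 : 0 < δ) (h1 : δ ≤ 1) (T : ℝ) (Z : E3) :
    Z 1 ^ 2 / (1 / G₁ δ T + twist δ T ^ 2 / G₂ T) ≤ blk δ T Z Z := by
  have a := G₁_pos h0 h1 T
  have b := G₂_pos T
  rw [div_le_iff₀ (by positivity)]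
  have e : blk δ T Z Z * (1 / G₁ δ T + twist δ T ^ 2 / G₂ T) - Z 1 ^ 2 =
      (G₁ δ T * sh δ T Z * twist δ T + G₂ T * Z 2) ^ 2 / (G₁ δ T * G₂ T) := by
    simp only [blk, sh]
    field_simp
    ring
  linarith [show 0 ≤ (G₁ δ T * sh δ T Z * twist δ T + G₂ T * Z 2) ^ 2 / (G₁ δ T * G₂ T) by
    positivity]

end

end Vale.Agent.P255
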