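import Vale.Agent.P255.Forms

/-!
# The boundary form of the neck and its monotonicity in coordinates
-/

open scoped ContDiff Real Topology
open Filter Set

set_option maxSynthPendingDepth 3

namespace Vale.Agent.P255

open Vale.Agent.P219 Vale.Agent.P219.Univ

noncomputable section

/-- What is needed from the profiles inside the core `|T| ≤ 1`. -/
structure Tame (δ : ℝ) : Prop where
  pos : 0 < δ
  le_one : δ ≤ 1
  concave : ∀ T, |T| ≤ 1 → ∀ v, 0 ≤ phiK δ T v
  right : ∀ T, |T| ≤ 1 → ∀ v, 0 < kk δ T v → v 2 ≠ 0 ∧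
    1 / G₂ T * kk δ T v ^ 2 - 2 * kk δ T v * qv δ T v 2 * v 2 ≤ v 2 ^ 2 * phiK δ T v
  left : ∀ T, |T| ≤ 1 → ∀ v, kk δ T v < 0 → v 1 ≠ 0 ∧
    (1 / G₁ δ T + twist δ T ^ 2 / G₂ T) * kk δ T v ^ 2 - 2 * kk δ T v * qv δ T v 1 * v 1 ≤
      v 1 ^ 2 * phiK δ T v

/-- The geodesic through the state has a turn inside the core. -/
def Hump (δ : ℝ) (x v : E3) : Prop :=
  ∃ T ∈ Ioo (-1 : ℝ) 1, spd δ x v < pot δ (pmom₁ δ (x 0) v) (pmom₂ δ (x 0) v) T

open Classical in
/-- The boundary form inside the core. -/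
def Bcore (δ : ℝ) (x v W : E3) : ℝ :=
  bdryForm (neckMetric δ) x v W + if Hump δ x v then
    (if 0 < kk δ (x 0) v then turnQ δ 2 x v W else turnQ δ 1 x v W)
  else if v 0 = 0 then 0 else monoQ δ x v W

open Classical in
/-- The boundary form of the neck. -/
def Bneck (δ : ℝ) (x v W : E3) : ℝ := if |x 0| < 1 then Bcore δ x v W else 0

/-- Monotone at one point. -/
def LocMono (E : ℝ → ℝ) (t : ℝ) : Prop :=
  (∀ᶠ s in 𝓝[<] t, E s ≤ E t) ∧ ∀ᶠ s in 𝓝[>] t, E t ≤ E s

theorem left_mono {E f : ℝ → ℝ} {t : ℝ} (hc : ContinuousAt f t)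
    (h : ∀ᶠ s in 𝓝[<] t, E s = f s ∧ ∃ d, HasDerivAt f d s ∧ 0 ≤ d) (h0 : f t ≤ E t) :
    ∀ᶠ s in 𝓝[<] t, E s ≤ E t := by
  obtain ⟨l, hl, hl'⟩ := mem_nhdsLT_iff_exists_Ioo_subset.1 h
  have hm : MonotoneOn f (Ioc l t) := by
    refine monotoneOn_of_deriv_nonneg (convex_Ioc l t) ?_ ?_ ?_
    · intro s hs
      rcases eq_or_lt_of_le hs.2 with rfl | h2
      · exact hc.continuousWithinAt
      · obtain ⟨-, d, hd, -⟩ := hl' ⟨hs.1, h2⟩
        exact hd.continuousAt.continuousWithinAt
    · intro s hs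
      rw [interior_Ioc] at hs
      obtain ⟨-, d, hd, -⟩ := hl' hs
      exact hd.differentiableAt.differentiableWithinAt
    · intro s hs
      rw [interior_Ioc] at hs
      obtain ⟨-, d, hd, hd0⟩ := hl' hs
      rw [hd.deriv]; exact hd0
  filter_upwards [Ioo_mem_nhdsLT hl] with s hs
  rw [(hl' hs).1]
  exact (hm (Ioo_subset_Ioc_self hs) ⟨hl, le_rfl⟩ hs.2.le).trans h0

theorem right_mono {E f : ℝ → ℝ} {t : ℝ} (hc : ContinuousAt f t)
    (h : ∀ᶠ s in 𝓝[>] t, E s = f s ∧ ∃ d, HasDerivAt f d s ∧ 0 ≤ d) (h0 : E t ≤ f t) :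
    ∀ᶠ s in 𝓝[>] t, E t ≤ E s := by
  obtain ⟨l, hl, hl'⟩ := mem_nhdsGT_iff_exists_Ioo_subset.1 h
  have hm : MonotoneOn f (Ico t l) := by
    refine monotoneOn_of_deriv_nonneg (convex_Ico t l) ?_ ?_ ?_
    · intro s hs
      rcases eq_or_lt_of_le hs.1 with rfl | h2
      · exact hc.continuousWithinAt
      · obtain ⟨-, d, hd, -⟩ := hl' ⟨h2, hs.2⟩
        exact hd.continuousAt.continuousWithinAt
    · intro s hs
      rw [interior_Ico] at hs
      obtain ⟨-, d, hd, -⟩ := hl' hs
      exact hd.differentiableAt.differentiableWithinAt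
    · intro s hs
      rw [interior_Ico] at hs
      obtain ⟨-, d, hd, hd0⟩ := hl' hs
      rw [hd.deriv]; exact hd0
  filter_upwards [Ioo_mem_nhdsGT hl] with s hs
  rw [(hl' hs).1]
  exact h0.trans (hm ⟨le_rfl, hl⟩ (Ioo_subset_Ico_self hs) hs.1.le)

theorem locMono_of_deriv {E f : ℝ → ℝ} {t : ℝ}
    (h : ∀ᶠ s in 𝓝 t, E s = f s ∧ ∃ d, HasDerivAt f d s ∧ 0 ≤ d) : LocMono E t := by
  obtain ⟨h0, d, hd, -⟩ := h.self_of_nhds
  exact ⟨left_mono hd.continuousAt (h.filter_mono nhdsWithin_le_nhds) h0.ge,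
    right_mono hd.continuousAt (h.filter_mono nhdsWithin_le_nhds) h0.le⟩

theorem eventually_const {f : ℝ → ℝ} {t : ℝ} (h : ∀ᶠ s in 𝓝 t, HasDerivAt f 0 s) :
    ∀ᶠ s in 𝓝 t, f s = f t := by
  obtain ⟨ε, hε, hε'⟩ := Metric.eventually_nhds_iff_ball.1 h
  filter_upwards [Metric.ball_mem_nhds t hε] with s hs
  exact (convex_ball t ε).is_const_of_fderivWithin_eq_zero
    (fun y hy => (hε' y hy).differentiableAt.differentiableWithinAt)
    (fun y hy => by
      rw [fderivWithin_of_isOpen Metric.isOpen_ball hy]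
      refine ContinuousLinearMap.ext_ring ?_
      simp [(hε' y hy).deriv]) hs (Metric.mem_ball_self hε)

theorem sign_near {f : ℝ → ℝ} {k t : ℝ} (hf : HasDerivAt f k t) (hk : 0 < k) :
    (∀ᶠ s in 𝓝[<] t, f s < f t) ∧ ∀ᶠ s in 𝓝[>] t, f t < f s := by
  have h := hasDerivAt_iff_tendsto_slope.1 hf
  have h' : ∀ᶠ s in 𝓝[≠] t, 0 < slope f t s := h.eventually (eventually_gt_nhds hk)
  refine ⟨?_, ?_⟩
  · filter_upwards [h'.filter_mono (nhdsWithin_mono t fun s hs => ne_of_lt hs),
      self_mem_nhdsWithin] with s hs hs'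
    rw [slope_def_field, div_pos_iff] at hs
    rcases hs with ⟨-, h2⟩ | ⟨h1, -⟩
    · exact absurd h2 (by simp only [sub_pos, not_lt]; exact le_of_lt hs')
    · linarith
  · filter_upwards [h'.filter_mono (nhdsWithin_mono t fun s hs => ne_of_gt hs),
      self_mem_nhdsWithin] with s hs hs'
    rw [slope_def_field, div_pos_iff] at hs
    rcases hs with ⟨h1, -⟩ | ⟨-, h2⟩
    · linarith
    · exact absurd h2 (by simp only [sub_neg, not_lt]; exact le_of_lt hs')

variable {δ : ℝ}

theorem kk_congr (T : ℝ) {u v : E3} (h1 : u 1 = v 1) (h2 : u 2 = v 2) :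
    kk δ T u = kk δ T v := by
  simp [kk, blkD, sh, h1, h2]

theorem kk_velAt (h : Tame δ) (T : ℝ) (v : E3) :
    kk δ T (velAt δ (pmom₁ δ T v) (pmom₂ δ T v) T) = kk δ T v :=
  kk_congr T (by simp [velAt_mom h.pos h.le_one, pt]) (by simp [velAt_mom h.pos h.le_one, pt])

theorem Tame.monotoneOn_kk (h : Tame δ) (p q : ℝ) :
    MonotoneOn (fun S => kk δ S (velAt δ p q S)) (Icc (-1) 1) := by
  have hd := hasDerivAt_kk_velAt h.pos h.le_one p q
  refine monotoneOn_of_deriv_nonneg (convex_Icc _ _)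
    (fun S _ => (hd S).continuousAt.continuousWithinAt)
    (fun S _ => (hd S).differentiableAt.differentiableWithinAt) fun S hS => ?_
  rw [(hd S).deriv]
  exact h.concave S (abs_le.2 ((interior_subset : interior (Icc (-1 : ℝ) 1) ⊆ Icc (-1) 1) hS)) _

theorem Tame.kk_ne_zero (h : Tame δ) {x v : E3} (hx : |x 0| ≤ 1) (hh : Hump δ x v) :
    kk δ (x 0) v ≠ 0 := by
  obtain ⟨T, hT, hT'⟩ := hh
  set p := pmom₁ δ (x 0) v
  set q := pmom₂ δ (x 0) v
  set r := x 0
  have hr : r ∈ Icc (-1 : ℝ) 1 := abs_le.1 hx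
  have hd := hasDerivAt_pot h.pos h.le_one p q
  have hlt : pot δ p q r < pot δ p q T := by
    rw [pot_mom h.pos h.le_one]
    unfold spd at hT'
    nlinarith [sq_nonneg (v 0)]
  rw [← kk_velAt h r v]
  rcases lt_trichotomy r T with h1 | h1 | h1
  · obtain ⟨ξ, hξ, hξ'⟩ := exists_hasDerivAt_eq_slope (pot δ p q) _ h1
      (fun S _ => (hd S).continuousAt.continuousWithinAt) fun S _ => hd S
    have : 0 < -2 * kk δ ξ (velAt δ p q ξ) := hξ' ▸ div_pos (by linarith) (by linarith)
    have := h.monotoneOn_kk p q hr ⟨by linarith [hr.1, hξ.1], by linarith [hT.2, hξ.2]⟩ hξ.1.le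
    simp only at this
    exact ne_of_lt (by linarith)
  · exact absurd (h1 ▸ hlt) (lt_irrefl _)
  · obtain ⟨ξ, hξ, hξ'⟩ := exists_hasDerivAt_eq_slope (pot δ p q) _ h1
      (fun S _ => (hd S).continuousAt.continuousWithinAt) fun S _ => hd S
    have : -2 * kk δ ξ (velAt δ p q ξ) < 0 := hξ' ▸ div_neg_of_neg_of_pos (by linarith) (by linarith)
    have := h.monotoneOn_kk p q ⟨by linarith [hT.1, hξ.1], by linarith [hr.2, hξ.2]⟩ hr hξ.2.le
    simp only at this
    exact ne_of_gt (by linarith)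

theorem kk_one (δ : ℝ) (v : E3) : kk δ 1 v = 1 / 2 * deriv G₂ 1 * v 2 ^ 2 := by
  obtain ⟨a, -, b, -⟩ := right_side δ (le_refl (1 : ℝ))
  simp [kk, blkD, a, b]; ring

theorem kk_neg_one (δ : ℝ) (v : E3) : kk δ (-1) v = 1 / 2 * deriv (G₁ δ) (-1) * v 1 ^ 2 := by
  obtain ⟨a, -, b, b', -⟩ := left_side δ (le_refl (-1 : ℝ))
  simp [kk, blkD, sh, a, b, b']; ring

theorem deriv_G₂_nonneg (T : ℝ) : 0 ≤ deriv G₂ T := by
  have h : deriv G₂ T = 2 * phi₂ T * flareD (2 * π) T :=
    ((hasDerivAt_flare (2 * π) T).pow 2).deriv.trans (by simp [phi₂])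
  rw [h]
  have := phi₂_pos T
  have := flareD_nonneg one_le_two_pi T
  positivity

theorem deriv_G₁_nonpos (h0 : 0 < δ) (h1 : δ ≤ 1) (T : ℝ) : deriv (G₁ δ) T ≤ 0 := by
  have h : deriv (G₁ δ) T = -(2 * phi₁ δ T * flareD (2 * π / δ) (-T)) :=
    (((hasDerivAt_flare (2 * π / δ) (-T)).comp T (hasDerivAt_neg T)).pow 2).deriv.trans
      (by simp [phi₁])
  rw [h, neg_nonpos]
  have := phi₁_pos h0 h1 T
  have := flareD_nonneg (slope_le h0 h1) (-T)
  positivity

theorem Tame.kk_right (h : Tame δ) {x v : E3} (hx : x 0 = 1) (hh : Hump δ x v) :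
    0 < kk δ (x 0) v :=
  lt_of_le_of_ne (by rw [hx, kk_one]; have := deriv_G₂_nonneg 1; positivity)
    (h.kk_ne_zero (by simp [hx]) hh).symm

theorem Tame.kk_left (h : Tame δ) {x v : E3} (hx : x 0 = -1) (hh : Hump δ x v) :
    kk δ (x 0) v < 0 :=
  lt_of_le_of_ne (by
    rw [hx, kk_neg_one]
    have := deriv_G₁_nonpos h.pos h.le_one (-1)
    nlinarith [sq_nonneg (v 1)]) (h.kk_ne_zero (by simp [hx]) hh)

theorem Tame.Bcore_right (h : Tame δ) {x v W : E3} (hx : x 0 = 1) (hv : v 0 ≠ 0) :
    (0 < v 0 → Bcore δ x v W ≤ 0) ∧ (v 0 < 0 → 0 ≤ Bcore δ x v W) := by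
  obtain ⟨a, -, b, -⟩ := right_side δ (le_refl (1 : ℝ))
  have hb : bdryForm (neckMetric δ) x v W =
      deriv G₂ 1 * (W 0 * W 2 * v 2 - 1 / 2 * v 0 * W 2 ^ 2) := by
    rw [bdry_neck h.pos h.le_one, hx]; simp [blkD, a, b]; ring
  have hg := deriv_G₂_nonneg 1
  by_cases hh : Hump δ x v
  · have hk := h.kk_right hx hh
    have h2 := (h.right _ (by simp [hx]) v hk).1
    have : Bcore δ x v W = 0 := by
      simp only [Bcore, if_pos hh, if_pos hk, turnQ]
      rw [hb, hx, kk_one]
      field_simp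
      ring
    simp [this]
  · have e : Bcore δ x v W = -(deriv G₂ 1 * (v 0 * W 2 - v 2 * W 0) ^ 2) / (2 * v 0) := by
      simp only [Bcore, if_neg hh, if_neg hv, monoQ]
      rw [hb, hx, kk_one]
      field_simp
      ring
    rw [e]
    exact ⟨fun hs => div_nonpos_of_nonpos_of_nonneg (by nlinarith [sq_nonneg (v 0 * W 2 - v 2 * W 0)])
      (by linarith), fun hs => div_nonneg_of_nonpos (by nlinarith [sq_nonneg (v 0 * W 2 - v 2 * W 0)])
      (by linarith)⟩

theorem Tame.Bcore_left (h : Tame δ) {x v W : E3} (hx : x 0 = -1) (hv : v 0 ≠ 0) :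
    (v 0 < 0 → Bcore δ x v W ≤ 0) ∧ (0 < v 0 → 0 ≤ Bcore δ x v W) := by
  obtain ⟨a, -, b, b', -⟩ := left_side δ (le_refl (-1 : ℝ))
  have hb : bdryForm (neckMetric δ) x v W =
      deriv (G₁ δ) (-1) * (W 0 * W 1 * v 1 - 1 / 2 * v 0 * W 1 ^ 2) := by
    rw [bdry_neck h.pos h.le_one, hx]; simp [blkD, sh, a, b, b']; ring
  have hg := deriv_G₁_nonpos h.pos h.le_one (-1)
  by_cases hh : Hump δ x v
  · have hk := h.kk_left hx hh
    have h2 := (h.left _ (by simp [hx]) v hk).1
    have : Bcore δ x v W = 0 := by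
      simp only [Bcore, if_pos hh, if_neg hk.not_gt, turnQ]
      rw [hb, hx, kk_neg_one]
      field_simp
      ring
    simp [this]
  · have e : Bcore δ x v W = -deriv (G₁ δ) (-1) * (v 0 * W 1 - v 1 * W 0) ^ 2 / (2 * v 0) := by
      simp only [Bcore, if_neg hh, if_neg hv, monoQ]
      rw [hb, hx, kk_neg_one]
      field_simp
      ring
    rw [e]
    exact ⟨fun hs => div_nonpos_of_nonneg_of_nonpos
      (mul_nonneg (by linarith) (sq_nonneg _)) (by linarith),
      fun hs => div_nonneg (mul_nonneg (by linarith) (sq_nonneg _)) (by linarith)⟩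

theorem Bneck_zero (x v : E3) : Bneck δ x v 0 = 0 := by
  simp [Bneck, Bcore, bdryForm, turnQ, monoQ, gam, sharp, chris]

variable {c w : ℝ → E3} {Λ : ℝ → ℝ} {t : ℝ}

/-- A geodesic and a field in the strip near a time, with a primitive of the index integrand. -/
structure NeckData (δ : ℝ) (c w : ℝ → E3) (Λ : ℝ → ℝ) (t : ℝ) : Prop where
  geo : ∀ᶠ s in 𝓝 t, NeckGeo δ c s
  field : ∀ᶠ s in 𝓝 t, HasDerivAt w (deriv w s) s
  prim : ∀ᶠ s in 𝓝 t,
    HasDerivAt Λ (indexForm (neckMetric δ) (c s) (deriv c s) (w s) (deriv w s)) s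

theorem NeckData.hump_iff (h : Tame δ) (D : NeckData δ c w Λ t) :
    ∀ᶠ s in 𝓝 t, (Hump δ (c s) (deriv c s) ↔ Hump δ (c t) (deriv c t)) := by
  have e1 := eventually_const (D.geo.mono fun s hs => (hs.const h.pos h.le_one).1)
  have e2 := eventually_const (D.geo.mono fun s hs => (hs.const h.pos h.le_one).2.1)
  have e3 := eventually_const (D.geo.mono fun s hs => (hs.const h.pos h.le_one).2.2.1)
  filter_upwards [e1, e2, e3] with s a b d
  simp [Hump, a, b, d]

/-- Away from the rest points the core form is smooth and increases enough. -/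
theorem NeckData.core (h : Tame δ) (D : NeckData δ c w Λ t) (hr : |c t 0| ≤ 1)
    (hs : Hump δ (c t) (deriv c t) ∨ deriv c t 0 ≠ 0) :
    ∃ f : ℝ → ℝ, ContinuousAt f t ∧ f t = Λ t + Bcore δ (c t) (deriv c t) (w t) ∧
      ∀ᶠ s in 𝓝 t, |c s 0| < 1 → Λ s + Bneck δ (c s) (deriv c s) (w s) = f s ∧
        ∃ d, HasDerivAt f d s ∧ 0 ≤ d := by
  have h0 := h.pos
  have h1 := h.le_one
  by_cases hh : Hump δ (c t) (deriv c t)
  · have hk0 := h.kk_ne_zero hr hh
    have hkc : ContinuousAt (fun s => kk δ (c s 0) (deriv c s)) t :=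
      (D.geo.self_of_nhds.const h0 h1).2.2.2.continuousAt
    rcases hk0.lt_or_gt with hk | hk
    · have hu := (h.left _ hr _ hk).1
      obtain ⟨d0, hd0, -⟩ := D.geo.self_of_nhds.turn h0 h1 D.field.self_of_nhds (i := 1)
        (by decide) (by have := G₁_pos h0 h1 (c t 0); have := G₂_pos (c t 0); positivity)
        (weight₁ h0 h1 _) hu (h.left _ hr _ hk).2
      refine ⟨_, (D.prim.self_of_nhds.add hd0).continuousAt, ?_, ?_⟩
      · simp [Bcore, hh, hk.not_gt]
      filter_upwards [D.geo, D.field, D.prim, D.hump_iff h, hkc.eventually (eventually_lt_nhds hk)]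
        with s hg hw hp hi hks hin
      refine ⟨by simp [Bneck, hin, Bcore, hi.2 hh, not_lt.2 (le_of_lt hks)], ?_⟩
      obtain ⟨d, hd, hd'⟩ := hg.turn h0 h1 hw (i := 1) (by decide)
        (by have := G₁_pos h0 h1 (c s 0); have := G₂_pos (c s 0); positivity)
        (weight₁ h0 h1 _) (h.left _ hin.le _ hks).1 (h.left _ hin.le _ hks).2
      exact ⟨_, hp.add hd, by linarith⟩
    · have hu := (h.right _ hr _ hk).1
      obtain ⟨d0, hd0, -⟩ := D.geo.self_of_nhds.turn h0 h1 D.field.self_of_nhds (i := 2)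
        (by decide) (one_div_pos.2 (G₂_pos _)) (weight₂ h0 h1 _) hu (h.right _ hr _ hk).2
      refine ⟨_, (D.prim.self_of_nhds.add hd0).continuousAt, ?_, ?_⟩
      · simp [Bcore, hh, hk]
      filter_upwards [D.geo, D.field, D.prim, D.hump_iff h, hkc.eventually (eventually_gt_nhds hk)]
        with s hg hw hp hi hks hin
      refine ⟨by simp [Bneck, hin, Bcore, hi.2 hh, hks], ?_⟩
      obtain ⟨d, hd, hd'⟩ := hg.turn h0 h1 hw (i := 2) (by decide)
        (one_div_pos.2 (G₂_pos _)) (weight₂ h0 h1 _) (h.right _ hin.le _ hks).1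
        (h.right _ hin.le _ hks).2
      exact ⟨_, hp.add hd, by linarith⟩
  · have hv := hs.resolve_left hh
    have hvc : ContinuousAt (fun s => deriv c s 0) t :=
      (D.geo.self_of_nhds.coord h0 h1).1.continuousAt
    obtain ⟨d0, hd0, -⟩ := D.geo.self_of_nhds.mono h0 h1 D.field.self_of_nhds hv
    refine ⟨_, (D.prim.self_of_nhds.add hd0).continuousAt, ?_, ?_⟩
    · simp [Bcore, hh, hv]
    filter_upwards [D.geo, D.field, D.prim, D.hump_iff h, hvc.eventually_ne hv]
      with s hg hw hp hi hvs hin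
    refine ⟨by simp [Bneck, hin, Bcore, mt hi.1 hh, hvs], ?_⟩
    obtain ⟨d, hd, hd'⟩ := hg.mono h0 h1 hw hvs
    exact ⟨_, hp.add hd, by linarith⟩

theorem index_outer_nonneg (h0 : 0 < δ) (h1 : δ ≤ 1) {x : E3} (hx : 1 ≤ |x 0|) (v W W' : E3) :
    0 ≤ indexForm (neckMetric δ) x v W W' := by
  have h2 := neck_sec h0 h1 hx W v
  have h3 : 0 ≤ neckMetric δ x (W' + gam (neckMetric δ) x v W)
      (W' + gam (neckMetric δ) x v W) := by
    rw [neckMetric_apply]
    exact add_nonneg (mul_self_nonneg _) (blk_nonneg h0 h1 _ _)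
  simp only [indexForm]
  linarith

theorem NeckData.outer (h : Tame δ) (D : NeckData δ c w Λ t) :
    ∀ᶠ s in 𝓝 t, 1 ≤ |c s 0| → Λ s + Bneck δ (c s) (deriv c s) (w s) = Λ s ∧
      ∃ d, HasDerivAt Λ d s ∧ 0 ≤ d := by
  filter_upwards [D.prim] with s hp hs
  exact ⟨by simp [Bneck, not_lt.2 hs], _, hp, index_outer_nonneg h.pos h.le_one hs _ _ _⟩

/-- A rest point of the radial motion stays at rest. -/
theorem NeckData.rest (h : Tame δ) (D : NeckData δ c w Λ t) (hv : deriv c t 0 = 0)
    (hk : kk δ (c t 0) (deriv c t) = 0) :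
    ∀ᶠ s in 𝓝 t, c s 0 = c t 0 ∧ deriv c s = deriv c t := by
  set u := deriv c t
  set F : E3 × E3 → E3 × E3 := fun p => (p.2, -gam (neckMetric δ) p.1 p.2 p.2)
  have hF : ContDiff ℝ 1 F := contDiff_snd.prodMk (((contDiff_gam (isMetric_neck h.pos h.le_one)).comp
    (contDiff_fst.prodMk (contDiff_snd.prodMk contDiff_snd))).neg.of_le (by simp))
  obtain ⟨K, S, hS, hK⟩ := hF.contDiffAt.exists_lipschitzOnWith (x := (c t, u))
  set f : ℝ → E3 × E3 := fun s => (c s, deriv c s)
  set g : ℝ → E3 × E3 := fun s => (c t + (s - t) • u, u)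
  have hz : ∀ s : ℝ, gam (neckMetric δ) (c t + (s - t) • u) u u = 0 := fun s => by
    have hr : (c t + (s - t) • u) 0 = c t 0 := by simp [hv]
    obtain ⟨a0, a1, a2⟩ := acc_neck h.pos h.le_one (c t + (s - t) • u) u
    rw [hr] at a0 a1 a2
    simp only [kk] at hk
    ext i
    fin_cases i <;> simp_all
  have hg : ∀ s, HasDerivAt g (F (g s)) s := fun s => by
    have : HasDerivAt (fun s : ℝ => c t + (s - t) • u) u s := by
      simpa using (((hasDerivAt_id s).sub_const t).smul_const u).const_add (c t)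
    simpa [g, F, hz] using this.prodMk (hasDerivAt_const s u)
  have hf : ∀ᶠ s in 𝓝 t, HasDerivAt f (F (f s)) s := D.geo.mono fun s hs => hs.1.prodMk hs.2
  have hft : f t = g t := by simp [f, g, u]
  have := ODE_solution_unique_of_eventually (v := fun _ => F) (s := fun _ => S) (K := K)
    (f := f) (g := g) (.of_forall fun _ => hK)
    (hf.and (hf.self_of_nhds.continuousAt.preimage_mem_nhds hS))
    ((Eventually.of_forall hg).and ((hg t).continuousAt.preimage_mem_nhds (hft ▸ hS))) hft
  filter_upwards [this] with s hs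
  simp only [f, g, Prod.mk.injEq] at hs
  exact ⟨by rw [hs.1]; simp [hv], hs.2⟩

theorem NeckData.locMono_rest (h : Tame δ) (D : NeckData δ c w Λ t) (hr : |c t 0| ≤ 1)
    (hv : deriv c t 0 = 0) (hk : kk δ (c t 0) (deriv c t) = 0) :
    LocMono (fun s => Λ s + Bneck δ (c s) (deriv c s) (w s)) t := by
  rcases hr.lt_or_eq with hin | hout
  · refine locMono_of_deriv (f := fun s => Λ s + bdryForm (neckMetric δ) (c s) (deriv c s) (w s)) ?_
    filter_upwards [D.geo, D.field, D.prim, D.hump_iff h, D.rest h hv hk] with s hg hw hp hi he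
    have hn : ¬ Hump δ (c s) (deriv c s) := fun hh => h.kk_ne_zero hr (hi.1 hh) hk
    rw [he.2] at hn
    refine ⟨by simp [Bneck, Bcore, he.1, hin, hn, he.2, hv], ?_⟩
    obtain ⟨d, hd, hd'⟩ := hg.still h.pos h.le_one hw (h.concave _ (he.1 ▸ hr) _)
    exact ⟨_, hp.add hd, by linarith⟩
  · refine locMono_of_deriv (f := Λ) ?_
    filter_upwards [D.outer h, D.rest h hv hk] with s hs he
    exact hs (by rw [he.1]; exact hout.ge)

/-- The energy with the boundary form is monotone at every time. -/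
theorem NeckData.locMono (h : Tame δ) (D : NeckData δ c w Λ t) :
    LocMono (fun s => Λ s + Bneck δ (c s) (deriv c s) (w s)) t := by
  have hg := D.geo.self_of_nhds
  have hrc : ContinuousAt (fun s => c s 0) t := (coord_hasDerivAt hg.1 0).continuousAt
  have hΛ : ContinuousAt Λ t := D.prim.self_of_nhds.continuousAt
  rcases lt_trichotomy |c t 0| 1 with hin | he | hout
  · by_cases hc : Hump δ (c t) (deriv c t) ∨ deriv c t 0 ≠ 0
    · obtain ⟨f, -, -, hf⟩ := D.core h hin.le hc
      refine locMono_of_deriv (f := f) ?_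
      filter_upwards [hf, hrc.abs.eventually (eventually_lt_nhds hin)] with s hs hs'
      exact hs hs'
    · push Not at hc
      refine D.locMono_rest h hin.le hc.2 ?_
      have hmax : IsLocalMax (pot δ (pmom₁ δ (c t 0) (deriv c t)) (pmom₂ δ (c t 0) (deriv c t)))
          (c t 0) := by
        filter_upwards [Ioo_mem_nhds (abs_lt.1 hin).1 (abs_lt.1 hin).2] with S hS
        rw [pot_mom h.pos h.le_one]
        by_contra hlt
        exact hc.1 ⟨S, hS, by simp [spd, hc.2]; linarith⟩
      have := hmax.hasDerivAt_eq_zero (hasDerivAt_pot h.pos h.le_one _ _ _)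
      rw [kk_velAt h] at this
      linarith
  · have hE : Λ t + Bneck δ (c t) (deriv c t) (w t) = Λ t := by simp [Bneck, he]
    have hor := (abs_eq zero_le_one).1 he
    by_cases hv : deriv c t 0 = 0
    · by_cases hk : kk δ (c t 0) (deriv c t) = 0
      · exact D.locMono_rest h he.le hv hk
      · obtain ⟨e0, -, -⟩ := hg.coord h.pos h.le_one
        have key : ∀ᶠ s in 𝓝 t, 1 ≤ |c s 0| := by
          obtain ⟨ε, hε, hε'⟩ := Metric.eventually_nhds_iff_ball.1 D.geo
          have hd : ∀ s ∈ Metric.ball t ε, HasDerivAt (fun s => c s 0) (deriv c s 0) s :=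
            fun s hs => coord_hasDerivAt (hε' s hs).1 0
          rcases hor with h1 | h1
          · have hk' : 0 < kk δ (c t 0) (deriv c t) :=
              lt_of_le_of_ne (by rw [h1, kk_one]; have := deriv_G₂_nonneg 1; positivity) (Ne.symm hk)
            obtain ⟨hl, hr⟩ := sign_near e0 hk'
            simp only [hv] at hl hr
            obtain ⟨a, ha, ha'⟩ := mem_nhdsLT_iff_exists_Ioo_subset.1
              (hl.and (nhdsWithin_le_nhds (Metric.ball_mem_nhds t hε)))
            obtain ⟨b, hb, hb'⟩ := mem_nhdsGT_iff_exists_Ioo_subset.1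
              (hr.and (nhdsWithin_le_nhds (Metric.ball_mem_nhds t hε)))
            have hanti : AntitoneOn (fun s => c s 0) (Ioc a t) := antitoneOn_of_deriv_nonpos
              (convex_Ioc a t) (fun s hs => by
                rcases eq_or_lt_of_le hs.2 with rfl | h2
                · exact hrc.continuousWithinAt
                · exact (hd s (ha' ⟨hs.1, h2⟩).2).continuousAt.continuousWithinAt)
              (fun s hs => by
                rw [interior_Ioc] at hs
                exact (hd s (ha' hs).2).differentiableAt.differentiableWithinAt)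
              fun s hs => by
                rw [interior_Ioc] at hs
                rw [(hd s (ha' hs).2).deriv]; exact (ha' hs).1.le
            have hmon : MonotoneOn (fun s => c s 0) (Ico t b) := monotoneOn_of_deriv_nonneg
              (convex_Ico t b) (fun s hs => by
                rcases eq_or_lt_of_le hs.1 with rfl | h2
                · exact hrc.continuousWithinAt
                · exact (hd s (hb' ⟨h2, hs.2⟩).2).continuousAt.continuousWithinAt)
              (fun s hs => by
                rw [interior_Ico] at hs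
                exact (hd s (hb' hs).2).differentiableAt.differentiableWithinAt)
              fun s hs => by
                rw [interior_Ico] at hs
                rw [(hd s (hb' hs).2).deriv]; exact (hb' hs).1.le
            filter_upwards [Ioo_mem_nhds ha hb] with s hs
            refine le_trans ?_ (le_abs_self _)
            rcases le_total s t with h3 | h3
            · have := hanti ⟨hs.1, h3⟩ ⟨ha, le_rfl⟩ h3; simp only at this; linarith
            · have := hmon ⟨le_rfl, hb⟩ ⟨h3, hs.2⟩ h3; simp only at this; linarith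
          · have hk' : kk δ (c t 0) (deriv c t) < 0 := lt_of_le_of_ne (by
              rw [h1, kk_neg_one]
              have := deriv_G₁_nonpos h.pos h.le_one (-1)
              nlinarith [sq_nonneg (deriv c t 1)]) hk
            obtain ⟨hl, hr⟩ := sign_near e0.neg (neg_pos.2 hk')
            simp only [Pi.neg_apply, hv, neg_zero, neg_lt_zero, neg_pos] at hl hr
            obtain ⟨a, ha, ha'⟩ := mem_nhdsLT_iff_exists_Ioo_subset.1
              (hl.and (nhdsWithin_le_nhds (Metric.ball_mem_nhds t hε)))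
            obtain ⟨b, hb, hb'⟩ := mem_nhdsGT_iff_exists_Ioo_subset.1
              (hr.and (nhdsWithin_le_nhds (Metric.ball_mem_nhds t hε)))
            have hmon : MonotoneOn (fun s => c s 0) (Ioc a t) := monotoneOn_of_deriv_nonneg
              (convex_Ioc a t) (fun s hs => by
                rcases eq_or_lt_of_le hs.2 with rfl | h2
                · exact hrc.continuousWithinAt
                · exact (hd s (ha' ⟨hs.1, h2⟩).2).continuousAt.continuousWithinAt)
              (fun s hs => by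
                rw [interior_Ioc] at hs
                exact (hd s (ha' hs).2).differentiableAt.differentiableWithinAt)
              fun s hs => by
                rw [interior_Ioc] at hs
                rw [(hd s (ha' hs).2).deriv]; exact (ha' hs).1.le
            have hanti : AntitoneOn (fun s => c s 0) (Ico t b) := antitoneOn_of_deriv_nonpos
              (convex_Ico t b) (fun s hs => by
                rcases eq_or_lt_of_le hs.1 with rfl | h2
                · exact hrc.continuousWithinAt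
                · exact (hd s (hb' ⟨h2, hs.2⟩).2).continuousAt.continuousWithinAt)
              (fun s hs => by
                rw [interior_Ico] at hs
                exact (hd s (hb' hs).2).differentiableAt.differentiableWithinAt)
              fun s hs => by
                rw [interior_Ico] at hs
                rw [(hd s (hb' hs).2).deriv]; exact (hb' hs).1.le
            filter_upwards [Ioo_mem_nhds ha hb] with s hs
            refine le_trans ?_ (neg_le_abs _)
            rcases le_total s t with h3 | h3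
            · have := hmon ⟨hs.1, h3⟩ ⟨ha, le_rfl⟩ h3; simp only at this; linarith
            · have := hanti ⟨le_rfl, hb⟩ ⟨h3, hs.2⟩ h3; simp only at this; linarith
        refine locMono_of_deriv (f := Λ) ?_
        filter_upwards [D.outer h, key] with s hs hs'
        exact hs hs'
    · obtain ⟨f, hfc, hft, hf⟩ := D.core h he.le (Or.inr hv)
      have hd0 := coord_hasDerivAt hg.1 0
      have hi : ∀ {l : Filter ℝ}, l ≤ 𝓝 t → (∀ᶠ s in l, |c s 0| < 1) →
          ∀ᶠ s in l, Λ s + Bneck δ (c s) (deriv c s) (w s) = f s ∧ ∃ d, HasDerivAt f d s ∧ 0 ≤ d :=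
        fun hl hs => ((hf.filter_mono hl).and hs).mono fun s hs => hs.1 hs.2
      have ho : ∀ {l : Filter ℝ}, l ≤ 𝓝 t → (∀ᶠ s in l, 1 ≤ |c s 0|) →
          ∀ᶠ s in l, Λ s + Bneck δ (c s) (deriv c s) (w s) = Λ s ∧ ∃ d, HasDerivAt Λ d s ∧ 0 ≤ d :=
        fun hl hs => (((D.outer h).filter_mono hl).and hs).mono fun s hs => hs.1 hs.2
      rcases hor with h1 | h1
      · have hb := h.Bcore_right (W := w t) h1 hv
        have hlo : ∀ᶠ s in 𝓝 t, -1 < c s 0 := hrc.eventually (eventually_gt_nhds (by linarith))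
        rcases lt_or_gt_of_ne hv with hs | hs
        · obtain ⟨hl, hr⟩ := sign_near hd0.neg (neg_pos.2 hs)
          simp only [Pi.neg_apply, neg_lt_neg_iff, h1] at hl hr
          exact ⟨left_mono hΛ (ho nhdsWithin_le_nhds (hl.mono fun s a =>
            le_trans a.le (le_abs_self _))) hE.ge,
            right_mono hfc (hi nhdsWithin_le_nhds ((hr.and (hlo.filter_mono nhdsWithin_le_nhds)).mono
              fun s a => abs_lt.2 ⟨a.2, a.1⟩)) (by rw [hE, hft]; linarith [hb.2 hs])⟩
        · obtain ⟨hl, hr⟩ := sign_near hd0 hs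
          simp only [h1] at hl hr
          exact ⟨left_mono hfc (hi nhdsWithin_le_nhds ((hl.and (hlo.filter_mono nhdsWithin_le_nhds)).mono
              fun s a => abs_lt.2 ⟨a.2, a.1⟩)) (by rw [hE, hft]; linarith [hb.1 hs]),
            right_mono hΛ (ho nhdsWithin_le_nhds (hr.mono fun s a =>
              le_trans a.le (le_abs_self _))) hE.le⟩
      · have hb := h.Bcore_left (W := w t) h1 hv
        have hhi : ∀ᶠ s in 𝓝 t, c s 0 < 1 := hrc.eventually (eventually_lt_nhds (by linarith))
        rcases lt_or_gt_of_ne hv with hs | hs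
        · obtain ⟨hl, hr⟩ := sign_near hd0.neg (neg_pos.2 hs)
          simp only [Pi.neg_apply, neg_lt_neg_iff, h1] at hl hr
          exact ⟨left_mono hfc (hi nhdsWithin_le_nhds ((hl.and (hhi.filter_mono nhdsWithin_le_nhds)).mono
              fun s a => abs_lt.2 ⟨a.1, a.2⟩)) (by rw [hE, hft]; linarith [hb.1 hs]),
            right_mono hΛ (ho nhdsWithin_le_nhds (hr.mono fun s a =>
              le_trans (by linarith) (neg_le_abs (c s 0)))) hE.le⟩
        · obtain ⟨hl, hr⟩ := sign_near hd0 hs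
          simp only [h1] at hl hr
          exact ⟨left_mono hΛ (ho nhdsWithin_le_nhds (hl.mono fun s a =>
              le_trans (by linarith) (neg_le_abs (c s 0)))) hE.ge,
            right_mono hfc (hi nhdsWithin_le_nhds ((hr.and (hhi.filter_mono nhdsWithin_le_nhds)).mono
              fun s a => abs_lt.2 ⟨a.1, a.2⟩)) (by rw [hE, hft]; linarith [hb.2 hs])⟩
  · refine locMono_of_deriv (f := Λ) ?_
    filter_upwards [D.outer h, hrc.abs.eventually (eventually_gt_nhds hout)] with s hs hs'
    exact hs hs'.le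

end

end Vale.Agent.P255
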