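import Vale.Agent.P255.Core
import Vale.Agent.P255.Local

/-!
# A small twist gives a tame neck
-/

open scoped ContDiff Real Topology

namespace Vale.Agent.P255

open Vale.Agent.P219 Vale.Agent.P219.Univ

noncomputable section

theorem deriv_eq_on_core {f g : ℝ → ℝ} {a b T : ℝ} (hT : |T| ≤ 1) (hf : HasDerivAt f a T)
    (hg : HasDerivAt g b T) (h : ∀ S, |S| ≤ 1 → f S = g S) : a = b := by
  have hT' : T ∈ Set.Icc (-1 : ℝ) 1 := abs_le.1 hT
  exact (uniqueDiffOn_Icc (by norm_num) T hT').eq_deriv _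
    (hf.hasDerivWithinAt.congr (fun S hS => (h S (abs_le.2 hS)).symm) (h T hT).symm)
    hg.hasDerivWithinAt

theorem phiK_congr (δ T : ℝ) {u v : E3} (h1 : u 1 = v 1) (h2 : u 2 = v 2) :
    phiK δ T u = phiK δ T v := by
  simp [phiK, blkD2, blk, qv, pt, sh, h1, h2]

theorem qv_congr (δ T : ℝ) {u v : E3} (h1 : u 1 = v 1) (h2 : u 2 = v 2) :
    qv δ T u = qv δ T v := by
  simp [qv, sh, h1, h2]

variable {δ : ℝ}

/-- The dictionary between the geometric and the scalar quantities inside the core. -/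
theorem core_dict (h0 : 0 < δ) (h1 : δ ≤ 1) {T : ℝ} (hT : |T| ≤ 1) (v : E3) :
    let p := pmom₁ δ T v
    let q := pmom₂ δ T v
    v 1 = mom₁ δ p q T ∧ v 2 = mom₂ δ p q T ∧ kk δ T v = -(energyD δ p q T) / 2 ∧
      phiK δ T v = -(energyD2 δ p q T) / 2 ∧ qv δ T v 1 = -momD₁ δ p q T ∧
      qv δ T v 2 = -momD₂ δ p q T ∧ 1 / G₂ T = coA22 T ∧
      1 / G₁ δ T + twist δ T ^ 2 / G₂ T = coA11 δ T := by
  intro p q
  have i2 : ∀ S, |S| ≤ 1 → 1 / G₂ S = 1 - prof S := fun S hS => by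
    rw [div_eq_iff (G₂_pos S).ne']
    exact (one_sub_prof_mul_phi₂ (abs_le.1 hS).2).symm
  have i1 : ∀ S, |S| ≤ 1 → 1 / G₁ δ S = 1 - prof (-S) := fun S hS => by
    rw [div_eq_iff (G₁_pos h0 h1 S).ne']
    exact (one_sub_prof_mul_phi₁ δ (abs_le.1 hS).1).symm
  have e2 : ∀ S, |S| ≤ 1 → velAt δ p q S 2 = mom₂ δ p q S := fun S hS => by
    simp only [velAt, pt, mom₂_eq, vmom, ← i2 S hS]
    simp; ring
  have e1 : ∀ S, |S| ≤ 1 → velAt δ p q S 1 = mom₁ δ p q S := fun S hS => by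
    simp only [velAt, pt, mom₁_eq, vmom, ← i2 S hS, ← i1 S hS]
    simp; ring
  have e0 : ∀ S, |S| ≤ 1 → pot δ p q S = energy δ p q S := fun S hS => by
    simp only [pot, energy, vmom, ← i2 S hS, ← i1 S hS]
    ring
  have ek : ∀ S, |S| ≤ 1 → kk δ S (velAt δ p q S) = -(energyD δ p q S) / 2 := fun S hS => by
    have := deriv_eq_on_core hS (hasDerivAt_pot h0 h1 p q S) (hasDerivAt_energy δ p q S) e0
    linarith
  have eK := deriv_eq_on_core hT (hasDerivAt_kk_velAt h0 h1 p q T)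
    (((hasDerivAt_energyD δ p q T).neg).div_const 2) ek
  have hv := hasDerivAt_velAt h0 h1 p q T
  have q1 := deriv_eq_on_core hT (coord_hasDerivAt hv 1) (hasDerivAt_mom₁ δ p q T) e1
  have q2 := deriv_eq_on_core hT (coord_hasDerivAt hv 2) (hasDerivAt_mom₂ δ p q T) e2
  have hm := velAt_mom h0 h1 T v
  have c1 : velAt δ p q T 1 = v 1 := by rw [hm]; simp [pt]
  have c2 : velAt δ p q T 2 = v 2 := by rw [hm]; simp [pt]
  rw [qv_congr δ T c1 c2, PiLp.neg_apply] at q1 q2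
  refine ⟨c1.symm.trans (e1 T hT), c2.symm.trans (e2 T hT), ?_, ?_, by linarith, by linarith,
    (i2 T hT).trans rfl, ?_⟩
  · rw [← kk_congr T c1 c2, ek T hT]
  · rw [← phiK_congr δ T c1 c2, eK]
  · rw [coA11, ← i1 T hT, ← i2 T hT]
    ring

theorem TwistSmall.tame {E : ℝ} (hs : TwistSmall δ E) (h0 : 0 < δ) (h1 : δ ≤ 1) : Tame δ where
  pos := h0
  le_one := h1
  concave T hT v := by
    obtain ⟨-, -, -, hK, -⟩ := core_dict h0 h1 hT v
    rw [hK]
    linarith [energyD2_nonpos hs hT (pmom₁ δ T v) (pmom₂ δ T v)]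
  right T hT v hk := by
    obtain ⟨-, a2, ek, hK, -, q2, i2, -⟩ := core_dict h0 h1 hT v
    rw [ek] at hk
    refine ⟨a2 ▸ mom₂_ne_zero (by linarith), ?_⟩
    have := right_turn hs hT (p₁ := pmom₁ δ T v) (p₂ := pmom₂ δ T v) (by linarith)
    rw [i2, ek, q2, hK, a2]
    linarith
  left T hT v hk := by
    obtain ⟨a1, -, ek, hK, q1, -, -, i1⟩ := core_dict h0 h1 hT v
    rw [ek] at hk
    refine ⟨a1 ▸ mom₁_ne_zero hs hT (by linarith), ?_⟩
    have := left_turn hs hT (p₁ := pmom₁ δ T v) (p₂ := pmom₂ δ T v) (by linarith)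
    rw [i1, ek, q1, hK, a1]
    linarith

theorem exists_tame : ∃ δ : ℝ, 0 < δ ∧ δ < 1 ∧ Tame δ := by
  obtain ⟨δ, h0, h1, h⟩ := exists_small_twist
  obtain ⟨E, hE⟩ := h δ h0 le_rfl
  exact ⟨δ, h0, h1, hE.tame h0 h1.le⟩

end

end Vale.Agent.P255
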