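import Vale.Agent.P255.Along
import Vale.Agent.P255.TameNeck

/-!
# The boundary form on the manifold
-/

open scoped Manifold ContDiff Topology Real
open Filter Set

set_option maxSynthPendingDepth 3

namespace Vale.Agent.P255

open Vale.Agent.P219 Vale.Agent.P219.Univ

noncomputable section

theorem continuous_riem {n : ℕ} {g : MetricField n} (hg : IsMetric g) :
    Continuous fun p : Space n × Space n × Space n × Space n =>
      riem g p.1 p.2.1 p.2.2.1 p.2.2.2 := by
  have hG := contDiff_gam hg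
  have h1 : ∀ {a b c d : Space n × Space n × Space n × Space n → Space n}, ContDiff ℝ ∞ a →
      ContDiff ℝ ∞ b → ContDiff ℝ ∞ c → ContDiff ℝ ∞ d →
      Continuous fun p => fderiv ℝ (fun y => gam g y (b p) (c p)) (a p) (d p) := by
    intro a b c d ha hb hc hd
    refine (ContDiff.fderiv_apply (m := ∞) (n := 0) (f := fun p y => gam g y (b p) (c p))
      (g := a) (k := d) ?_ (ha.of_le (by simp)) (hd.of_le (by simp)) (by simp)).continuous
    exact hG.comp (contDiff_snd.prodMk ((hb.comp contDiff_fst).prodMk (hc.comp contDiff_fst)))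
  have p1 : ContDiff ℝ ∞ fun p : Space n × Space n × Space n × Space n => p.1 := contDiff_fst
  have p2 : ContDiff ℝ ∞ fun p : Space n × Space n × Space n × Space n => p.2.1 :=
    contDiff_fst.comp contDiff_snd
  have p3 : ContDiff ℝ ∞ fun p : Space n × Space n × Space n × Space n => p.2.2.1 :=
    contDiff_fst.comp (contDiff_snd.comp contDiff_snd)
  have p4 : ContDiff ℝ ∞ fun p : Space n × Space n × Space n × Space n => p.2.2.2 :=
    contDiff_snd.comp (contDiff_snd.comp contDiff_snd)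
  have g2 : ∀ {a b c : Space n × Space n × Space n × Space n → Space n}, ContDiff ℝ ∞ a →
      ContDiff ℝ ∞ b → ContDiff ℝ ∞ c → ContDiff ℝ ∞ fun p => gam g (a p) (b p) (c p) :=
    fun ha hb hc => hG.comp (ha.prodMk (hb.prodMk hc))
  exact (((h1 p1 p3 p4 p2).sub (h1 p1 p2 p4 p3)).add (g2 p1 p2 (g2 p1 p3 p4)).continuous).sub
    (g2 p1 p3 (g2 p1 p2 p4)).continuous

theorem indexForm_congr_near {n : ℕ} {G G' : MetricField n} {y : Space n} (h : G' =ᶠ[𝓝 y] G)
    (v W W' : Space n) : indexForm G' y v W W' = indexForm G y v W W' := by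
  simp only [indexForm, gam_congr h, riem_congr h, h.eq_of_nhds]

theorem flat_index (x v W W' : E3) : 0 ≤ indexForm flat x v W W' := by
  have hd : fderiv ℝ flat x = 0 := fderiv_const_apply _
  have hgam : ∀ y u w : E3, gam flat y u w = 0 := fun y u w => by
    simp [gam, sharp, chris, show fderiv ℝ flat y = 0 from fderiv_const_apply _]
  have hr : riem flat x W v v = 0 := by simp [riem, hgam]
  simp only [indexForm, hgam, hr, map_zero, zero_apply, add_zero, sub_zero]
  show 0 ≤ innerSL ℝ W' W'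
  rw [innerSL_apply_apply]
  exact real_inner_self_nonneg

theorem continuousAt_indexForm {n : ℕ} {G : MetricField n} (hG : IsMetric G)
    {c v w w' : ℝ → Space n} {t : ℝ} (hc : ContinuousAt c t) (hv : ContinuousAt v t)
    (hw : ContinuousAt w t) (hw' : ContinuousAt w' t) :
    ContinuousAt (fun s => indexForm G (c s) (v s) (w s) (w' s)) t := by
  have hD : ContinuousAt (fun s => w' s + gam G (c s) (v s) (w s)) t :=
    hw'.add ((contDiff_gam hG).continuous.continuousAt.comp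
      (f := fun s => (c s, v s, w s)) (hc.prodMk (hv.prodMk hw)))
  have hR : ContinuousAt (fun s => riem G (c s) (w s) (v s) (v s)) t :=
    (continuous_riem hG).continuousAt.comp
      (f := fun s => (c s, w s, v s, v s)) (hc.prodMk (hw.prodMk (hv.prodMk hv)))
  have hg : ContinuousAt (fun s => G (c s)) t :=
    hG.smooth.continuous.continuousAt.comp (f := c) hc
  exact ((hg.clm_apply hD).clm_apply hD).sub ((hg.clm_apply hR).clm_apply hw)

/-- Locally monotone functions are monotone. -/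
theorem monotone_of_locMono {E : ℝ → ℝ} (h : ∀ t, LocMono E t) : Monotone E := by
  intro a b hab
  set S := {s | s ∈ Icc a b ∧ E a ≤ E s}
  have hne : S.Nonempty := ⟨a, ⟨le_rfl, hab⟩, le_rfl⟩
  have hbd : BddAbove S := ⟨b, fun s hs => hs.1.2⟩
  set τ := sSup S
  have hτ : E a ≤ E τ := by
    obtain ⟨l, hl, hl'⟩ := mem_nhdsLT_iff_exists_Ioo_subset.1 (h τ).1
    obtain ⟨s, hs, hls⟩ := exists_lt_of_lt_csSup hne hl
    rcases (le_csSup hbd hs).lt_or_eq with h1 | h1
    · exact hs.2.trans (hl' ⟨hls, h1⟩)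
    · have h2 := hs.2; rwa [h1] at h2
  have ha : a ≤ τ := le_csSup hbd ⟨⟨le_rfl, hab⟩, le_rfl⟩
  rcases (csSup_le hne fun s hs => hs.1.2 : τ ≤ b).lt_or_eq with h1 | h1
  · obtain ⟨r, hr, hr'⟩ := mem_nhdsGT_iff_exists_Ioo_subset.1 (h τ).2
    have hr0 : τ < r := hr
    have hm : τ < min b ((τ + r) / 2) := lt_min h1 (by linarith)
    refine absurd (le_csSup hbd (⟨⟨ha.trans hm.le, min_le_left _ _⟩, hτ.trans (hr' ⟨hm, ?_⟩)⟩ :
      min b ((τ + r) / 2) ∈ S)) (not_le.2 hm)
    exact lt_of_le_of_lt (min_le_right _ _) (by linarith)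
  · exact h1 ▸ hτ

theorem mem_strip_translate {x ℓ : E3} (hx : x ∈ strip) (hℓ : ℓ 0 = 0) : x + ℓ ∈ strip := by
  simpa [strip, hℓ] using hx

variable {M : Type} [TopologicalSpace M] [ChartedSpace E3 M] [IsManifold (𝓡 3) ∞ M]
  {g : SmoothMetric M} {δ : ℝ}

theorem IsLift.mfderiv_velocity {N : E3 → M} {D : Set E3} {G : MetricField 3} {γ : ℝ → M}
    {t : ℝ} {c : ℝ → E3} (h : IsParam g N D G) (hc : IsLift γ N D t c) :
    (mfderiv 𝓘(ℝ) (𝓡 3) γ t (1 : ℝ) : E3) = mfderiv (𝓡 3) (𝓡 3) N (c t) (deriv c t) := by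
  have hd : HasDerivAt c (deriv c t) t :=
    (hc.smooth.self_of_nhds.differentiableAt (by simp)).hasDerivAt
  have hc' : HasMFDerivAt 𝓘(ℝ) (𝓡 3) c t
      ((1 : ℝ →L[ℝ] ℝ).smulRight (deriv c t)) := hd.hasFDerivAt.hasMFDerivAt
  have h2 := ((h.mdiff hc.mem.self_of_nhds.1).hasMFDerivAt).comp t hc'
  have h3 := h2.congr_of_eventuallyEq (f₁ := γ) (hc.mem.mono fun s hs => hs.2.symm)
  rw [h3.mfderiv]
  show (mfderiv (𝓡 3) (𝓡 3) N (c t)) (((1 : ℝ →L[ℝ] ℝ).smulRight (deriv c t)) (1 : ℝ)) = _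
  simp
  rfl

theorem inverse_apply' {L : E3 →L[ℝ] E3} (hL : Function.Bijective L) (v : E3) :
    L.inverse (L v) = v :=
  hL.1 (inverse_apply hL (L v))

variable (P : Pieces δ g)
include P

theorem Pieces.mfderiv_eq {x y : E3} (hx : x ∈ strip) (hy : y ∈ strip) (h : P.N x = P.N y) :
    (mfderiv (𝓡 3) (𝓡 3) P.N x : E3 →L[ℝ] E3) = mfderiv (𝓡 3) (𝓡 3) P.N y := by
  obtain ⟨h0, ⟨m, hm⟩, ⟨k, hk⟩⟩ := (P.neck.fibre x hx y hy).1 h
  set ℓ := y - x with hℓ
  have hl0 : ℓ 0 = 0 := by simp [hℓ, h0]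
  have hev : (fun z => P.N (z + ℓ)) =ᶠ[𝓝 x] P.N := by
    filter_upwards [P.neck.isOpen.mem_nhds hx] with z hz
    refine ((P.neck.fibre z hz _ (mem_strip_translate hz hl0)).2 ⟨?_, ⟨m, ?_⟩, ⟨k, ?_⟩⟩).symm
    · simp [hl0]
    · simp [hℓ, hm]
    · simp [hℓ, hk]
  have htr : HasMFDerivAt (𝓡 3) (𝓡 3) (fun z : E3 => z + ℓ) x (ContinuousLinearMap.id ℝ E3) :=
    ((hasFDerivAt_id x).add_const ℓ).hasMFDerivAt
  have hxy : x + ℓ = y := by simp [hℓ]
  have h2 := ((P.neck.isParam.mdiff (mem_strip_translate hx hl0)).hasMFDerivAt).comp x htr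
  have h3 := h2.congr_of_eventuallyEq (f₁ := P.N) hev.symm
  rw [h3.mfderiv, ← hxy]
  rfl

open Classical in
/-- The boundary form on the manifold. -/
def Pieces.bform (γ : ℝ → M) (t : ℝ) (W : TangentSpace (𝓡 3) (γ t)) : ℝ :=
  if h : ∃ x, x ∈ strip ∧ |x 0| < 1 ∧ P.N x = γ t then
    let L : E3 →L[ℝ] E3 := mfderiv (𝓡 3) (𝓡 3) P.N h.choose
    Bneck δ h.choose (L.inverse (mfderiv 𝓘(ℝ) (𝓡 3) γ t (1 : ℝ))) (L.inverse W)
  else 0

theorem Pieces.bform_zero (γ : ℝ → M) (t : ℝ) : P.bform γ t 0 = 0 := by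
  unfold Pieces.bform
  split_ifs
  · exact (congrArg _ (map_zero _)).trans (Bneck_zero _ _)
  · rfl

theorem Pieces.bform_outside {γ : ℝ → M} {t : ℝ}
    (h : γ t ∈ P.V '' block (rhoV 2) ∨ γ t ∈ P.W '' block (rhoW δ (-2)))
    (W : TangentSpace (𝓡 3) (γ t)) : P.bform γ t W = 0 := by
  unfold Pieces.bform
  rw [dif_neg]
  rintro ⟨x, hx, hx1, hN⟩
  obtain ⟨a, b⟩ := P.core x hx (by linarith)
  rcases h with h | h
  · exact a (hN ▸ h)
  · exact b (hN ▸ h)

theorem Bneck_congr (h0 : 0 < δ) (h1 : δ ≤ 1) {x y : E3} (h : x 0 = y 0) (v W : E3) :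
    Bneck δ x v W = Bneck δ y v W := by
  have e : spd δ x v = spd δ y v := by simp [spd, h]
  have hH : Hump δ x v ↔ Hump δ y v := by simp only [Hump, h, e]
  by_cases hh : Hump δ y v
  · simp only [Bneck, Bcore, turnQ, monoQ, bdry_neck h0 h1, h, if_pos hh, if_pos (hH.2 hh)]
  · simp only [Bneck, Bcore, turnQ, monoQ, bdry_neck h0 h1, h, if_neg hh, if_neg (mt hH.1 hh)]

theorem Pieces.bform_lift (h0 : 0 < δ) (h1 : δ ≤ 1) {γ : ℝ → M} {t : ℝ} {c : ℝ → E3}
    (hc : IsLift γ P.N strip t c) (J : ∀ s, TangentSpace (𝓡 3) (γ s)) :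
    P.bform γ t (J t) = Bneck δ (c t) (deriv c t) (coordField P.N c J t) := by
  obtain ⟨hy, hN⟩ := hc.mem.self_of_nhds
  unfold Pieces.bform
  by_cases h : ∃ x, x ∈ strip ∧ |x 0| < 1 ∧ P.N x = γ t
  · rw [dif_pos h]
    obtain ⟨hx, -, hxN⟩ := h.choose_spec
    have he := (P.neck.fibre _ hx _ hy).1 (hxN.trans hN.symm)
    simp only [P.mfderiv_eq hx hy (hxN.trans hN.symm)]
    rw [Bneck_congr P h0 h1 he.1.symm, hc.mfderiv_velocity P.neck.isParam]
    exact congrArg (fun v => Bneck δ (c t) v (coordField P.N c J t))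
      (inverse_apply' (L := (mfderiv (𝓡 3) (𝓡 3) P.N (c t) : E3 →L[ℝ] E3)) (P.neck.bij _ hy) _)
  · rw [dif_neg h]
    rw [Bneck, if_neg]
    exact fun h' => h ⟨c t, hy, h', hN⟩

omit P in
theorem continuous_indexAt_global {γ : ℝ → M} (hγ : IsGeodesic g γ)
    {J : ∀ s, TangentSpace (𝓡 3) (γ s)} (hJ : FieldC1 γ J) : Continuous (indexAt g γ J) := by
  refine continuous_iff_continuousAt.2 fun t => ?_
  have hp := isParam_chart g (γ t)
  set q := extChartAt (𝓡 3) (γ t) with hq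
  have hm : γ t ∈ q.source := mem_extChartAt_source (γ t)
  obtain ⟨c, hct, hc⟩ := hp.exists_lift hγ.1 (q.map_source hm) (q.left_inv hm)
  obtain ⟨G, hG, hGe⟩ := (hp.metricNear hc.mem.self_of_nhds.1).extend
  set w := coordField q.symm c J
  have hct2 : ContDiffAt ℝ ∞ c t := hc.smooth.self_of_nhds
  have hw : ContDiffAt ℝ 1 w t := hc.contDiffAt_coordField hp J (hJ t)
  have he : indexAt g γ J =ᶠ[𝓝 t] fun s => indexForm G (c s) (deriv c s) (w s) (deriv w s) := by
    filter_upwards [hc.eventually, hct2.continuousAt.eventually hGe.eventuallyEq_nhds] with s hs hs'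
    rw [hs.indexAt_eq hp J (hJ s), indexForm_congr_near hs']
  refine ContinuousAt.congr ?_ he.symm
  have hcs := hct2.continuousAt
  have hv : ContinuousAt (deriv c) t :=
    (((hct2.fderiv_right (m := ∞) (by simp)).clm_apply contDiffAt_const).continuousAt)
  have hw' : ContinuousAt (deriv w) t :=
    (((hw.fderiv_right (m := 0) le_rfl).clm_apply contDiffAt_const).continuousAt)
  exact continuousAt_indexForm hG hcs hv hw.continuousAt hw'

theorem Pieces.locMono_block {γ : ℝ → M} (hγ : IsGeodesic g γ)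
    {J : ∀ s, TangentSpace (𝓡 3) (γ s)} (hJ : FieldC1 γ J) {U : E3 → M} {D : Set E3}
    (hU : IsParam g U D flat) {Λ : ℝ → ℝ} (hΛ : ∀ s, HasDerivAt Λ (indexAt g γ J s) s) {t : ℝ}
    (hB : ∀ s, γ s ∈ U '' D → P.bform γ s (J s) = 0) (ht : γ t ∈ U '' D) :
    LocMono (fun s => Λ s + P.bform γ s (J s)) t := by
  obtain ⟨y, hy, hN⟩ := ht
  obtain ⟨c, -, hc⟩ := hU.exists_lift hγ.1 hy hN
  refine locMono_of_deriv (f := Λ) ?_
  filter_upwards [hc.eventually, hc.mem] with s hs hs'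
  refine ⟨by rw [hB s ⟨c s, hs'⟩, add_zero], _, hΛ s, ?_⟩
  rw [hs.indexAt_eq hU J (hJ s)]
  exact flat_index _ _ _ _

theorem Pieces.monotone_bform (ht : Tame δ) {γ : ℝ → M} (hγ : IsGeodesic g γ)
    {J : ∀ s, TangentSpace (𝓡 3) (γ s)} (hJ : FieldC1 γ J) :
    Monotone fun t => (∫ s in (0 : ℝ)..t, indexAt g γ J s) + P.bform γ t (J t) := by
  have hcont := continuous_indexAt_global hγ hJ
  have hΛ : ∀ s, HasDerivAt (fun t => ∫ s in (0 : ℝ)..t, indexAt g γ J s) (indexAt g γ J s) s :=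
    fun s => (hcont.integral_hasStrictDerivAt 0 s).hasDerivAt
  refine monotone_of_locMono fun t => ?_
  by_cases h : ∃ x ∈ strip, P.N x = γ t
  · obtain ⟨x, hx, hN⟩ := h
    obtain ⟨c, -, hc⟩ := P.neck.isParam.exists_lift hγ.1 hx hN
    set w := coordField P.N c J
    have hev := hc.eventually
    have D : NeckData δ c w (fun t => ∫ s in (0 : ℝ)..t, indexAt g γ J s) t := by
      refine ⟨?_, ?_, ?_⟩
      · filter_upwards [hev] with s hs
        exact ⟨(hs.smooth.self_of_nhds.differentiableAt (by simp)).hasDerivAt,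
          hs.geodesic_eq P.neck.isParam hγ⟩
      · filter_upwards [hev] with s hs
        exact ((hs.contDiffAt_coordField P.neck.isParam J (hJ s)).differentiableAt
          one_ne_zero).hasDerivAt
      · filter_upwards [hev] with s hs
        exact (hΛ s).congr_deriv (hs.indexAt_eq P.neck.isParam J (hJ s))
    obtain ⟨hl, hr⟩ := D.locMono ht
    have he : ∀ᶠ s in 𝓝 t, P.bform γ s (J s) = Bneck δ (c s) (deriv c s) (w s) :=
      hev.mono fun s hs => P.bform_lift ht.pos ht.le_one hs J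
    refine ⟨?_, ?_⟩
    · filter_upwards [hl, he.filter_mono nhdsWithin_le_nhds] with s a b
      rw [b, he.self_of_nhds]; exact a
    · filter_upwards [hr, he.filter_mono nhdsWithin_le_nhds] with s a b
      rw [b, he.self_of_nhds]; exact a
  · rcases P.cover (γ t) with ⟨x, hx, -, hN⟩ | hV | hW
    · exact absurd ⟨x, hx, hN⟩ h
    · exact P.locMono_block hγ hJ P.first.isParam hΛ (fun s hs => P.bform_outside (.inl hs) _) hV
    · exact P.locMono_block hγ hJ P.second.isParam hΛ (fun s hs => P.bform_outside (.inr hs) _) hW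

end

end Vale.Agent.P255
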