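import Vale.Agent.P255.Profile
import Vale.Agent.P255.Variation

/-!
# The metric of the neck in coordinates
-/

open scoped ContDiff Real Topology

set_option maxSynthPendingDepth 3

namespace Vale.Agent.P255

open Vale.Agent.P219 Vale.Agent.P219.Univ Vale.Agent.P219.Univ.Alg

noncomputable section

/-- The squared length of the first circle. -/
def G₁ (δ T : ℝ) : ℝ := phi₁ δ T ^ 2

/-- The squared length of the second circle. -/
def G₂ (T : ℝ) : ℝ := phi₂ T ^ 2

/-- The twisted first component. -/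
def sh (δ T : ℝ) (u : E3) : ℝ := u 1 + twist δ T * u 2

/-- The metric on the tori of the neck. -/
def blk (δ T : ℝ) (u v : E3) : ℝ := G₁ δ T * sh δ T u * sh δ T v + G₂ T * u 2 * v 2

/-- The derivative of `blk` in `T`. -/
def blkD (δ T : ℝ) (u v : E3) : ℝ :=
  deriv (G₁ δ) T * sh δ T u * sh δ T v +
    G₁ δ T * deriv (twist δ) T * (u 2 * sh δ T v + sh δ T u * v 2) + deriv G₂ T * u 2 * v 2

/-- The second derivative of `blk` in `T`. -/
def blkD2 (δ T : ℝ) (u v : E3) : ℝ :=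
  deriv (deriv (G₁ δ)) T * sh δ T u * sh δ T v +
    (2 * deriv (G₁ δ) T * deriv (twist δ) T + G₁ δ T * deriv (deriv (twist δ)) T) *
      (u 2 * sh δ T v + sh δ T u * v 2) +
    2 * G₁ δ T * deriv (twist δ) T ^ 2 * (u 2 * v 2) + deriv (deriv G₂) T * u 2 * v 2

theorem contDiff_G₁ (δ : ℝ) : ContDiff ℝ ∞ (G₁ δ) := (contDiff_phi₁ δ).pow 2

theorem contDiff_G₂ : ContDiff ℝ ∞ G₂ := contDiff_phi₂.pow 2

theorem G₁_pos {δ : ℝ} (h0 : 0 < δ) (h1 : δ ≤ 1) (T : ℝ) : 0 < G₁ δ T :=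
  pow_pos (phi₁_pos h0 h1 T) 2

theorem G₂_pos (T : ℝ) : 0 < G₂ T := pow_pos (phi₂_pos T) 2

theorem hasDerivAt_deriv {f : ℝ → ℝ} (hf : ContDiff ℝ ∞ f) (T : ℝ) :
    HasDerivAt f (deriv f T) T :=
  (hf.differentiable (by simp) T).hasDerivAt

theorem contDiff_deriv {f : ℝ → ℝ} (hf : ContDiff ℝ ∞ f) : ContDiff ℝ ∞ (deriv f) :=
  (contDiff_infty_iff_deriv.1 hf).2

variable {δ : ℝ}

theorem hasDerivAt_sh (T : ℝ) (u : E3) :
    HasDerivAt (fun T => sh δ T u) (deriv (twist δ) T * u 2) T :=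
  ((hasDerivAt_deriv (contDiff_twist δ) T).mul_const (u 2)).const_add (u 1)

theorem hasDerivAt_blk (T : ℝ) (u v : E3) :
    HasDerivAt (fun T => blk δ T u v) (blkD δ T u v) T := by
  have h := (((hasDerivAt_deriv (contDiff_G₁ δ) T).mul (hasDerivAt_sh (δ := δ) T u)).mul
    (hasDerivAt_sh (δ := δ) T v)).add (((hasDerivAt_deriv contDiff_G₂ T).mul_const (u 2)).mul_const (v 2))
  refine h.congr_deriv ?_
  simp only [blkD, Pi.mul_apply]
  ring

theorem hasDerivAt_blkD (T : ℝ) (u v : E3) :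
    HasDerivAt (fun T => blkD δ T u v) (blkD2 δ T u v) T := by
  have hG := hasDerivAt_deriv (contDiff_G₁ δ) T
  have hG' := hasDerivAt_deriv (contDiff_deriv (contDiff_G₁ δ)) T
  have hs' := hasDerivAt_deriv (contDiff_deriv (contDiff_twist δ)) T
  have h2' := hasDerivAt_deriv (contDiff_deriv contDiff_G₂) T
  have hu := hasDerivAt_sh (δ := δ) T u
  have hv := hasDerivAt_sh (δ := δ) T v
  have h := (((hG'.mul hu).mul hv).add ((hG.mul hs').mul
    ((hv.const_mul (u 2)).add (hu.mul_const (v 2))))).add ((h2'.mul_const (u 2)).mul_const (v 2))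
  refine h.congr_deriv ?_
  simp only [blkD2, Pi.mul_apply, Pi.add_apply]
  ring

theorem blk_symm (T : ℝ) (u v : E3) : blk δ T u v = blk δ T v u := by
  simp only [blk]; ring

theorem blkD_symm (T : ℝ) (u v : E3) : blkD δ T u v = blkD δ T v u := by
  simp only [blkD]; ring

/-- The vector representing `blkD` with respect to `blk`. -/
def qv (δ T : ℝ) (u : E3) : E3 :=
  let q₂ := (deriv G₂ T * u 2 + G₁ δ T * deriv (twist δ) T * sh δ T u) / G₂ T
  pt 0 (deriv (G₁ δ) T / G₁ δ T * sh δ T u + deriv (twist δ) T * u 2 - twist δ T * q₂) q₂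

theorem blk_qv (h0 : 0 < δ) (h1 : δ ≤ 1) (T : ℝ) (u v : E3) :
    blk δ T (qv δ T u) v = blkD δ T u v := by
  have := (G₁_pos h0 h1 T).ne'
  have := (G₂_pos T).ne'
  simp [blk, blkD, sh, qv, pt]
  field_simp
  ring

theorem sh_pt (T a b c : ℝ) : sh δ T (pt a b c) = b + twist δ T * c := by simp [sh, pt]

theorem blk_nondeg (h0 : 0 < δ) (h1 : δ ≤ 1) {T : ℝ} {u : E3} (h : ∀ z, blk δ T u z = 0) :
    u 1 = 0 ∧ u 2 = 0 := by
  have ha := h (pt 0 1 0)
  have hb := h (pt 0 (-twist δ T) 1)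
  simp [blk, sh_pt] at ha hb
  simp [pt, (G₁_pos h0 h1 T).ne', (G₂_pos T).ne'] at ha hb
  refine ⟨?_, hb⟩
  simpa [sh, hb] using ha

theorem blk_nonneg (h0 : 0 < δ) (h1 : δ ≤ 1) (T : ℝ) (u : E3) : 0 ≤ blk δ T u u := by
  have := G₁_pos h0 h1 T
  have := G₂_pos T
  have e : blk δ T u u = G₁ δ T * sh δ T u ^ 2 + G₂ T * u 2 ^ 2 := by simp only [blk]; ring
  rw [e]; positivity

theorem neckMetric_apply (δ : ℝ) (x u v : E3) :
    neckMetric δ x u v = u 0 * v 0 + blk δ (x 0) u v := by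
  simp [neckMetric, outer, co, blk, sh, G₁, G₂]
  ring

theorem contDiff_outer {f g : E3 → E3 →L[ℝ] ℝ} (hf : ContDiff ℝ ∞ f) (hg : ContDiff ℝ ∞ g) :
    ContDiff ℝ ∞ fun x => outer (f x) (g x) :=
  hf.smulRight hg

theorem contDiff_neckMetric (δ : ℝ) : ContDiff ℝ ∞ (neckMetric δ) := by
  have h0 : ContDiff ℝ ∞ fun x : E3 => x 0 := (co 0).contDiff
  have hs : ContDiff ℝ ∞ fun x : E3 => co 1 + twist δ (x 0) • co 2 :=
    contDiff_const.add (((contDiff_twist δ).comp h0).smul contDiff_const)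
  exact (contDiff_const.add ((((contDiff_phi₁ δ).comp h0).pow 2).smul (contDiff_outer hs hs))).add
    (((contDiff_phi₂.comp h0).pow 2).smul contDiff_const)

theorem isMetric_neck (h0 : 0 < δ) (h1 : δ ≤ 1) : IsMetric (neckMetric δ) where
  smooth := contDiff_neckMetric δ
  symm x u v := by simp only [neckMetric_apply, blk]; ring
  pos x u hu := by
    rw [neckMetric_apply]
    rcases ne_or_eq (u 0) 0 with h | h
    · linarith [mul_self_pos.2 h, blk_nonneg h0 h1 (x 0) u]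
    · have e : blk δ (x 0) u u = G₁ δ (x 0) * sh δ (x 0) u ^ 2 + G₂ (x 0) * u 2 ^ 2 := by
        simp only [blk]; ring
      have ha := G₁_pos h0 h1 (x 0)
      have hb := G₂_pos (x 0)
      rcases ne_or_eq (u 2) 0 with h2 | h2
      · have : 0 < G₂ (x 0) * u 2 ^ 2 := by positivity
        rw [e, h]; nlinarith [mul_nonneg ha.le (sq_nonneg (sh δ (x 0) u))]
      · have h3 : u 1 ≠ 0 := fun h3 => hu (by ext i; fin_cases i <;> simp [h, h2, h3])
        have : sh δ (x 0) u = u 1 := by simp [sh, h2]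
        have : 0 < G₁ δ (x 0) * u 1 ^ 2 := by positivity
        simp_all

theorem hasDerivAt_neck_line (x w u v : E3) :
    HasDerivAt (fun s : ℝ => neckMetric δ (x + s • w) u v) (w 0 * blkD δ (x 0) u v) 0 := by
  have hl : HasDerivAt (fun s : ℝ => x 0 + s * w 0) (w 0) 0 := by
    simpa using ((hasDerivAt_id (0 : ℝ)).mul_const (w 0)).const_add (x 0)
  have h := ((hasDerivAt_blk (δ := δ) (x 0) u v).comp_of_eq 0 hl (by simp)).const_add (u 0 * v 0)
  refine (h.congr_of_eventuallyEq (.of_forall fun s => ?_)).congr_deriv (mul_comm _ _)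
  simp [neckMetric_apply]

theorem fderiv_neck (h0 : 0 < δ) (h1 : δ ≤ 1) (x w u v : E3) :
    fderiv ℝ (neckMetric δ) x w u v = w 0 * blkD δ (x 0) u v := by
  have hg := isMetric_neck h0 h1
  have hline : HasDerivAt (fun t : ℝ => x + t • w) w 0 := by
    simpa using ((hasDerivAt_id (0 : ℝ)).smul_const w).const_add x
  have h2 : HasDerivAt (fun t : ℝ => neckMetric δ (x + t • w) u v)
      (fderiv ℝ (neckMetric δ) x w u v) 0 := by
    have h := (((hg.smooth.differentiable (by simp)) x).hasFDerivAt.comp_hasDerivAt_of_eq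
      (0 : ℝ) hline (by simp))
    simpa using (h.clm_apply (hasDerivAt_const 0 u)).clm_apply (hasDerivAt_const 0 v)
  exact h2.unique (hasDerivAt_neck_line x w u v)

theorem fderiv2_neck (h0 : 0 < δ) (h1 : δ ≤ 1) (x a b u v : E3) :
    fderiv ℝ (fderiv ℝ (neckMetric δ)) x a b u v = a 0 * b 0 * blkD2 δ (x 0) u v := by
  have hg := isMetric_neck h0 h1
  have hline : HasDerivAt (fun t : ℝ => x + t • a) a 0 := by
    simpa using ((hasDerivAt_id (0 : ℝ)).smul_const a).const_add x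
  have hd : DifferentiableAt ℝ (fun y => fderiv ℝ (neckMetric δ) y b u v) x :=
    (((hg.smooth.fderiv_right (m := ∞) le_rfl).differentiable (by simp) x).clm_apply
      (differentiableAt_const b)).clm_apply (differentiableAt_const u) |>.clm_apply
        (differentiableAt_const v)
  rw [← d2g_apply hg]
  have h2 : HasDerivAt (fun t : ℝ => fderiv ℝ (neckMetric δ) (x + t • a) b u v)
      (fderiv ℝ (fun y => fderiv ℝ (neckMetric δ) y b u v) x a) 0 :=
    HasFDerivAt.comp_hasDerivAt_of_eq (l := fun y => fderiv ℝ (neckMetric δ) y b u v) (0 : ℝ)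
      hd.hasFDerivAt hline (by simp)
  have hl : HasDerivAt (fun s : ℝ => x 0 + s * a 0) (a 0) 0 := by
    simpa using ((hasDerivAt_id (0 : ℝ)).mul_const (a 0)).const_add (x 0)
  have h3 := ((hasDerivAt_blkD (δ := δ) (x 0) u v).comp_of_eq 0 hl (by simp)).const_mul (b 0)
  refine h2.unique ((h3.congr_of_eventuallyEq (.of_forall fun s => ?_)).congr_deriv (by ring))
  simp [fderiv_neck h0 h1]

theorem energy_neck (h0 : 0 < δ) (h1 : δ ≤ 1) (x v W W' : E3) :
    energyForm (neckMetric δ) x v W W' = W' 0 ^ 2 + blk δ (x 0) W' W' +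
      2 * W 0 * blkD δ (x 0) W' v + 1 / 2 * W 0 ^ 2 * blkD2 δ (x 0) v v := by
  simp only [energyForm, neckMetric_apply, fderiv_neck h0 h1, fderiv2_neck h0 h1]
  ring

theorem bdry_neck (h0 : 0 < δ) (h1 : δ ≤ 1) (x v W : E3) :
    bdryForm (neckMetric δ) x v W =
      W 0 * blkD δ (x 0) W v - 1 / 2 * v 0 * blkD δ (x 0) W W := by
  simp only [bdryForm_eq (isMetric_neck h0 h1), fderiv_neck h0 h1]
  ring

theorem gam_neck (h0 : 0 < δ) (h1 : δ ≤ 1) (x a b z : E3) :
    neckMetric δ x (gam (neckMetric δ) x a b) z = 1 / 2 *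
      (a 0 * blkD δ (x 0) b z + b 0 * blkD δ (x 0) a z - z 0 * blkD δ (x 0) a b) := by
  rw [gam, map_smul, smul_apply, smul_eq_mul, g_sharp (isMetric_neck h0 h1), chris_apply]
  simp only [fderiv_neck h0 h1]

/-- The acceleration of a geodesic of the neck. -/
theorem acc_neck (h0 : 0 < δ) (h1 : δ ≤ 1) (x v : E3) :
    (-gam (neckMetric δ) x v v) 0 = 1 / 2 * blkD δ (x 0) v v ∧
      (-gam (neckMetric δ) x v v) 1 = -(v 0 * qv δ (x 0) v 1) ∧
      (-gam (neckMetric δ) x v v) 2 = -(v 0 * qv δ (x 0) v 2) := by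
  set a := gam (neckMetric δ) x v v with ha
  have key : ∀ z, a 0 * z 0 + blk δ (x 0) a z =
      v 0 * blkD δ (x 0) v z - 1 / 2 * z 0 * blkD δ (x 0) v v := fun z => by
    have := gam_neck h0 h1 x v v z
    rw [neckMetric_apply, ← ha] at this
    linarith
  have k0 : a 0 = -(1 / 2 * blkD δ (x 0) v v) := by
    have := key (pt 1 0 0)
    simp [blk, blkD, sh, pt] at this ⊢
    linarith
  have hn := blk_nondeg h0 h1 (u := a - v 0 • qv δ (x 0) v) (T := x 0) fun z => by
    have h3 := key z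
    have h5 := blk_qv h0 h1 (x 0) v z
    have e : blk δ (x 0) (a - v 0 • qv δ (x 0) v) z =
        blk δ (x 0) a z - v 0 * blk δ (x 0) (qv δ (x 0) v) z := by
      simp [blk, sh]; ring
    rw [e, h5]
    rw [k0] at h3
    linarith
  refine ⟨?_, ?_, ?_⟩
  · simp only [PiLp.neg_apply, k0]
    ring
  · have := hn.1; simp at this ⊢; linarith
  · have := hn.2; simp at this ⊢; linarith

theorem qv_zero (T : ℝ) (u : E3) : qv δ T u 0 = 0 := by simp [qv, pt]

/-- The radial second derivative of the potential of a geodesic. -/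
def phiK (δ T : ℝ) (η : E3) : ℝ := 1 / 2 * blkD2 δ T η η - blk δ T (qv δ T η) (qv δ T η)

/-- The completed form of the coordinate integrand. -/
theorem energy_square (h0 : 0 < δ) (h1 : δ ≤ 1) (x v W W' : E3) :
    energyForm (neckMetric δ) x v W W' = W' 0 ^ 2 +
      blk δ (x 0) (W' + W 0 • qv δ (x 0) v) (W' + W 0 • qv δ (x 0) v) +
      phiK δ (x 0) v * W 0 ^ 2 := by
  rw [energy_neck h0 h1, blkD_symm, ← blk_qv h0 h1]
  simp only [phiK, blk, sh, PiLp.add_apply, PiLp.smul_apply, smul_eq_mul]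
  ring

/-- The connection of the neck. -/
theorem gam_neck_eq (h0 : 0 < δ) (h1 : δ ≤ 1) (x a b : E3) :
    gam (neckMetric δ) x a b = (-(1 / 2) * blkD δ (x 0) a b) • pt 1 0 0 +
      (1 / 2 * a 0) • qv δ (x 0) b + (1 / 2 * b 0) • qv δ (x 0) a := by
  set r := (-(1 / 2) * blkD δ (x 0) a b) • pt 1 0 0 +
      (1 / 2 * a 0) • qv δ (x 0) b + (1 / 2 * b 0) • qv δ (x 0) a with hr
  have key : ∀ z, neckMetric δ x (gam (neckMetric δ) x a b - r) z = 0 := fun z => by
    rw [map_sub, sub_apply, gam_neck h0 h1, neckMetric_apply, ← blk_qv h0 h1 _ b z,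
      ← blk_qv h0 h1 _ a z, hr]
    simp [blk, sh, qv_zero, pt]
    ring
  by_contra h
  exact ((isMetric_neck h0 h1).pos x _ (sub_ne_zero.2 h)).ne' (key _)

theorem deriv_zero_Ici {f : ℝ → ℝ} (hf : ContDiff ℝ ∞ f) {c R : ℝ} (h0 : ∀ T, R ≤ T → f T = c)
    {T : ℝ} (h : R ≤ T) : deriv f T = 0 := by
  have h1 : HasDerivWithinAt f 0 (Set.Ici T) T :=
    (hasDerivWithinAt_const T _ c).congr (fun s hs => h0 s (le_trans h hs)) (h0 T h)
  exact (uniqueDiffWithinAt_Ici T).eq_deriv _ (hasDerivAt_deriv hf T).hasDerivWithinAt h1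

theorem deriv_zero_Iic {f : ℝ → ℝ} (hf : ContDiff ℝ ∞ f) {c R : ℝ} (h0 : ∀ T, T ≤ R → f T = c)
    {T : ℝ} (h : T ≤ R) : deriv f T = 0 := by
  have h1 : HasDerivWithinAt f 0 (Set.Iic T) T :=
    (hasDerivWithinAt_const T _ c).congr (fun s hs => h0 s (le_trans hs h)) (h0 T h)
  exact (uniqueDiffWithinAt_Iic T).eq_deriv _ (hasDerivAt_deriv hf T).hasDerivWithinAt h1

/-- The constants of the neck on the side `1 ≤ T`. -/
theorem right_side (δ : ℝ) {T : ℝ} (h : 1 ≤ T) :
    deriv (G₁ δ) T = 0 ∧ deriv (deriv (G₁ δ)) T = 0 ∧ deriv (twist δ) T = 0 ∧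
      deriv (deriv (twist δ)) T = 0 := by
  have a : ∀ S, (1 : ℝ) ≤ S → G₁ δ S = 1 := fun S hS => by simp [G₁, phi₁_right hS]
  have b : ∀ S, (1 : ℝ) ≤ S → twist δ S = δ := fun S hS => twist_right (by linarith)
  have a' := fun S hS => deriv_zero_Ici (contDiff_G₁ δ) a (T := S) hS
  have b' := fun S hS => deriv_zero_Ici (contDiff_twist δ) b (T := S) hS
  exact ⟨a' T h, deriv_zero_Ici (contDiff_deriv (contDiff_G₁ δ)) a' h, b' T h,
    deriv_zero_Ici (contDiff_deriv (contDiff_twist δ)) b' h⟩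

/-- The constants of the neck on the side `T ≤ -1`. -/
theorem left_side (δ : ℝ) {T : ℝ} (h : T ≤ -1) :
    deriv G₂ T = 0 ∧ deriv (deriv G₂) T = 0 ∧ twist δ T = 0 ∧ deriv (twist δ) T = 0 ∧
      deriv (deriv (twist δ)) T = 0 := by
  have a : ∀ S, S ≤ (-1 : ℝ) → G₂ S = 1 := fun S hS => by simp [G₂, phi₂_left hS]
  have b : ∀ S, S ≤ (-1 : ℝ) → twist δ S = 0 := fun S hS => twist_left (by linarith)
  have a' := fun S hS => deriv_zero_Iic contDiff_G₂ a (T := S) hS
  have b' := fun S hS => deriv_zero_Iic (contDiff_twist δ) b (T := S) hS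
  exact ⟨a' T h, deriv_zero_Iic (contDiff_deriv contDiff_G₂) a' h, b T h, b' T h,
    deriv_zero_Iic (contDiff_deriv (contDiff_twist δ)) b' h⟩

theorem deriv_sq {φ φ' : ℝ → ℝ} (h : ∀ T, HasDerivAt φ (φ' T) T) (h' : Differentiable ℝ φ')
    (T : ℝ) : deriv (fun S => φ S ^ 2) T = 2 * φ T * φ' T ∧
      deriv (deriv fun S => φ S ^ 2) T = 2 * φ' T ^ 2 + 2 * φ T * deriv φ' T := by
  have e : deriv (fun S => φ S ^ 2) = fun S => 2 * φ S * φ' S :=
    funext fun S => ((h S).pow 2).deriv.trans (by ring)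
  refine ⟨congrFun e T, ?_⟩
  rw [e]
  exact (((h T).const_mul 2).mul (h' T).hasDerivAt).deriv.trans (by ring)

/-- Convex flares have nonpositive curvature. -/
theorem flare_convex {c : ℝ} (hc : 1 ≤ c) (T : ℝ) :
    0 ≤ deriv (deriv fun S => flare c S ^ 2) T -
      deriv (fun S => flare c S ^ 2) T ^ 2 / (2 * flare c T ^ 2) := by
  obtain ⟨e1, e2⟩ := deriv_sq (hasDerivAt_flare c) ((contDiff_flareD c).differentiable (by simp)) T
  have h1 := flare_pos hc T
  have h2 := deriv_flareD_nonneg hc T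
  rw [e1, e2]
  have e3 : (2 * flare c T * flareD c T) ^ 2 / (2 * flare c T ^ 2) = 2 * flareD c T ^ 2 := by
    field_simp
  rw [e3]
  nlinarith [mul_nonneg h1.le h2]

theorem G₁_convex (h0 : 0 < δ) (h1 : δ ≤ 1) (T : ℝ) :
    0 ≤ deriv (deriv (G₁ δ)) T - deriv (G₁ δ) T ^ 2 / (2 * G₁ δ T) := by
  set f : ℝ → ℝ := fun S => flare (2 * π / δ) S ^ 2
  have hf : ContDiff ℝ ∞ f := (contDiff_flare _).pow 2
  have e : G₁ δ = fun S => f (-S) := rfl
  have e1 : deriv (G₁ δ) = fun S => -deriv f (-S) := by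
    rw [e]; exact funext fun S => deriv_comp_neg f S
  have e2 : deriv (deriv (G₁ δ)) T = deriv (deriv f) (-T) := by
    rw [e1, deriv.fun_neg, deriv_comp_neg]; simp
  rw [e2, e1]
  have := flare_convex (slope_le h0 h1) (-T)
  simpa [G₁, phi₁, f] using this

/-- The sectional curvature is nonpositive outside the core of the neck. -/
theorem neck_sec (h0 : 0 < δ) (h1 : δ ≤ 1) {x : E3} (hx : 1 ≤ |x 0|) (w z : E3) :
    neckMetric δ x (riem (neckMetric δ) x w z z) w ≤ 0 := by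
  set T := x 0 with hT
  have hs := sec_formula (isMetric_neck h0 h1) x w z
  simp only [fderiv2_neck h0 h1, neckMetric_apply, gam_neck_eq h0 h1, ← hT] at hs
  set u := w 0 • z - z 0 • w with hu
  have expand : neckMetric δ x (riem (neckMetric δ) x w z z) w =
      -(1 / 2) * (blkD2 δ T u u - 1 / 2 * blk δ T (qv δ T u) (qv δ T u)) +
        1 / 4 * (blkD δ T w z ^ 2 - blkD δ T w w * blkD δ T z z) := by
    rw [neckMetric_apply, ← hT, hs, hu]
    simp [blk, blkD2, sh, qv, pt]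
    ring
  rw [expand]
  rcases le_abs.1 hx with h | h
  · obtain ⟨a, a', b, b'⟩ := right_side δ h
    have hc := flare_convex one_le_two_pi T
    have e : blk δ T (qv δ T u) (qv δ T u) = deriv G₂ T ^ 2 / G₂ T * u 2 ^ 2 := by
      simp [blk, sh, qv, pt, a, b]
      field_simp [(G₂_pos T).ne']
    have hc' : 0 ≤ deriv (deriv G₂) T - deriv G₂ T ^ 2 / (2 * G₂ T) := hc
    rw [e]
    simp only [blkD2, blkD, a, a', b, b']
    have := mul_nonneg hc' (sq_nonneg (u 2))
    ring_nf at this ⊢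
    linarith
  · obtain ⟨a, a', b, b', b''⟩ := left_side δ (le_neg.1 h)
    have hc := G₁_convex h0 h1 T
    have e : blk δ T (qv δ T u) (qv δ T u) = deriv (G₁ δ) T ^ 2 / G₁ δ T * u 1 ^ 2 := by
      simp [blk, sh, qv, pt, a, b, b']
      field_simp [(G₁_pos h0 h1 T).ne']
    rw [e]
    simp only [blkD2, blkD, sh, a, a', b, b', b'']
    have := mul_nonneg hc (sq_nonneg (u 1))
    ring_nf at this ⊢
    linarith

end

end Vale.Agent.P255
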