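import Vale.Agent.P255.Criterion
import Vale.Agent.P255.Global

/-!
# The glued metric has no conjugate points
-/

open scoped Manifold ContDiff

namespace Vale.Agent.P255

noncomputable section

variable {M : Type} [TopologicalSpace M] [ChartedSpace E3 M] [IsManifold (𝓡 3) ∞ M]

/-- A metric made of a tame neck and two flat blocks has no conjugate points. -/
theorem Pieces.noConjugatePoints {g : SmoothMetric M} {δ : ℝ} (P : Pieces δ g) (ht : Tame δ) :
    NoConjugatePoints g :=
  noConjugatePoints_of_monotone g fun γ hγ =>
    ⟨P.bform γ, P.bform_zero γ, fun _ hJ => P.monotone_bform ht hγ hJ⟩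

end

end Vale.Agent.P255
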