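import Vale.Agent.P255.Model

/-!
# The profiles of the neck
-/

open scoped ContDiff Real Topology

namespace Vale.Agent.P255

noncomputable section

theorem contDiff_prof : ContDiff ℝ ∞ prof :=
  expNegInvGlue.contDiff.comp ((contDiff_id.add contDiff_const).div_const 8)

theorem prof_nonneg (r : ℝ) : 0 ≤ prof r := expNegInvGlue.nonneg _

theorem prof_eq {r : ℝ} (h : -1 < r) : prof r = Real.exp (-(8 / (r + 1))) := by
  have h1 : ¬ ((r + 1) / 8 ≤ 0) := by linarith
  simp [prof, expNegInvGlue, h1, inv_div]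

theorem prof_zero {r : ℝ} (h : r ≤ -1) : prof r = 0 :=
  expNegInvGlue.zero_of_nonpos (by linarith)

theorem prof_pos {r : ℝ} (h : -1 < r) : 0 < prof r := by
  rw [prof_eq h]; exact Real.exp_pos _

theorem prof_lt_one (r : ℝ) : prof r < 1 := by
  rcases le_or_gt r (-1) with h | h
  · rw [prof_zero h]; exact one_pos
  · have : 0 < 8 / (r + 1) := div_pos (by norm_num) (by linarith)
    rw [prof_eq h, Real.exp_lt_one_iff]; linarith

theorem prof_le {r : ℝ} (h : r ≤ 2) : prof r ≤ 3 / 40 := by
  rcases le_or_gt r (-1) with h' | h'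
  · rw [prof_zero h']; norm_num
  · rw [prof_eq h']
    have h1 : (8 : ℝ) / 3 ≤ 8 / (r + 1) := by
      apply div_le_div_of_nonneg_left (by norm_num) (by linarith) (by linarith)
    calc Real.exp (-(8 / (r + 1))) ≤ Real.exp (-(8 / 3)) := Real.exp_le_exp.2 (by linarith)
      _ ≤ 3 / 40 := by
        rw [Real.exp_neg]
        have h2 := Real.sum_le_exp_of_nonneg (show (0 : ℝ) ≤ 8 / 3 by norm_num) 7
        norm_num [Finset.sum_range_succ, Nat.factorial] at h2
        rw [inv_le_comm₀ (Real.exp_pos _) (by norm_num)]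
        linarith

/-- The derivative of `prof`. -/
def profD (r : ℝ) : ℝ := prof r * (8 / (r + 1) ^ 2)

/-- The second derivative of `prof`. -/
def profD2 (r : ℝ) : ℝ := prof r * (64 / (r + 1) ^ 4 - 16 / (r + 1) ^ 3)

theorem profD_nonneg (r : ℝ) : 0 ≤ profD r := mul_nonneg (prof_nonneg r) (by positivity)

theorem deriv_zero_of_left {f : ℝ → ℝ} (hf : Differentiable ℝ f) (h0 : ∀ r ≤ -1, f r = 0) {r : ℝ}
    (h : r ≤ -1) : deriv f r = 0 := by
  have h1 : HasDerivWithinAt f 0 (Set.Iic r) r :=
    (hasDerivWithinAt_const r _ (0 : ℝ)).congr (fun s hs => h0 s (le_trans hs h)) (h0 r h)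
  exact (uniqueDiffWithinAt_Iic r).eq_deriv _ (hf r).hasDerivAt.hasDerivWithinAt h1

theorem hasDerivAt_prof (r : ℝ) : HasDerivAt prof (profD r) r := by
  rcases le_or_gt r (-1) with h | h
  · have hd : Differentiable ℝ prof := contDiff_prof.differentiable (by simp)
    have := (hd r).hasDerivAt
    rwa [deriv_zero_of_left hd (fun s hs => prof_zero hs) h, show (0 : ℝ) = profD r by
      simp [profD, prof_zero h]] at this
  · have hr : r + 1 ≠ 0 := by linarith
    have h1 : HasDerivAt (fun s => Real.exp (-(8 / (s + 1)))) (profD r) r := by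
      have := (((hasDerivAt_id r).add_const 1).inv hr).const_mul (-8 : ℝ) |>.exp
      refine (this.congr_of_eventuallyEq (Filter.Eventually.of_forall fun s => ?_)).congr_deriv ?_
      · simp only [id_eq, Pi.inv_apply]; congr 1; ring
      · simp only [profD, prof_eq h, id_eq, Pi.inv_apply]
        rw [show -8 * (r + 1)⁻¹ = -(8 / (r + 1)) by ring]
        field_simp
    refine h1.congr_of_eventuallyEq ?_
    filter_upwards [eventually_gt_nhds h] with s hs
    exact prof_eq hs

theorem deriv_prof : deriv prof = profD := funext fun r => (hasDerivAt_prof r).deriv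

theorem contDiff_profD : ContDiff ℝ ∞ profD := deriv_prof ▸ (contDiff_infty_iff_deriv.1 contDiff_prof).2

theorem hasDerivAt_profD (r : ℝ) : HasDerivAt profD (profD2 r) r := by
  rcases le_or_gt r (-1) with h | h
  · have hd : Differentiable ℝ profD := contDiff_profD.differentiable (by simp)
    have := (hd r).hasDerivAt
    rwa [deriv_zero_of_left hd (fun s hs => by simp [profD, prof_zero hs]) h,
      show (0 : ℝ) = profD2 r by simp [profD2, prof_zero h]] at this
  · have hr : r + 1 ≠ 0 := by linarith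
    have h1 := (hasDerivAt_prof r).mul
      ((hasDerivAt_const r (8 : ℝ)).div (((hasDerivAt_id r).add_const 1).pow 2) (pow_ne_zero 2 hr))
    refine h1.congr_deriv ?_
    simp only [profD, profD2, id_eq, Pi.div_apply, Pi.pow_apply]
    field_simp
    ring

theorem profD2_nonneg {r : ℝ} (h : r ≤ 2) : 0 ≤ profD2 r := by
  rcases le_or_gt r (-1) with h' | h'
  · simp [profD2, prof_zero h']
  · refine mul_nonneg (prof_nonneg r) ?_
    have hx : 0 < r + 1 := by linarith
    rw [sub_nonneg, div_le_div_iff₀ (by positivity) (by positivity)]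
    nlinarith [pow_pos hx 3]

theorem profD_le_profD2 {r : ℝ} (h : r ≤ 1) : profD r ≤ profD2 r := by
  rcases le_or_gt r (-1) with h' | h'
  · simp [profD, profD2, prof_zero h']
  · refine mul_le_mul_of_nonneg_left ?_ (prof_nonneg r)
    have hx : 0 < r + 1 := by linarith
    rw [← sub_nonneg, show 64 / (r + 1) ^ 4 - 16 / (r + 1) ^ 3 - 8 / (r + 1) ^ 2 =
      (64 - 16 * (r + 1) - 8 * (r + 1) ^ 2) / (r + 1) ^ 4 by field_simp]
    exact div_nonneg (by nlinarith) (by positivity)

theorem profD_sq_le {r : ℝ} (h : r ≤ 1) : profD r ^ 2 ≤ 2 * prof r * profD2 r := by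
  rcases le_or_gt r (-1) with h' | h'
  · simp [profD, profD2, prof_zero h']
  · have hx : 0 < r + 1 := by linarith
    rw [← sub_nonneg]
    simp only [profD, profD2]
    rw [show 2 * prof r * (prof r * (64 / (r + 1) ^ 4 - 16 / (r + 1) ^ 3)) -
      (prof r * (8 / (r + 1) ^ 2)) ^ 2 = prof r ^ 2 * (32 * (2 - (r + 1))) / (r + 1) ^ 4 by
        field_simp; ring]
    exact div_nonneg (mul_nonneg (sq_nonneg _) (by linarith)) (by positivity)

theorem monotoneOn_profD : MonotoneOn profD (Set.Iic 2) := by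
  refine monotoneOn_of_deriv_nonneg (convex_Iic 2) contDiff_profD.continuous.continuousOn
    (contDiff_profD.differentiable (by simp)).differentiableOn fun x hx => ?_
  rw [interior_Iic] at hx
  rw [(hasDerivAt_profD x).deriv]
  exact profD2_nonneg (le_of_lt hx)

theorem profD_le {r : ℝ} (h : r ≤ 2) : profD r ≤ 1 / 15 := by
  refine (monotoneOn_profD h Set.self_mem_Iic h).trans ?_
  have := prof_le (le_refl (2 : ℝ))
  simp only [profD]; norm_num; linarith

theorem one_sub_prof_pos (r : ℝ) : 0 < 1 - prof r := by linarith [prof_lt_one r]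

theorem contDiff_phiH : ContDiff ℝ ∞ phiH :=
  (((contDiff_const.sub contDiff_prof).sqrt fun r => (one_sub_prof_pos r).ne').inv fun r =>
    (Real.sqrt_pos.2 (one_sub_prof_pos r)).ne')

theorem phiH_pos (r : ℝ) : 0 < phiH r := inv_pos.2 (Real.sqrt_pos.2 (one_sub_prof_pos r))

theorem one_le_phiH (r : ℝ) : 1 ≤ phiH r := by
  refine one_le_inv_iff₀.2 ⟨Real.sqrt_pos.2 (one_sub_prof_pos r), ?_⟩
  exact Real.sqrt_le_one.2 (by linarith [prof_nonneg r])

theorem phiH_sq (r : ℝ) : phiH r ^ 2 = (1 - prof r)⁻¹ := by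
  rw [phiH, inv_pow, Real.sq_sqrt (one_sub_prof_pos r).le]

theorem phiH_le {r : ℝ} (h : r ≤ 2) : phiH r ≤ 11 / 10 := by
  have h1 : phiH r ^ 2 ≤ (11 / 10) ^ 2 := by
    rw [phiH_sq, inv_le_comm₀ (one_sub_prof_pos r) (by norm_num)]
    linarith [prof_le h]
  exact abs_le_of_sq_le_sq' h1 (by norm_num) |>.2

theorem phiH_left {r : ℝ} (h : r ≤ -1) : phiH r = 1 := by simp [phiH, prof_zero h]

/-- The derivative of `phiH`. -/
def phiHD (r : ℝ) : ℝ := profD r * phiH r ^ 3 / 2

theorem hasDerivAt_phiH (r : ℝ) : HasDerivAt phiH (phiHD r) r := by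
  have hs := (one_sub_prof_pos r)
  have h1 := ((((hasDerivAt_prof r).const_sub 1).sqrt hs.ne').inv (Real.sqrt_pos.2 hs).ne')
  refine h1.congr_deriv ?_
  have hq := Real.sq_sqrt hs.le
  have hq0 := (Real.sqrt_pos.2 hs).ne'
  simp only [phiHD, phiH]
  field_simp

theorem deriv_phiH : deriv phiH = phiHD := funext fun r => (hasDerivAt_phiH r).deriv

theorem phiHD_nonneg (r : ℝ) : 0 ≤ phiHD r :=
  div_nonneg (mul_nonneg (profD_nonneg r) (pow_nonneg (phiH_pos r).le 3)) two_pos.le

theorem phiHD_le {r : ℝ} (h : r ≤ 2) : phiHD r ≤ 1 / 15 := by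
  have h1 : phiH r ^ 3 ≤ (11 / 10) ^ 3 := pow_le_pow_left₀ (phiH_pos r).le (phiH_le h) 3
  have h2 := mul_le_mul (profD_le h) h1 (pow_nonneg (phiH_pos r).le 3) (by norm_num)
  simp only [phiHD]; norm_num at h2 ⊢; linarith

theorem hasDerivAt_phiHD (r : ℝ) :
    HasDerivAt phiHD ((profD2 r * phiH r ^ 3 + profD r * (3 * phiH r ^ 2 * phiHD r)) / 2) r := by
  have := ((hasDerivAt_profD r).mul ((hasDerivAt_phiH r).pow 3)).div_const 2
  exact this.congr_deriv (by simp)

theorem contDiff_phiHD : ContDiff ℝ ∞ phiHD :=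
  deriv_phiH ▸ (contDiff_infty_iff_deriv.1 contDiff_phiH).2

/-- The first derivative of a flare. -/
def flareD (c r : ℝ) : ℝ := phiHD r + Real.smoothTransition (r - 1) * (c - phiHD r)

theorem contDiff_blend (c : ℝ) :
    ContDiff ℝ ∞ fun x => Real.smoothTransition (x - 1) * (c - deriv phiH x) := by
  rw [deriv_phiH]
  exact (Real.smoothTransition.contDiff.comp (contDiff_id.sub contDiff_const)).mul
    (contDiff_const.sub contDiff_phiHD)

theorem hasDerivAt_flare (c r : ℝ) : HasDerivAt (flare c) (flareD c r) r := by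
  refine ((hasDerivAt_phiH r).add
    (((contDiff_blend c).continuous).integral_hasStrictDerivAt 1 r).hasDerivAt).congr_deriv ?_
  simp [flareD, deriv_phiH]

theorem deriv_flare (c : ℝ) : deriv (flare c) = flareD c :=
  funext fun r => (hasDerivAt_flare c r).deriv

theorem contDiff_flare (c : ℝ) : ContDiff ℝ ∞ (flare c) :=
  contDiff_infty_iff_deriv.2 ⟨fun r => (hasDerivAt_flare c r).differentiableAt, by
    rw [deriv_flare]
    exact contDiff_phiHD.add ((Real.smoothTransition.contDiff.comp
      (contDiff_id.sub contDiff_const)).mul (contDiff_const.sub contDiff_phiHD))⟩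

theorem contDiff_flareD (c : ℝ) : ContDiff ℝ ∞ (flareD c) :=
  deriv_flare c ▸ (contDiff_infty_iff_deriv.1 (contDiff_flare c)).2

theorem flare_eq {c r : ℝ} (h : r ≤ 1) : flare c r = phiH r := by
  have h0 : ∀ x ∈ Set.uIcc 1 r, Real.smoothTransition (x - 1) * (c - deriv phiH x) = (fun _ => (0 : ℝ)) x := by
    intro x hx
    rw [Set.uIcc_of_ge h] at hx
    simp [Real.smoothTransition.zero_of_nonpos (show x - 1 ≤ 0 by linarith [hx.2])]
  simp only [flare]
  rw [intervalIntegral.integral_congr h0]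
  simp

theorem flare_eq_one {c r : ℝ} (h : r ≤ -1) : flare c r = 1 := by
  rw [flare_eq (by linarith), phiH_left h]

theorem flareD_right {c r : ℝ} (h : 2 ≤ r) : flareD c r = c := by
  simp [flareD, Real.smoothTransition.one_of_one_le (show 1 ≤ r - 1 by linarith)]

theorem flareD_nonneg {c : ℝ} (hc : 1 ≤ c) (r : ℝ) : 0 ≤ flareD c r := by
  rcases le_or_gt 2 r with h | h
  · rw [flareD_right h]; linarith
  · have h1 := phiHD_le h.le
    exact add_nonneg (phiHD_nonneg r)
      (mul_nonneg (Real.smoothTransition.nonneg _) (by linarith))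

theorem flare_ge_one {c : ℝ} (hc : 1 ≤ c) (r : ℝ) : 1 ≤ flare c r := by
  rcases le_or_gt r 1 with h | h
  · rw [flare_eq h]; exact one_le_phiH r
  · have hm : Monotone (flare c) := monotone_of_deriv_nonneg
      (fun x => (hasDerivAt_flare c x).differentiableAt) (fun x => by
        rw [deriv_flare]; exact flareD_nonneg hc x)
    exact ((one_le_phiH 1).trans (flare_eq (c := c) le_rfl).ge).trans (hm h.le)

theorem flare_pos {c : ℝ} (hc : 1 ≤ c) (r : ℝ) : 0 < flare c r :=
  lt_of_lt_of_le one_pos (flare_ge_one hc r)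

theorem monotone_smoothTransition : Monotone Real.smoothTransition :=
  Real.smoothTransition.monotone

theorem deriv_flareD_nonneg {c : ℝ} (hc : 1 ≤ c) (r : ℝ) : 0 ≤ deriv (flareD c) r := by
  rcases lt_or_ge 2 r with h | h
  · have : flareD c =ᶠ[𝓝 r] fun _ => c := by
      filter_upwards [eventually_gt_nhds h] with s hs
      exact flareD_right hs.le
    rw [this.deriv_eq]; simp
  · set σ : ℝ → ℝ := fun x => Real.smoothTransition (x - 1)
    have hσd : Differentiable ℝ σ :=
      ((Real.smoothTransition.contDiff (n := (⊤ : ℕ∞))).comp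
        (contDiff_id.sub contDiff_const)).differentiable (by simp)
    have hσ0 : 0 ≤ deriv σ r := Monotone.deriv_nonneg
      (monotone_smoothTransition.comp (fun a b hab => by linarith))
    have hd := (hasDerivAt_phiHD r).add ((hσd r).hasDerivAt.mul ((hasDerivAt_phiHD r).const_sub c))
    have h2 := profD2_nonneg h
    have h3 : 0 ≤ (profD2 r * phiH r ^ 3 + profD r * (3 * phiH r ^ 2 * phiHD r)) / 2 := by
      have := phiH_pos r
      have := profD_nonneg r
      have := phiHD_nonneg r
      positivity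
    have he : deriv (flareD c) r = (profD2 r * phiH r ^ 3 + profD r * (3 * phiH r ^ 2 * phiHD r)) / 2 *
        (1 - σ r) + deriv σ r * (c - phiHD r) := by
      refine (hd.congr_deriv ?_).deriv
      ring
    rw [he]
    exact add_nonneg (mul_nonneg h3 (by linarith [Real.smoothTransition.le_one (r - 1)]))
      (mul_nonneg hσ0 (by linarith [phiHD_le h]))

theorem flare_two_le {c : ℝ} (hc : 1 ≤ c) : flare c 2 ≤ 11 / 10 + c := by
  have h : (∫ x in (1 : ℝ)..2, Real.smoothTransition (x - 1) * (c - deriv phiH x)) ≤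
      ∫ _x in (1 : ℝ)..2, c := by
    refine intervalIntegral.integral_mono_on (by norm_num)
      ((contDiff_blend c).continuous.intervalIntegrable _ _) intervalIntegrable_const fun x _ => ?_
    have h1 := phiHD_nonneg x
    have h2 := Real.smoothTransition.le_one (x - 1)
    have h3 := Real.smoothTransition.nonneg (x - 1)
    rw [deriv_phiH]
    nlinarith
  simp only [intervalIntegral.integral_const, smul_eq_mul] at h
  have := phiH_le (le_refl (2 : ℝ))
  simp only [flare]
  norm_num at h
  linarith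

theorem flare_right {c r : ℝ} (h : 2 ≤ r) : flare c r = flare c 2 + c * (r - 2) := by
  have hd : ∀ x ∈ Set.uIcc 2 r, HasDerivAt (flare c) ((fun _ => c) x) x := fun x hx => by
    rw [Set.uIcc_of_le h] at hx
    simpa [flareD_right hx.1] using hasDerivAt_flare c x
  have := intervalIntegral.integral_eq_sub_of_hasDerivAt hd intervalIntegrable_const
  simp only [intervalIntegral.integral_const, smul_eq_mul] at this
  linarith

theorem contDiff_step : ContDiff ℝ ∞ step :=
  Real.smoothTransition.contDiff.comp (contDiff_id.add contDiff_const)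

theorem contDiff_twist (δ : ℝ) : ContDiff ℝ ∞ (twist δ) := contDiff_const.mul contDiff_step

theorem step_left {r : ℝ} (h : r ≤ -1 / 2) : step r = 0 :=
  Real.smoothTransition.zero_of_nonpos (by linarith)

theorem step_right {r : ℝ} (h : 1 / 2 ≤ r) : step r = 1 :=
  Real.smoothTransition.one_of_one_le (by linarith)

theorem twist_left {δ r : ℝ} (h : r ≤ -1 / 2) : twist δ r = 0 := by simp [twist, step_left h]

theorem twist_right {δ r : ℝ} (h : 1 / 2 ≤ r) : twist δ r = δ := by simp [twist, step_right h]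

theorem slope_le {δ : ℝ} (h0 : 0 < δ) (h1 : δ ≤ 1) : 1 ≤ 2 * π / δ := by
  rw [le_div_iff₀ h0]; linarith [Real.pi_gt_three]

theorem one_le_two_pi : (1 : ℝ) ≤ 2 * π := by linarith [Real.pi_gt_three]

theorem contDiff_phi₁ (δ : ℝ) : ContDiff ℝ ∞ (phi₁ δ) := (contDiff_flare _).comp contDiff_neg

theorem contDiff_phi₂ : ContDiff ℝ ∞ phi₂ := contDiff_flare _

theorem phi₁_pos {δ : ℝ} (h0 : 0 < δ) (h1 : δ ≤ 1) (r : ℝ) : 0 < phi₁ δ r :=
  flare_pos (slope_le h0 h1) _

theorem phi₂_pos (r : ℝ) : 0 < phi₂ r := flare_pos one_le_two_pi _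

theorem phi₁_right {δ r : ℝ} (h : 1 ≤ r) : phi₁ δ r = 1 := flare_eq_one (by linarith)

theorem phi₂_left {r : ℝ} (h : r ≤ -1) : phi₂ r = 1 := flare_eq_one h

theorem rhoV_right {r : ℝ} (h : 2 ≤ r) : rhoV r = rhoV 2 + (r - 2) := by
  simp only [rhoV, phi₂]
  rw [flare_right h]
  field_simp

theorem rhoW_left {δ r : ℝ} (h0 : δ ≠ 0) (h : r ≤ -2) :
    rhoW δ r = rhoW δ (-2) + (-2 - r) := by
  simp only [rhoW, phi₁, neg_neg]
  rw [flare_right (show (2 : ℝ) ≤ -r by linarith)]
  field_simp
  ring

theorem rhoV_bounds : 0 < rhoV 2 ∧ rhoV 2 < 2 := by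
  refine ⟨div_pos (phi₂_pos 2) (by positivity), ?_⟩
  rw [rhoV, div_lt_iff₀ (by positivity)]
  have := flare_two_le one_le_two_pi
  simp only [phi₂]
  linarith [Real.pi_gt_three]

theorem rhoW_bounds {δ : ℝ} (h0 : 0 < δ) (h1 : δ ≤ 1) :
    0 < rhoW δ (-2) ∧ rhoW δ (-2) < 2 := by
  refine ⟨div_pos (mul_pos h0 (phi₁_pos h0 h1 _)) (by positivity), ?_⟩
  rw [rhoW, div_lt_iff₀ (by positivity)]
  have h2 := mul_le_mul_of_nonneg_left (flare_two_le (slope_le h0 h1)) h0.le
  have h3 : δ * (11 / 10 + 2 * π / δ) = δ * (11 / 10) + 2 * π := by field_simp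
  simp only [phi₁, neg_neg]
  linarith [Real.pi_gt_three]

end

end Vale.Agent.P255
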