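import Mathlib

/-!
# Statement: conjugate points and nonpositive curvature

Riemannian metrics are those of Mathlib. Geodesics, Jacobi fields and curvature are read in the
preferred chart at the point where they are used.
-/

open scoped Manifold ContDiff

namespace Vale.Agent.P255.Statement

noncomputable section

variable {E : Type} [NormedAddCommGroup E] [NormedSpace ℝ E]

/-- Bilinear forms. -/
abbrev Form (E : Type) [NormedAddCommGroup E] [NormedSpace ℝ E] : Type := E →L[ℝ] E →L[ℝ] ℝ

/-- The Christoffel symbols `Γ(u, v)` at `y` of the components `G` of a metric. -/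
def gamma (G : E → Form E) (y u v : E) : E :=
  (1 / 2 : ℝ) • (G y).inverse
    (fderiv ℝ G y u v + fderiv ℝ G y v u - ((fderiv ℝ G y).flip u).flip v)

/-- The curvature operator `R(u, v) w` at `y` of the components `G` of a metric. -/
def curvature (G : E → Form E) (y u v w : E) : E :=
  fderiv ℝ (fun z => gamma G z v w) y u - fderiv ℝ (fun z => gamma G z u w) y v +
    gamma G y u (gamma G y v w) - gamma G y v (gamma G y u w)

variable {M : Type} [TopologicalSpace M] [ChartedSpace E M] [IsManifold 𝓘(ℝ, E) ∞ M]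

variable (E M) in
/-- Smooth Riemannian metrics. -/
abbrev Metric :=
  Bundle.ContMDiffRiemannianMetric (IB := 𝓘(ℝ, E)) (n := ∞) (F := E)
    (E := fun x : M => TangentSpace 𝓘(ℝ, E) x)

/-- The components of a metric in the preferred chart at `x`. -/
def components (g : Metric E M) (x : M) : E → Form E := fun y =>
  let L : E →L[ℝ] E := mfderiv 𝓘(ℝ, E) 𝓘(ℝ, E) (extChartAt 𝓘(ℝ, E) x).symm y
  let B : Form E := g.inner ((extChartAt 𝓘(ℝ, E) x).symm y)
  B.bilinearComp L L

variable (E) in
/-- A curve read in the preferred chart at its point at time `t`. -/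
def local' (γ : ℝ → M) (t : ℝ) : ℝ → E := fun s => extChartAt 𝓘(ℝ, E) (γ t) (γ s)

/-- A smooth curve with zero covariant acceleration. -/
def Geodesic (g : Metric E M) (γ : ℝ → M) : Prop :=
  ContMDiff 𝓘(ℝ, ℝ) 𝓘(ℝ, E) ∞ γ ∧ ∀ t : ℝ,
    deriv (deriv (local' E γ t)) t +
      gamma (components g (γ t)) (local' E γ t t) (deriv (local' E γ t) t)
        (deriv (local' E γ t) t) = 0

/-- A vector field along a curve, read in the preferred chart at the point at time `t`. -/
def field (γ : ℝ → M) (J : ∀ s, TangentSpace 𝓘(ℝ, E) (γ s)) (t : ℝ) : ℝ → E := fun s =>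
  mfderiv 𝓘(ℝ, E) 𝓘(ℝ, E) (extChartAt 𝓘(ℝ, E) (γ t)) (γ s) (J s)

/-- The covariant derivative of a field along a curve. -/
def covariant (g : Metric E M) (γ : ℝ → M) (J : ∀ s, TangentSpace 𝓘(ℝ, E) (γ s)) (t : ℝ) :
    ℝ → E := fun s =>
  deriv (field γ J t) s +
    gamma (components g (γ t)) (local' E γ t s) (deriv (local' E γ t) s) (field γ J t s)

/-- A `C^2` field with `J'' + R(J, γ') γ' = 0`. -/
def Jacobi (g : Metric E M) (γ : ℝ → M) (J : ∀ s, TangentSpace 𝓘(ℝ, E) (γ s)) : Prop :=
  ∀ t : ℝ, ContDiffAt ℝ 2 (field γ J t) t ∧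
    deriv (covariant g γ J t) t +
      gamma (components g (γ t)) (local' E γ t t) (deriv (local' E γ t) t)
        (covariant g γ J t t) +
      curvature (components g (γ t)) (local' E γ t t) (field γ J t t) (deriv (local' E γ t) t)
        (deriv (local' E γ t) t) = 0

/-- No nonzero Jacobi field vanishes at two times. -/
def NoConjugate (g : Metric E M) : Prop :=
  ∀ (γ : ℝ → M) (J : ∀ s, TangentSpace 𝓘(ℝ, E) (γ s)) (a b : ℝ), Geodesic g γ → Jacobi g γ J →
    a < b → J a = 0 → J b = 0 → ∀ t, J t = 0

/-- All sectional curvatures are nonpositive. -/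
def Nonpositive (g : Metric E M) : Prop :=
  ∀ (x : M) (u v : E),
    components g x (extChartAt 𝓘(ℝ, E) x x)
      (curvature (components g x) (extChartAt 𝓘(ℝ, E) x x) u v v) u ≤ 0

/-- A closed connected manifold modelled on `E` with a metric without conjugate points and with
no metric of nonpositive sectional curvature. -/
def Counterexample (E : Type) [NormedAddCommGroup E] [NormedSpace ℝ E] : Prop :=
  ∃ (M : Type) (_ : TopologicalSpace M) (_ : T2Space M) (_ : CompactSpace M)
    (_ : ConnectedSpace M) (_ : ChartedSpace E M) (_ : IsManifold 𝓘(ℝ, E) ∞ M),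
    (∃ g : Metric E M, NoConjugate g) ∧ ∀ h : Metric E M, ¬ Nonpositive h

end

end Vale.Agent.P255.Statement
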